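import Vale.Agent.P251.B.Final

/-!
# P257, Toda lemma: the class `α₁`

`exists_of_div'` : if `p b = d c` in weight `w`, `b` of filtration `s + 1`, and the groups of the
vanishing line in stem `2 w - (s + 1)` are zero from filtration `s + 2` on, the image of `b` in the
`E_1`-term comes from a map `𝟙⟦2w⟧ ⟶ B (s + 1)`.  `exists_alpha_one`: the case `b = t₁`.
-/

open CategoryTheory MonoidalCategory Limits Pretriangulated MonObj

universe v u

namespace Vale.Agent.P257.H762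

open Vale.Agent.P251.T Vale.Agent.P251.M Vale.Agent.P251.S Vale.Agent.P251.F Vale.Agent.P251.I
  Vale.Agent.P251.B

variable {T : Type u} [Category.{v} T] [Preadditive T] [HasZeroObject T]
    [HasShift T ℤ] [∀ n : ℤ, (shiftFunctor T n).Additive] [Pretriangulated T]

/-- Division by `p` in a tower. -/
theorem exists_div_tower (X : Tow T) {F : T ⥤ T} [F.CommShift ℤ] [F.IsTriangulated]
    (τ : 𝟭 T ⟶ F) [NatTrans.CommShift τ ℤ] (P : T) (p : ℤ) (s : ℕ) (m : ℤ)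
    (hker : ∀ (t : ℤ) (y : P⟦t⟧ ⟶ X.J (s + 1)), y ≫ τ.app (X.J (s + 1)) = 0 → ∃ w, p • w = y)
    (hv : ∀ s' ≥ s + 1, ((X.map F).couple P).Van s' m)
    (N : ℕ) (hN : s + 1 ≤ N) (hconn : ∀ y : P⟦m + (N : ℤ)⟧ ⟶ F.obj (X.J N), y = 0)
    (t : ℤ) (ht : t = m + 1 + s) (θ : P⟦t⟧ ⟶ X.W s)
    (hθ : θ ≫ τ.app (X.W s) ≫ F.map (X.b s ≫ X.a (s + 1)) = 0) :
    ∃ x : P⟦t⟧ ⟶ X.J (s + 1), p • x = θ ≫ X.b s ∧
      p • (x ≫ X.a (s + 1)) = θ ≫ X.b s ≫ X.a (s + 1) := by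
  suffices h : ∃ x : P⟦t⟧ ⟶ X.J (s + 1), p • x = θ ≫ X.b s by
    obtain ⟨x, hx⟩ := h
    exact ⟨x, hx, by rw [← Preadditive.zsmul_comp, hx, Category.assoc]⟩
  let φ := mapUnit X τ
  let ρ : Red (X.couple P) ((X.map F).couple P) :=
    { fD := φ.fD P
      fE := φ.fE P
      i_comm := φ.i_fD P
      j_comm := φ.j_fD P
      k_comm := φ.k_fE P }
  have h1 : (m + 1) + (s : ℤ) = t := ht.symm
  have h2 : m + ((s + 1 : ℕ) : ℤ) = t := by rw [ht]; push_cast; ring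
  let τ' : (X.couple P).E s (m + 1) := (X.eE P h1).symm θ
  have hcoc : ((X.map F).couple P).IsCocycle (ρ.fE s (m + 1) τ') := by
    intro m' hm'
    obtain rfl : m' = m := by linarith
    apply ((X.map F).eE P h2).injective
    rw [(X.map F).eE_d P hm' h1 h2, map_zero]
    change (X.map F).eE P h1 (φ.fE P s _ τ') ≫ _ = 0
    rw [φ.eE_fE P h1]
    change (X.eE P h1 ((X.eE P h1).symm θ) ≫ τ.app (X.W s)) ≫ F.map (X.b s) ≫
      F.map (X.a (s + 1)) = 0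
    rw [AddEquiv.apply_symm_apply, ← F.map_comp, Category.assoc, hθ]
  obtain ⟨r, rfl⟩ : ∃ r, N = s + 1 + r := ⟨N - (s + 1), by omega⟩
  obtain ⟨x, hx, -⟩ := exists_beta ρ p rfl τ' hcoc hv r
    (fun y => hconn y)
    (fun y hy => by
      obtain ⟨w, hw⟩ := hker (m + ((s + 1 : ℕ) : ℤ)) y hy
      exact ⟨w, hw⟩)
  refine ⟨X.eD P h2 x, ?_⟩
  have := congrArg (X.eD P h2) hx
  rw [map_zsmul, X.eD_k P rfl h1 h2, AddEquiv.apply_symm_apply] at this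
  exact this

variable [MonoidalCategory T] [SymmetricCategory T] [TensorTriangulated T] [HasCoproducts.{0} T]
  [MonoidalClosed T] [IsTriangulated T] [HasProducts.{0} T] [StableCat T]
  (D : MUData T) (U : UnitCof D.R) {p : ℕ} [Fact p.Prime] (hp : p ≠ 2)

include hp

/-- Division by `p` of a coboundary of filtration `s + 1`. -/
theorem exists_of_div' (s : ℕ) (w : ℤ)
    (hw : ∀ a : ℤ, 1 ≤ a → ¬ (((p : ℤ) - 1) ∣ w + a ∧
      ((p : ℤ) - 1) * (2 * a + s + 1) ≤ w + a))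
    (c : Cob.wt Laz s w) (b : Cob.wt Laz (s + 1) w) (hbc : (p : ℤ) • b = Cob.dwt Laz s w c) :
    ∃ x : (𝟙_ T)⟦2 * w⟧ ⟶ U.cobar.B (s + 1) (𝟙_ T),
      ((sphE T w).inv ≫ D.phi U (s + 1) w b) ≫ U.cobar.q (s + 1) (𝟙_ T) =
        x ≫ unitMap D.R _ := by
  obtain ⟨C, i, δ, hC⟩ := distinguished_cocone_triangle ((p : ℤ) • 𝟙 (𝟙_ T))
  let X := U.tow (𝟙_ T)
  let θ : (𝟙_ T)⟦2 * w⟧ ⟶ X.W s := ((sphE T w).inv ≫ D.phi U s w c) ≫ U.cobar.q s (𝟙_ T)
  have hθ : θ ≫ X.b s ≫ X.a (s + 1) =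
      (p : ℤ) • (((sphE T w).inv ≫ D.phi U (s + 1) w b) ≫ U.cobar.q (s + 1) (𝟙_ T)) := by
    change (((sphE T w).inv ≫ D.phi U s w c) ≫ U.cobar.q s (𝟙_ T)) ≫ U.cobar.D s (𝟙_ T) = _
    rw [Category.assoc, ← U.cobar.d_q s (𝟙_ T), Category.assoc, ← Category.assoc (D.phi U s w c)]
    have h2 : D.phi U s w c ≫ U.cobar.d (s + 1) (𝟙_ T) = (p : ℤ) • D.phi U (s + 1) w b := by
      rw [← D.phi_d U s w c, ← hbc, map_zsmul]
    change (sphE T w).inv ≫ (D.phi U s w c ≫ U.cobar.d (s + 1) (𝟙_ T)) ≫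
      U.cobar.q (s + 1) (𝟙_ T) = _
    rw [h2, Preadditive.zsmul_comp, Preadditive.comp_zsmul, Category.assoc]
  let N : ℕ := max (s + 1) (2 * w).toNat
  obtain ⟨x, -, hx⟩ := exists_div_tower X (redC i) (𝟙_ T) (p : ℤ) s (2 * w - s - 1)
    (fun t y hy => exists_zsmul_of_red hC y hy)
    (fun s' hs => van_modP D U hp hC rfl (fun w' hw' => by
      have h3 : ((s' : ℤ) + 1) = 2 * (w' - w) + s + 1 := by
        push_cast at hw'
        linarith
      have h4 := hw (w' - w) (by have : (s : ℤ) + 1 ≤ s' := by exact_mod_cast hs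
                                 omega)
      rw [h3]
      have h5 : w + (w' - w) = w' := by ring
      rwa [h5] at h4))
    N (le_max_left _ _)
    (fun y => conn_red hC (conn_B D U N) _ (by
      have h6 : 2 * w ≤ (N : ℤ) :=
        (Int.self_le_toNat (2 * w)).trans (by exact_mod_cast le_max_right _ _)
      have h7 : (0 : ℤ) ≤ s := Int.natCast_nonneg s
      linarith) y)
    (2 * w) (by ring) θ (by
      have h7 : θ ≫ (redC i).app (X.W s) ≫ (tensorRight C).map (X.b s ≫ X.a (s + 1)) =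
          (θ ≫ X.b s ≫ X.a (s + 1)) ≫ (redC i).app (X.W (s + 1)) := by
        rw [← (redC i).naturality (X.b s ≫ X.a (s + 1))]
        simp only [Category.assoc, Functor.id_map]
      rw [h7, hθ]
      exact zsmul_comp_red hC _)
  refine ⟨x, ?_⟩
  have hx' : (p : ℤ) • (x ≫ unitMap D.R (U.cobar.B (s + 1) (𝟙_ T))) =
      (p : ℤ) • (((sphE T w).inv ≫ D.phi U (s + 1) w b) ≫ U.cobar.q (s + 1) (𝟙_ T)) :=
    hx.trans hθ
  have h8 := torsionFree_W D U hp hC (s + 1) w (x ≫ unitMap D.R (U.cobar.B (s + 1) (𝟙_ T)) -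
    ((sphE T w).inv ≫ D.phi U (s + 1) w b) ≫ U.cobar.q (s + 1) (𝟙_ T))
    (by rw [zsmul_sub, hx', sub_self])
  exact (sub_eq_zero.1 h8).symm

omit hp [Fact p.Prime] [HasCoproducts.{0} T] [MonoidalClosed T] [IsTriangulated T]
  [HasProducts.{0} T] [StableCat T] in
/-- The vanishing line in the stem of `α₁`. -/
lemma alpha_numeric {p : ℕ} (hp3 : 3 ≤ p) (a : ℤ) (ha : 1 ≤ a) :
    ¬ (((p : ℤ) - 1) ∣ (p : ℤ) - 1 + a ∧
      ((p : ℤ) - 1) * (2 * a + (0 : ℕ) + 1) ≤ (p : ℤ) - 1 + a) := by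
  rintro ⟨-, h2⟩
  have hp' : (3 : ℤ) ≤ p := by exact_mod_cast hp3
  push_cast at h2
  nlinarith

/-- The class `α₁`: a map `𝟙⟦2(p-1)⟧ ⟶ J` with image `t`. -/
theorem exists_alpha_one {t : Cob Laz 1} (ht : IsT1 p t) {v : ℤ} (hv : v = (p - 1 : ℕ))
    (htw : Cob.IsWt v t) :
    ∃ a : (𝟙_ T)⟦2 * v⟧ ⟶ U.cobar.B 1 (𝟙_ T),
      ((sphE T v).inv ≫ D.phi U 1 v ⟨t, htw⟩) ≫ U.cobar.q 1 (𝟙_ T) = a ≫ unitMap D.R _ := by
  have hp2 := (Fact.out : p.Prime).two_le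
  have hp3 : 3 ≤ p := by omega
  have hv' : v = (p : ℤ) - 1 := by
    rw [hv, Nat.cast_sub (by omega), Nat.cast_one]
  have hc : Cob.IsWt v (MvPolynomial.C (Laz.v p 1) : Cob Laz 0) := by
    have := isWt_v p 1 (by omega) 0
    rwa [pow_one, ← hv] at this
  refine exists_of_div' D U hp 0 v ?_ ⟨_, hc⟩ ⟨_, htw⟩ (Subtype.ext ht)
  intro a ha
  rw [hv']
  exact alpha_numeric hp3 a ha

end Vale.Agent.P257.H762
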