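import Vale.Agent.P257.H762.SqZero
import Vale.Agent.P251.B.Final

/-!
# P257, Toda lemma: the vanishing line with coefficients in a complex with cells in dimensions
divisible by `q = 2(p-1)`

`GoodC Y`: the odd homotopy of `Q (s+1) Y ⊗ S/p` vanishes and the cobar complex of `Y ⊗ S/p` is
exact off the vanishing line.  This holds for `Y = 𝟙`, and is stable under `Y ↦ Y⟦q⟧`,
isomorphisms and extensions.
-/

open CategoryTheory MonoidalCategory Limits Pretriangulated MonObj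

set_option linter.unusedSectionVars false

universe v u

namespace Vale.Agent.P257.H762

open Vale.Agent.P251.T Vale.Agent.P251.M Vale.Agent.P251.S Vale.Agent.P251.F Vale.Agent.P251.I
  Vale.Agent.P251.B

variable {T : Type u} [Category.{v} T] [Preadditive T] [HasZeroObject T]
    [HasShift T ℤ] [∀ n : ℤ, (shiftFunctor T n).Additive] [Pretriangulated T]
    [MonoidalCategory T] [SymmetricCategory T] [TensorTriangulated T]

section Q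

variable {R : T} [MonObj R] (U : UnitCof R)

/-- The functors `Q n (-) ⊗ C` are exact. -/
lemma exists_tri_Q (C : T) (n : ℕ) {Y' Y Y'' : T} {f : Y' ⟶ Y} {g : Y ⟶ Y''}
    {h : Y'' ⟶ Y'⟦(1 : ℤ)⟧} (hT : Triangle.mk f g h ∈ distTriang T) :
    ∃ h', Triangle.mk (U.cobar.Qm n f ▷ C) (U.cobar.Qm n g ▷ C) h' ∈ distTriang T := by
  induction n generalizing Y' Y Y'' with
  | zero => exact ⟨_, dist_whiskerRight C hT⟩
  | succ n ih => exact ih (dist_whiskerLeft R hT)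

instance κQ_isIso (k : ℤ) (s : ℕ) (Y : T) : IsIso (U.κQ k s Y) := by
  induction s generalizing Y with
  | zero => exact inferInstanceAs (IsIso (𝟙 _))
  | succ s ih =>
    have h1 : IsIso (U.cobar.Qm s (csh R k Y).inv) :=
      ⟨U.cobar.Qm s (csh R k Y).hom, by rw [← CobarData.Qm_comp, Iso.inv_hom_id, CobarData.Qm_id],
        by rw [← CobarData.Qm_comp, Iso.hom_inv_id, CobarData.Qm_id]⟩
    have h2 := ih (R ⊗ Y)
    rw [UnitCof.κQ_succ]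
    exact IsIso.comp_isIso

/-- `(Q n Y ⊗ C)⟦k⟧ ≅ Q n (Y⟦k⟧) ⊗ C`. -/
noncomputable def qsh (C : T) (k : ℤ) (n : ℕ) (Y : T) :
    (U.cobar.Q n Y ⊗ C)⟦k⟧ ≅ U.cobar.Q n (Y⟦k⟧) ⊗ C :=
  (((tensorRight C).commShiftIso k).app (U.cobar.Q n Y)).symm ≪≫
    whiskerRightIso (asIso (U.κQ k n Y)) C

@[reassoc]
lemma qsh_d (C : T) (k : ℤ) (n : ℕ) (Y : T) :
    (U.cobar.d n Y ▷ C)⟦k⟧' ≫ (qsh U C k (n + 1) Y).hom =
      (qsh U C k n Y).hom ≫ (U.cobar.d n (Y⟦k⟧) ▷ C) := by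
  have h1 : (U.cobar.d n Y ▷ C)⟦k⟧' ≫
      ((tensorRight C).commShiftIso k).inv.app (U.cobar.Q (n + 1) Y) =
      ((tensorRight C).commShiftIso k).inv.app (U.cobar.Q n Y) ≫
        ((U.cobar.d n Y)⟦k⟧' ▷ C) :=
    ((tensorRight C).commShiftIso k).inv.naturality (U.cobar.d n Y)
  change (U.cobar.d n Y ▷ C)⟦k⟧' ≫ ((tensorRight C).commShiftIso k).inv.app (U.cobar.Q (n + 1) Y) ≫
      (U.κQ k (n + 1) Y ▷ C) = (((tensorRight C).commShiftIso k).inv.app (U.cobar.Q n Y) ≫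
      (U.κQ k n Y ▷ C)) ≫ (U.cobar.d n (Y⟦k⟧) ▷ C)
  rw [reassoc_of% h1, ← comp_whiskerRight, UnitCof.κQ_d, comp_whiskerRight, Category.assoc]

end Q

section good

variable [HasCoproducts.{0} T] (D : MUData T) (U : UnitCof D.R) (p : ℕ) (C : T)

/-- The vanishing line with coefficients in `Y ⊗ C`. -/
structure GoodC (Y : T) : Prop where
  odd (s : ℕ) (k : ℤ) (f : (𝟙_ T)⟦2 * k + 1⟧ ⟶ U.cobar.Q (s + 1) Y ⊗ C) : f = 0
  exact (s : ℕ) (w : ℤ) (hw : ¬ (((p : ℤ) - 1) ∣ w ∧ ((p : ℤ) - 1) * (s + 1) ≤ w))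
    (c : (𝟙_ T)⟦2 * w⟧ ⟶ U.cobar.Q (s + 2) Y ⊗ C)
    (hc : c ≫ (U.cobar.d (s + 2) Y ▷ C) = 0) :
    ∃ c' : (𝟙_ T)⟦2 * w⟧ ⟶ U.cobar.Q (s + 1) Y ⊗ C, c' ≫ (U.cobar.d (s + 1) Y ▷ C) = c

namespace GoodC

variable {D U p C}

lemma of_iso {Y Y' : T} (e : Y ≅ Y') (h : GoodC D U p C Y) : GoodC D U p C Y' where
  odd s k f := by
    have h1 := h.odd s k (f ≫ (U.cobar.Qm (s + 1) e.inv ▷ C))
    have h2 := congrArg (fun z => z ≫ (U.cobar.Qm (s + 1) e.hom ▷ C)) h1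
    simp only [Category.assoc, ← comp_whiskerRight, ← CobarData.Qm_comp, Iso.inv_hom_id,
      CobarData.Qm_id, id_whiskerRight, zero_comp] at h2
    rwa [Category.comp_id] at h2
  exact s w hw c hc := by
    obtain ⟨c', hc'⟩ := h.exact s w hw (c ≫ (U.cobar.Qm (s + 2) e.inv ▷ C)) (by
      rw [Category.assoc, ← comp_whiskerRight, CobarData.d_naturality, comp_whiskerRight,
        reassoc_of% hc, zero_comp])
    refine ⟨c' ≫ (U.cobar.Qm (s + 1) e.hom ▷ C), ?_⟩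
    rw [Category.assoc, ← comp_whiskerRight, CobarData.d_naturality, comp_whiskerRight,
      reassoc_of% hc', ← comp_whiskerRight, ← CobarData.Qm_comp, Iso.inv_hom_id, CobarData.Qm_id,
      id_whiskerRight, Category.comp_id]

lemma shift {Y : T} (h : GoodC D U p C Y) (v : ℤ) (hv : v = (p : ℤ) - 1) (hp : 2 ≤ p) :
    GoodC D U p C (Y⟦2 * v⟧) where
  odd s k f := by
    have e : 2 * (k - v) + 1 + 2 * v = 2 * k + 1 := by ring
    have h1 := h.odd s (k - v) ((sh (2 * (k - v) + 1) (2 * v) (2 * k + 1) e).symm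
      (f ≫ (qsh U C (2 * v) (s + 1) Y).inv))
    rw [AddEquiv.map_eq_zero_iff] at h1
    have h2 := congrArg (fun z => z ≫ (qsh U C (2 * v) (s + 1) Y).hom) h1
    simpa using h2
  exact s w hw c hc := by
    have e : 2 * (w - v) + 2 * v = 2 * w := by ring
    have hi : (U.cobar.d (s + 2) (Y⟦2 * v⟧) ▷ C) ≫ (qsh U C (2 * v) (s + 3) Y).inv =
        (qsh U C (2 * v) (s + 2) Y).inv ≫ (U.cobar.d (s + 2) Y ▷ C)⟦2 * v⟧' := by
      rw [Iso.comp_inv_eq, Category.assoc, qsh_d, Iso.inv_hom_id_assoc]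
    obtain ⟨c', hc'⟩ := h.exact s (w - v) (by
      rintro ⟨h1, h2⟩
      apply hw
      rw [hv] at h1 h2
      refine ⟨by simpa using h1, ?_⟩
      have : (2 : ℤ) ≤ p := by exact_mod_cast hp
      linarith)
      ((sh (2 * (w - v)) (2 * v) (2 * w) e).symm (c ≫ (qsh U C (2 * v) (s + 2) Y).inv)) (by
        rw [sh_symm_comp, Category.assoc, ← hi, reassoc_of% hc, zero_comp, map_zero])
    refine ⟨sh (2 * (w - v)) (2 * v) (2 * w) e c' ≫ (qsh U C (2 * v) (s + 1) Y).hom, ?_⟩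
    rw [Category.assoc, ← qsh_d, ← Category.assoc, ← sh_comp, hc', AddEquiv.apply_symm_apply,
      Category.assoc, Iso.inv_hom_id, Category.comp_id]

/-- Two out of three. -/
lemma ext {Y' Y Y'' : T} {f : Y' ⟶ Y} {g : Y ⟶ Y''}
    {h : Y'' ⟶ Y'⟦(1 : ℤ)⟧} (hT : Triangle.mk f g h ∈ distTriang T)
    (h' : GoodC D U p C Y') (h'' : GoodC D U p C Y'') : GoodC D U p C Y := by
  have hodd : ∀ (s : ℕ) (k : ℤ) (z : (𝟙_ T)⟦2 * k + 1⟧ ⟶ U.cobar.Q (s + 1) Y ⊗ C), z = 0 := by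
    intro s k z
    obtain ⟨h₁, hT₁⟩ := exists_tri_Q U C (s + 1) hT
    obtain ⟨z', hz'⟩ : ∃ z' : (𝟙_ T)⟦2 * k + 1⟧ ⟶ U.cobar.Q (s + 1) Y' ⊗ C,
        z = z' ≫ (U.cobar.Qm (s + 1) f ▷ C) :=
      Triangle.coyoneda_exact₂ _ hT₁ z (h''.odd s k _)
    rw [hz', h'.odd s k z', zero_comp]
  -- surjectivity
  have hsurj : ∀ (s : ℕ) (w : ℤ) (z : (𝟙_ T)⟦2 * w⟧ ⟶ U.cobar.Q (s + 1) Y'' ⊗ C),
      ∃ y : (𝟙_ T)⟦2 * w⟧ ⟶ U.cobar.Q (s + 1) Y ⊗ C, y ≫ (U.cobar.Qm (s + 1) g ▷ C) = z := by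
    intro s w z
    obtain ⟨h₁, hT₁⟩ := exists_tri_Q U C (s + 1) hT
    have h0 : z ≫ h₁ = 0 := by
      have e : 2 * (w - 1) + 1 + 1 = 2 * w := by ring
      have h2 := h'.odd s (w - 1) ((sh (2 * (w - 1) + 1) 1 (2 * w) e).symm (z ≫ h₁))
      rwa [AddEquiv.map_eq_zero_iff] at h2
    obtain ⟨y, hy⟩ : ∃ y : (𝟙_ T)⟦2 * w⟧ ⟶ U.cobar.Q (s + 1) Y ⊗ C,
        z = y ≫ (U.cobar.Qm (s + 1) g ▷ C) := Triangle.coyoneda_exact₃ _ hT₁ z h0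
    exact ⟨y, hy.symm⟩
  -- exactness in the middle
  have hmid : ∀ (s : ℕ) (w : ℤ) (z : (𝟙_ T)⟦2 * w⟧ ⟶ U.cobar.Q (s + 1) Y ⊗ C),
      z ≫ (U.cobar.Qm (s + 1) g ▷ C) = 0 →
      ∃ y : (𝟙_ T)⟦2 * w⟧ ⟶ U.cobar.Q (s + 1) Y' ⊗ C, y ≫ (U.cobar.Qm (s + 1) f ▷ C) = z := by
    intro s w z hz
    obtain ⟨h₁, hT₁⟩ := exists_tri_Q U C (s + 1) hT
    obtain ⟨y, hy⟩ : ∃ y : (𝟙_ T)⟦2 * w⟧ ⟶ U.cobar.Q (s + 1) Y' ⊗ C,
        z = y ≫ (U.cobar.Qm (s + 1) f ▷ C) := Triangle.coyoneda_exact₂ _ hT₁ z hz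
    exact ⟨y, hy.symm⟩
  -- injectivity
  have hinj : ∀ (s : ℕ) (w : ℤ) (z : (𝟙_ T)⟦2 * w⟧ ⟶ U.cobar.Q (s + 1) Y' ⊗ C),
      z ≫ (U.cobar.Qm (s + 1) f ▷ C) = 0 → z = 0 := by
    intro s w z hz
    obtain ⟨h₁, hT₁⟩ := exists_tri_Q U C (s + 1) hT
    have e : 2 * w + 1 = 2 * w + 1 := rfl
    have h2 : sh (2 * w) 1 (2 * w + 1) e z ≫ (U.cobar.Qm (s + 1) f ▷ C)⟦(1 : ℤ)⟧' = 0 := by
      rw [← sh_comp, hz, map_zero]
    obtain ⟨y, hy⟩ : ∃ y : (𝟙_ T)⟦2 * w + 1⟧ ⟶ U.cobar.Q (s + 1) Y'' ⊗ C,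
        sh (2 * w) 1 (2 * w + 1) e z = y ≫ h₁ := Triangle.coyoneda_exact₁ _ hT₁ _ h2
    rw [h''.odd s w y, zero_comp, AddEquiv.map_eq_zero_iff] at hy
    exact hy
  refine ⟨hodd, ?_⟩
  intro s w hw c hc
  obtain ⟨b'', hb''⟩ := h''.exact s w hw (c ≫ (U.cobar.Qm (s + 2) g ▷ C)) (by
    rw [Category.assoc, ← comp_whiskerRight, CobarData.d_naturality, comp_whiskerRight,
      reassoc_of% hc, zero_comp])
  obtain ⟨b, rfl⟩ := hsurj s w b''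
  obtain ⟨a, ha⟩ := hmid (s + 1) w (c - b ≫ (U.cobar.d (s + 1) Y ▷ C)) (by
    rw [Preadditive.sub_comp, Category.assoc b, ← comp_whiskerRight, ← CobarData.d_naturality,
      comp_whiskerRight, ← Category.assoc b, hb'', sub_self])
  have hda : a ≫ (U.cobar.d (s + 2) Y' ▷ C) = 0 := by
    apply hinj (s + 2) w
    rw [Category.assoc, ← comp_whiskerRight, ← CobarData.d_naturality, comp_whiskerRight,
      reassoc_of% ha, Preadditive.sub_comp, hc, Category.assoc, ← comp_whiskerRight,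
      CobarData.d_d]
    simp
  obtain ⟨a', ha'⟩ := h'.exact s w hw a hda
  refine ⟨b + a' ≫ (U.cobar.Qm (s + 1) f ▷ C), ?_⟩
  rw [Preadditive.add_comp, Category.assoc, ← comp_whiskerRight, CobarData.d_naturality,
    comp_whiskerRight, reassoc_of% ha', ha, add_sub_cancel]

variable {i : 𝟙_ T ⟶ C} {δ : C ⟶ (𝟙_ T)⟦(1 : ℤ)⟧}

lemma unit [Fact p.Prime] (hp : p ≠ 2)
    (hC : Triangle.mk ((p : ℤ) • 𝟙 (𝟙_ T)) i δ ∈ distTriang T) : GoodC D U p C (𝟙_ T) where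
  odd s k f := D.odd_red U hp hC s k f
  exact s w hw c hc := exact_modP D U hp hC (t := 2 * w)
    (fun w' hw' => by obtain rfl : w = w' := by omega
                      exact hw) c hc

lemma tensor_cof {Y K : T} {v : ℤ} {e : 𝟙_ T ⟶ K} {π : K ⟶ (𝟙_ T)⟦2 * v⟧}
    {α : (𝟙_ T)⟦2 * v⟧ ⟶ (𝟙_ T)⟦(1 : ℤ)⟧} (hK : Triangle.mk e π α ∈ distTriang T)
    (h : GoodC D U p C Y) (hv : v = (p : ℤ) - 1) (hp : 2 ≤ p) : GoodC D U p C (Y ⊗ K) :=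
  ext (dist_whiskerLeft Y hK) (h.of_iso (ρ_ Y).symm)
    ((h.shift v hv hp).of_iso (tensorSph (2 * v) Y).symm)

lemma tensor_sqZ {Y K : T} (h : GoodC D U p C Y) (h' : GoodC D U p C (Y ⊗ K)) :
    GoodC D U p C (Y ⊗ SqZ K) :=
  ext (dist_whiskerLeft Y (binaryBiproductTriangle_distinguished (𝟙_ T) K))
    (h.of_iso (ρ_ Y).symm) h'

lemma Am_sqZ {K : T} {v : ℤ} {e : 𝟙_ T ⟶ K} {π : K ⟶ (𝟙_ T)⟦2 * v⟧}
    {α : (𝟙_ T)⟦2 * v⟧ ⟶ (𝟙_ T)⟦(1 : ℤ)⟧} (hK : Triangle.mk e π α ∈ distTriang T)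
    (h : GoodC D U p C (𝟙_ T)) (hv : v = (p : ℤ) - 1) (hp : 2 ≤ p) (m : ℕ) :
    GoodC D U p C (Am (SqZ K) m) := by
  induction m with
  | zero => exact h
  | succ m ih => exact ih.tensor_sqZ (ih.tensor_cof hK hv hp)

lemma Am_cof {K : T} {v : ℤ} {e : 𝟙_ T ⟶ K} {π : K ⟶ (𝟙_ T)⟦2 * v⟧}
    {α : (𝟙_ T)⟦2 * v⟧ ⟶ (𝟙_ T)⟦(1 : ℤ)⟧} (hK : Triangle.mk e π α ∈ distTriang T)
    (h : GoodC D U p C (𝟙_ T)) (hv : v = (p : ℤ) - 1) (hp : 2 ≤ p) (m : ℕ) :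
    GoodC D U p C (Am K m) := by
  induction m with
  | zero => exact h
  | succ m ih => exact ih.tensor_cof hK hv hp

end GoodC

end good

section cells

variable [HasCoproducts.{0} T] [MonoidalClosed T]

lemma bigCell_unit : BigCell T 0 (𝟙_ T) :=
  BigCell.of_iso ((shiftFunctorZero T ℤ).app (𝟙_ T)) (BigCell.sphere 0 le_rfl)

lemma bigCell_cof {K : T} {v : ℤ} (hv : 0 ≤ v) {e : 𝟙_ T ⟶ K} {π : K ⟶ (𝟙_ T)⟦2 * v⟧}
    {α : (𝟙_ T)⟦2 * v⟧ ⟶ (𝟙_ T)⟦(1 : ℤ)⟧} (hK : Triangle.mk e π α ∈ distTriang T) :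
    BigCell T 0 K :=
  BigCell.ext _ hK bigCell_unit (BigCell.sphere (2 * v) (by omega))

lemma bigCell_sqZ {K : T} (hK : BigCell T 0 K) : BigCell T 0 (SqZ K) :=
  BigCell.ext _ (binaryBiproductTriangle_distinguished (𝟙_ T) K) bigCell_unit hK

lemma bigCell_Am {K : T} (hK : BigCell T 0 K) (m : ℕ) : BigCell T 0 (Am K m) := by
  induction m with
  | zero => exact bigCell_unit
  | succ m ih => exact ih.tensor hK 0 (by norm_num)

end cells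

end Vale.Agent.P257.H762
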