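import Vale.Agent.P257.H762.Cochain
import Vale.Agent.P257.H762.VanN

/-!
# P257, Toda lemma: `β₁` is divisible by `p` on the `(p-1)`-fold power of the cofibre of `α₁`

`toda_zero`.
-/

open CategoryTheory MonoidalCategory Limits Pretriangulated MonObj

set_option linter.unusedSectionVars false

universe v u

namespace Vale.Agent.P257.H762

open Vale.Agent.P251.T Vale.Agent.P251.M Vale.Agent.P251.S Vale.Agent.P251.F Vale.Agent.P251.I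
  Vale.Agent.P251.B

section pr

variable {T : Type u} [Category.{v} T] [Preadditive T] [MonoidalCategory T]
  [MonoidalPreadditive T] [HasBinaryBiproducts T]

/-- The projection `(𝟙 ⊕ K)^{⊗ m} ⟶ K^{⊗ m}`. -/
noncomputable def pr' (K : T) : ∀ m : ℕ, Am (SqZ K) m ⟶ Am K m
  | 0 => 𝟙 _
  | m + 1 => pr' K m ⊗ₘ SqZ.snd K

lemma epow_pr' {K : T} (e : 𝟙_ T ⟶ K) (m : ℕ) :
    epow (e ≫ SqZ.inr K) m ≫ pr' K m = epow e m := by
  induction m with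
  | zero => exact Category.comp_id _
  | succ m ih =>
    change ((ρ_ (𝟙_ T)).inv ≫ (epow (e ≫ SqZ.inr K) m ⊗ₘ (e ≫ SqZ.inr K))) ≫
      (pr' K m ⊗ₘ SqZ.snd K) = _
    rw [Category.assoc, tensorHom_comp_tensorHom, ih, Category.assoc, SqZ.inr_snd,
      Category.comp_id]
    rfl

end pr

variable {T : Type u} [Category.{v} T] [Preadditive T] [HasZeroObject T]
    [HasShift T ℤ] [∀ n : ℤ, (shiftFunctor T n).Additive] [Pretriangulated T]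
    [MonoidalCategory T] [SymmetricCategory T] [TensorTriangulated T] [HasCoproducts.{0} T]
    (D : MUData T) (U : UnitCof D.R)

section gdata

variable {v : ℤ} {t : Cob Laz 1} (htw : Cob.IsWt v t) (ht : Cob.d 1 t = 0)
    (a : (𝟙_ T)⟦2 * v⟧ ⟶ U.cobar.B 1 (𝟙_ T))
    (ha : ((sphE T v).inv ≫ D.phi U 1 v ⟨t, htw⟩) ≫ U.cobar.q 1 (𝟙_ T) = a ≫ unitMap D.R _)
    {K : T} {e : 𝟙_ T ⟶ K} {π : K ⟶ (𝟙_ T)⟦2 * v⟧}
    (hK : Triangle.mk e π (a ≫ U.bd 0 (𝟙_ T)) ∈ distTriang T)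

include ht ha hK

/-- The class `G`. -/
theorem exists_gdata : Nonempty (GData D K e (⟨t, htw⟩ : Cob.wt Laz 1 v)) := by
  obtain ⟨h, he, hτ⟩ := exists_h D U htw ht a ha hK
  obtain ⟨G, hG1, hG2⟩ := exists_G hK he
  have h2 : h ≫ vx D 1 1 - h ≫ vx D 1 0 = π ≫ ((sphE T v).inv ≫ D.evw 1 v ⟨t, htw⟩) := hτ
  have h3 := G_diff hK he hG1 hG2 (vx D 1 0) (vx D 1 1) h2
  refine ⟨⟨(sphE T v).hom ≫ G, ?_⟩⟩
  rw [Category.assoc, h3, Preadditive.comp_add, Category.assoc, Category.assoc,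
    Iso.hom_inv_id_assoc]

/-- The cochain which kills `b`, in the cobar complex of `(𝟙 ⊕ K)^{⊗(p-1)}`. -/
theorem exists_cochain_cobar (p : ℕ) [Fact p.Prime] {w : ℤ} (hb : Cob.IsWt w (bcls p t)) :
    ∃ (u : (𝟙_ T)⟦2 * w⟧ ⟶ U.cobar.Q 2 (Am (SqZ K) (p - 1)))
      (z : (𝟙_ T)⟦2 * w⟧ ⟶ U.cobar.Q 3 (Am (SqZ K) (p - 1))),
      u ≫ U.cobar.d 2 _ = ((sphE T w).inv ≫ D.phi U 2 w ⟨bcls p t, hb⟩) ≫
        U.cobar.Qm 3 (epow (e ≫ SqZ.inr K) (p - 1)) + (p : ℤ) • z := by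
  obtain ⟨Γ⟩ := exists_gdata D U htw ht a ha hK
  obtain ⟨u, z, h⟩ := Γ.exists_cochain p ht hb
  refine ⟨(sphE T w).inv ≫ u ≫ (U.θ 2 _).inv, (sphE T w).inv ≫ z ≫ (U.θ 3 _).inv, ?_⟩
  rw [← cancel_mono (U.θ 3 _).hom]
  have h1 := U.d_θ 2 (Am (SqZ K) (p - 1))
  have h2 := U.θ_naturality 3 (epow (e ≫ SqZ.inr K) (p - 1))
  have h3 : (D.qAm U 3).inv ≫ (U.θ 3 (𝟙_ T)).hom = (ρ_ (Am D.R 3)).inv := by
    rw [MUData.qAm, Iso.trans_inv, Category.assoc, Iso.inv_hom_id, Category.comp_id]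
  rw [Preadditive.add_comp, Preadditive.zsmul_comp]
  simp only [Category.assoc, Iso.inv_hom_id, Category.comp_id]
  rw [h1, Iso.inv_hom_id_assoc, h2, D.phi_apply, Category.assoc, reassoc_of% h3]
  change (sphE T w).inv ≫ u ≫ ∑ i : Fin 3, (-1 : ℤ) ^ (i : ℕ) •
          (Am.map D.R (Fin.succAbove i : Fin 2 → Fin 3) ▷ Am (SqZ K) (p - 1)) = _
  rw [h, Preadditive.comp_add, Preadditive.comp_zsmul]

end gdata

section van

variable {p : ℕ} [Fact p.Prime] (hp : p ≠ 2) {C : T} {i : 𝟙_ T ⟶ C} {δ : C ⟶ (𝟙_ T)⟦(1 : ℤ)⟧}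
  (hC : Triangle.mk ((p : ℤ) • 𝟙 (𝟙_ T)) i δ ∈ distTriang T)

/-- `Van` with coefficients in `N ⊗ C`. -/
theorem van_good {N : T} (hN : GoodC D U p C N) {s : ℕ} {m t : ℤ}
    (h : m + ((s + 1 : ℕ) : ℤ) = t)
    (hw : ∀ w : ℤ, t = 2 * w → ¬ (((p : ℤ) - 1) ∣ w ∧ ((p : ℤ) - 1) * (s + 1) ≤ w)) :
    (((U.tow N).map (tensorRight C)).couple (𝟙_ T)).Van s m := by
  refine U.van_of_exact N (tensorRight C) (𝟙_ T) h ?_
  intro c hc
  obtain ⟨w, rfl | rfl⟩ := Int.even_or_odd' t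
  · exact hN.exact s w (hw w rfl) c hc
  · refine ⟨0, ?_⟩
    rw [zero_comp]
    exact (hN.odd (s + 1) w c).symm

variable [MonoidalClosed T] [IsTriangulated T] [HasProducts.{0} T] [StableCat T]

lemma conn_BN {N : T} (hN : BigCell T 0 N) (s : ℕ) : Conn (2 * (s : ℤ)) (U.cobar.B s N) := by
  have h1 := bigCell_B D U hN s
  rw [zero_add] at h1
  exact h1.conn D.conn_unit (fun Y k f => StableCat.compact k Y f)

include hp hC

/-- A class of filtration two in the stem of `β₁` whose image is a coboundary modulo `p` dies,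
modulo `p`, in filtration one. -/
theorem divisible_of_cobdy {N : T} (hN : GoodC D U p C N) (hN' : BigCell T 0 N) {w : ℤ}
    (hw : w = (p : ℤ) * ((p : ℤ) - 1)) (y : (𝟙_ T)⟦2 * w⟧ ⟶ U.cobar.B 2 N)
    (u : (𝟙_ T)⟦2 * w⟧ ⟶ U.cobar.Q 2 N) (z : (𝟙_ T)⟦2 * w⟧ ⟶ U.cobar.Q 3 N)
    (h : y ≫ unitMap D.R _ = (u ≫ U.cobar.d 2 N - (p : ℤ) • z) ≫ U.cobar.q 2 N) :
    ∃ g : (𝟙_ T)⟦2 * w⟧ ⟶ (U.cobar.B 1 N)⟦(1 : ℤ)⟧, (p : ℤ) • g = y ≫ U.bd 1 N := by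
  have hp3 : 3 ≤ p := by
    have h1 := (Fact.out : p.Prime).two_le
    omega
  let F := tensorRight C
  let X := (U.tow N).map F
  let Cp := X.couple (𝟙_ T)
  have hred : ∀ {Y Z : T} (f : Y ⟶ Z), f ≫ (redC i).app Z = (redC i).app Y ≫ (f ▷ C) :=
    fun f => (redC i).naturality f
  let yb : (𝟙_ T)⟦2 * w⟧ ⟶ X.J 2 := (y - u ≫ U.cobar.q 1 N ≫ U.cobar.k 1 N) ≫ (redC i).app _
  have hj : yb ≫ X.a 2 = 0 := by
    change ((y - u ≫ U.cobar.q 1 N ≫ U.cobar.k 1 N) ≫ (redC i).app _) ≫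
      (unitMap D.R (U.cobar.B 2 N) ▷ C) = 0
    have h2 : (y - u ≫ U.cobar.q 1 N ≫ U.cobar.k 1 N) ≫ unitMap D.R (U.cobar.B 2 N) =
        (p : ℤ) • (-(z ≫ U.cobar.q 2 N)) := by
      have h3 : U.cobar.k 1 N ≫ unitMap D.R (U.cobar.B 2 N) = U.cobar.D 1 N := rfl
      rw [Preadditive.sub_comp, h, Category.assoc, Category.assoc, h3, ← CobarData.d_q,
        Preadditive.sub_comp, Category.assoc, Preadditive.zsmul_comp, smul_neg]
      abel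
    rw [Category.assoc, ← hred, ← Category.assoc, h2]
    exact zsmul_comp_red hC _
  have h1 : (2 * w - 2) + ((2 : ℕ) : ℤ) = 2 * w := by push_cast; ring
  let Y : Cp.D 2 (2 * w - 2) := (X.eD (𝟙_ T) h1).symm yb
  have hjY : Cp.j 2 (2 * w - 2) Y = 0 := by
    apply (X.eE (𝟙_ T) h1).injective
    rw [map_zero]
    refine (X.eE_j (𝟙_ T) h1 Y).trans ?_
    rw [AddEquiv.apply_symm_apply, hj]
  obtain ⟨y3, hy3⟩ := Cp.exact_j _ _ _ hjY
  have hv : ∀ s' ≥ 2, Cp.Van s' (2 * w - 2) := by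
    intro s' hs'
    refine van_good D U hN rfl ?_
    intro w' hw'
    have hs2 : (2 : ℤ) ≤ s' := by exact_mod_cast hs'
    have h4 := beta_numeric hp3 (w' - w + 1) (by push_cast at hw'; omega)
    have h5 : (p : ℤ) * ((p : ℤ) - 1) - 1 + (w' - w + 1) = w' := by rw [← hw]; ring
    have h6 : ((s' : ℤ) + 1) = 2 * (w' - w + 1) := by push_cast at hw'; linarith
    rw [h5] at h4
    rw [h6]
    exact h4
  have hY : Y = 0 := by
    rw [← hy3]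
    obtain ⟨y', hy'⟩ := Cp.exists_iN_eq hv y3 (2 * w).toNat
    rw [← hy']
    have h0 : y' = 0 := by
      have h7 : ((((2 + (2 * w).toNat : ℕ)) : ℤ)) = 2 + ((2 * w).toNat : ℤ) := by push_cast; ring
      exact conn_red hC (conn_BN D U hN' (2 + (2 * w).toNat)) _ (by
        have h6 : 2 * w ≤ ((2 * w).toNat : ℤ) := Int.self_le_toNat (2 * w)
        rw [h7]
        linarith) y'
    rw [h0, map_zero]
  have hyb : yb = 0 := by
    have h8 : X.eD (𝟙_ T) h1 Y = 0 := by rw [hY, map_zero]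
    rwa [AddEquiv.apply_symm_apply] at h8
  have h9 : (y ≫ U.bd 1 N) ≫ (redC i).app _ = 0 := by
    have h10 : y ≫ (redC i).app _ = u ≫ U.cobar.q 1 N ≫ U.cobar.k 1 N ≫ (redC i).app _ := by
      have h11 : (y - u ≫ U.cobar.q 1 N ≫ U.cobar.k 1 N) ≫ (redC i).app _ = 0 := hyb
      rw [Preadditive.sub_comp, sub_eq_zero] at h11
      simpa only [Category.assoc] using h11
    have h12 : U.cobar.k 1 N ≫ U.bd 1 N = 0 := (U.tow N).b_c 1
    rw [Category.assoc, hred, reassoc_of% h10, ← hred, reassoc_of% h12]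
    simp
  exact exists_zsmul_of_red hC _ h9

end van

section main

variable [MonoidalClosed T] [IsTriangulated T] [HasProducts.{0} T] [StableCat T]
  {p : ℕ} [Fact p.Prime] (hp : p ≠ 2)

include hp

/-- **The Toda lemma, zeroth part**: `β₁` becomes divisible by `p` on the `(p-1)`-fold smash power
of the cofibre `K` of `α₁`. -/
theorem toda_zero {t : Cob Laz 1} (ht : IsT1 p t) {v w : ℤ} (hv : v = (p - 1 : ℕ))
    (hw : w = (p * (p - 1) : ℕ)) (htw : Cob.IsWt v t) (hb : Cob.IsWt w (bcls p t))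
    (a : (𝟙_ T)⟦2 * v⟧ ⟶ U.cobar.B 1 (𝟙_ T))
    (ha : ((sphE T v).inv ≫ D.phi U 1 v ⟨t, htw⟩) ≫ U.cobar.q 1 (𝟙_ T) = a ≫ unitMap D.R _)
    (x : (𝟙_ T)⟦2 * w⟧ ⟶ U.cobar.B 2 (𝟙_ T))
    (hx : ((sphE T w).inv ≫ D.phi U 2 w ⟨bcls p t, hb⟩) ≫ U.cobar.q 2 (𝟙_ T) =
      x ≫ unitMap D.R _)
    {K : T} {e : 𝟙_ T ⟶ K} {π : K ⟶ (𝟙_ T)⟦2 * v⟧}
    (hK : Triangle.mk e π (a ≫ U.bd 0 (𝟙_ T)) ∈ distTriang T) :
    ∃ g : (𝟙_ T)⟦2 * w⟧ ⟶ (U.cobar.B 1 (Am K (p - 1)))⟦(1 : ℤ)⟧,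
      (p : ℤ) • g = x ≫ U.bd 1 (𝟙_ T) ≫ (U.cobar.Bm 1 (epow e (p - 1)))⟦(1 : ℤ)⟧' := by
  obtain ⟨C, i, δ, hC⟩ := distinguished_cocone_triangle ((p : ℤ) • 𝟙 (𝟙_ T))
  obtain ⟨-, hd, -, -, -⟩ := BCocycle p hp t ht
  have hp2 := (Fact.out : p.Prime).two_le
  have hv' : v = (p : ℤ) - 1 := by
    rw [hv, Nat.cast_sub (by omega), Nat.cast_one]
  have hw' : w = (p : ℤ) * ((p : ℤ) - 1) := by
    rw [hw, Nat.cast_mul, Nat.cast_sub (by omega), Nat.cast_one]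
  obtain ⟨u, z, h⟩ := exists_cochain_cobar D U htw hd a ha hK p hb
  have hN : GoodC D U p C (Am (SqZ K) (p - 1)) :=
    GoodC.Am_sqZ hK (GoodC.unit hp hC) hv' hp2 (p - 1)
  have hN' : BigCell T 0 (Am (SqZ K) (p - 1)) :=
    bigCell_Am (bigCell_sqZ (bigCell_cof (by rw [hv]; positivity) hK)) (p - 1)
  set ε := epow (e ≫ SqZ.inr K) (p - 1) with hε
  obtain ⟨g, hg⟩ := divisible_of_cobdy D U hp hC hN hN' hw' (x ≫ U.cobar.Bm 2 ε) u z (by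
    have h5 : U.cobar.Qm 3 ε ≫ U.cobar.q 2 _ = U.cobar.q 2 _ ≫ (D.R ◁ U.cobar.Bm 2 ε) :=
      U.cobar.q_naturality 2 ε
    rw [h, add_sub_cancel_right, Category.assoc, Category.assoc, h5, ← Category.assoc _ _ (_ ◁ _),
      hx, Category.assoc, unitMap_nat])
  refine ⟨g ≫ (U.cobar.Bm 1 (pr' K (p - 1)))⟦(1 : ℤ)⟧', ?_⟩
  rw [← Preadditive.zsmul_comp, hg, Category.assoc, Category.assoc, UnitCof.bd_naturality_assoc,
    ← Functor.map_comp, ← CobarData.Bm_comp, epow_pr']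

end main

end Vale.Agent.P257.H762
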