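import Vale.Agent.P257.H762.AI
import Vale.Agent.P257.H762.TL0
import Vale.Agent.P257.H762.Alpha

/-!
# P257: the Toda lemma

`toda_tensor` : if `ζ ⊗ α₁ = 0`, `p • 𝟙_M = 0` and `β₁^{⊗p} ⊗ α₁` is divisible by `p`, then
`(ζ ⊗ β₁^{⊗ p(p-2)}) ⊗ x' = 0`, where `x' : 𝟙⟦2w⟧ ⟶ J⟦1⟧` is the lift of `β₁` to filtration one.
-/

open CategoryTheory MonoidalCategory Limits Pretriangulated MonObj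

set_option linter.unusedSectionVars false

universe v u

namespace Vale.Agent.P257.H762

open Vale.Agent.P251.T Vale.Agent.P251.M Vale.Agent.P251.S Vale.Agent.P251.F Vale.Agent.P251.I
  Vale.Agent.P251.B

variable {T : Type u} [Category.{v} T] [Preadditive T] [HasZeroObject T]
    [HasShift T ℤ] [∀ n : ℤ, (shiftFunctor T n).Additive] [Pretriangulated T]
    [MonoidalCategory T] [SymmetricCategory T] [TensorTriangulated T]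

lemma Ext.zero_pow {K : T} (e : 𝟙_ T ⟶ K) {S M : T} (f : S ⟶ M) : Ext (epow e 0) f :=
  ⟨(ρ_ S).hom ≫ f, by
    change (S ◁ 𝟙 (𝟙_ T)) ≫ _ = _
    rw [MonoidalCategory.whiskerLeft_id, Category.id_comp]⟩

/-- The Toda lemma, abstract form. -/
theorem toda_abstract {K L B B' Y : T} {e : 𝟙_ T ⟶ K} {π : K ⟶ L} {α : L ⟶ (𝟙_ T)⟦(1 : ℤ)⟧}
    (hK : Triangle.mk e π α ∈ distTriang T) {β : B ⟶ B'} {p : ℕ}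
    (hII : ∃ g, (p : ℤ) • g = tSm (𝟙 (𝟙_ T)) β p ⊗ₘ α) {y : B ⟶ Y} {m : ℕ}
    (hy : ∃ g : B ⟶ Y ⊗ Am K (m + 1), (p : ℤ) • g = y ≫ (ρ_ Y).inv ≫ (Y ◁ epow e (m + 1)))
    {S M : T} (hM : Kil (p : ℤ) M) (ζ : S ⟶ M) (hζ : ζ ⊗ₘ α = 0) :
    (ζ ⊗ₘ tSm (𝟙 (𝟙_ T)) β (p * m)) ⊗ₘ y = 0 := by
  have key : ∀ j, Ext (epow e (j + 1)) (ζ ⊗ₘ tSm (𝟙 (𝟙_ T)) β (p * j)) := by
    intro j
    induction j with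
    | zero =>
      have h1 := Ext.of_tensor_eq_zero hK ζ hζ
      have h2 := (Ext.zero_pow e (𝟙 S)).comp h1
      rw [Category.id_comp] at h2
      exact h2.of_AI (AI.unit_right ζ).symm
    | succ j ih =>
      have hMj := hM.tensor (tS (𝟙_ T) B' (p * j))
      have h1 : Ext e (𝟙 (M ⊗ tS (𝟙_ T) B' (p * j)) ⊗ₘ tSm (𝟙 (𝟙_ T)) β p) := by
        apply Ext.of_tensor_eq_zero hK
        exact (AI.assoc _ _ _).eq_zero (hMj.tensorHom hII)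
      have h2 := (ih.whiskerRight (tS (𝟙_ T) B p)).comp h1
      have h3 : ((ζ ⊗ₘ tSm (𝟙 (𝟙_ T)) β (p * j)) ▷ tS (𝟙_ T) B p) ≫
          (𝟙 (M ⊗ tS (𝟙_ T) B' (p * j)) ⊗ₘ tSm (𝟙 (𝟙_ T)) β p) =
          (ζ ⊗ₘ tSm (𝟙 (𝟙_ T)) β (p * j)) ⊗ₘ tSm (𝟙 (𝟙_ T)) β p := by
        rw [id_tensorHom, ← tensorHom_def]
      rw [h3] at h2
      exact h2.of_AI ((AI.assoc _ _ _).trans
        ((AI.refl ζ).tensor (AI_tSm_add β (p * j) p).symm))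
  exact (key m).tensor_eq_zero (hM.tensor _) y hy

/-- `(J ⊗ Z)⟦1⟧ ⟶ (J ⊗ 𝟙)⟦1⟧ ⊗ Z`. -/
noncomputable def shiftOut (J Z : T) : (J ⊗ Z)⟦(1 : ℤ)⟧ ⟶ (J ⊗ 𝟙_ T)⟦(1 : ℤ)⟧ ⊗ Z :=
  (TensorTriangulated.e (J ⊗ Z)).inv ≫ (α_ J Z ((𝟙_ T)⟦(1 : ℤ)⟧)).hom ≫
    (J ◁ (β_ Z ((𝟙_ T)⟦(1 : ℤ)⟧)).hom) ≫ (α_ J ((𝟙_ T)⟦(1 : ℤ)⟧) Z).inv ≫
      (((ρ_ J).inv ▷ ((𝟙_ T)⟦(1 : ℤ)⟧)) ▷ Z) ≫ ((TensorTriangulated.e (J ⊗ 𝟙_ T)).hom ▷ Z)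

lemma shiftOut_nat (J : T) {Z : T} (κ : 𝟙_ T ⟶ Z) :
    (J ◁ κ)⟦(1 : ℤ)⟧' ≫ shiftOut J Z = (ρ_ _).inv ≫ ((J ⊗ 𝟙_ T)⟦(1 : ℤ)⟧ ◁ κ) := by
  have h1 : (J ◁ κ)⟦(1 : ℤ)⟧' ≫ (TensorTriangulated.e (J ⊗ Z)).inv =
      (TensorTriangulated.e (J ⊗ 𝟙_ T)).inv ≫ ((J ◁ κ) ▷ ((𝟙_ T)⟦(1 : ℤ)⟧)) := by
    rw [Iso.comp_inv_eq, Category.assoc, TensorTriangulated.e_naturality, Iso.inv_hom_id_assoc]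
  have h2 : ∀ S : T, ((J ◁ κ) ▷ S) ≫ (α_ J Z S).hom ≫ (J ◁ (β_ Z S).hom) ≫ (α_ J S Z).inv ≫
      (((ρ_ J).inv ▷ S) ▷ Z) = (ρ_ ((J ⊗ 𝟙_ T) ⊗ S)).inv ≫ (((J ⊗ 𝟙_ T) ⊗ S) ◁ κ) := by
    intro S
    have h3 : (α_ J (𝟙_ T) S).hom ≫ (J ◁ (β_ (𝟙_ T) S).hom) ≫ (α_ J S (𝟙_ T)).inv ≫
        (((ρ_ J).inv ▷ S) ▷ 𝟙_ T) = (ρ_ ((J ⊗ 𝟙_ T) ⊗ S)).inv := by
      rw [braiding_tensorUnit_left]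
      monoidal
    rw [← h3, associator_naturality_middle_assoc, ← MonoidalCategory.whiskerLeft_comp_assoc,
      BraidedCategory.braiding_naturality_left, MonoidalCategory.whiskerLeft_comp_assoc,
      associator_inv_naturality_right_assoc, Category.assoc, Category.assoc, Category.assoc,
      whisker_exchange]
  rw [shiftOut, reassoc_of% h1, reassoc_of% h2, whisker_exchange,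
    rightUnitor_inv_naturality_assoc, inv_hom_whiskerRight_assoc]

variable [HasCoproducts.{0} T] [MonoidalClosed T] [IsTriangulated T] [HasProducts.{0} T]
  [StableCat T] (D : MUData T) (U : UnitCof D.R) {p : ℕ} [Fact p.Prime] (hp : p ≠ 2)

include hp

/-- **The Toda lemma.** -/
theorem toda_tensor {t : Cob Laz 1} (ht : IsT1 p t) {v w : ℤ} (hv : v = (p - 1 : ℕ))
    (hw : w = (p * (p - 1) : ℕ)) (htw : Cob.IsWt v t) (hb : Cob.IsWt w (bcls p t))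
    (a : (𝟙_ T)⟦2 * v⟧ ⟶ U.cobar.B 1 (𝟙_ T))
    (ha : ((sphE T v).inv ≫ D.phi U 1 v ⟨t, htw⟩) ≫ U.cobar.q 1 (𝟙_ T) = a ≫ unitMap D.R _)
    (x : (𝟙_ T)⟦2 * w⟧ ⟶ U.cobar.B 2 (𝟙_ T))
    (hx : ((sphE T w).inv ≫ D.phi U 2 w ⟨bcls p t, hb⟩) ≫ U.cobar.q 2 (𝟙_ T) =
      x ≫ unitMap D.R _)
    (hII : ∃ g, (p : ℤ) • g =
      tSm (𝟙 (𝟙_ T)) (x ≫ U.bd 1 (𝟙_ T) ≫ (U.bd 0 (𝟙_ T))⟦(1 : ℤ)⟧') p ⊗ₘ (a ≫ U.bd 0 (𝟙_ T)))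
    {S M : T} (hM : Kil (p : ℤ) M) (ζ : S ⟶ M) (hζ : ζ ⊗ₘ (a ≫ U.bd 0 (𝟙_ T)) = 0) :
    (ζ ⊗ₘ tSm (𝟙 (𝟙_ T)) (x ≫ U.bd 1 (𝟙_ T) ≫ (U.bd 0 (𝟙_ T))⟦(1 : ℤ)⟧') (p * (p - 2))) ⊗ₘ
      (x ≫ U.bd 1 (𝟙_ T)) = 0 := by
  obtain ⟨K, e, π, hK⟩ := distinguished_cocone_triangle₂ (a ≫ U.bd 0 (𝟙_ T))
  have hp2 := (Fact.out : p.Prime).two_le
  have hm : p - 2 + 1 = p - 1 := by omega
  refine toda_abstract hK hII (m := p - 2) ?_ hM ζ hζ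
  obtain ⟨g, hg⟩ := toda_zero D U hp ht hv hw htw hb a ha x hx hK
  rw [hm]
  refine ⟨g ≫ shiftOut U.J (Am K (p - 1)), ?_⟩
  rw [← Preadditive.zsmul_comp, hg, Category.assoc, Category.assoc, Category.assoc]
  congr 2
  exact shiftOut_nat U.J (epow e (p - 1))

/-- **The Toda lemma**, for the powers of `β₁ : 𝟙⟦2w⟧ ⟶ 𝟙⟦1⟧⟦1⟧`. -/
theorem toda_beta {t : Cob Laz 1} (ht : IsT1 p t) {v w : ℤ} (hv : v = (p - 1 : ℕ))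
    (hw : w = (p * (p - 1) : ℕ)) (htw : Cob.IsWt v t) (hb : Cob.IsWt w (bcls p t))
    (a : (𝟙_ T)⟦2 * v⟧ ⟶ U.cobar.B 1 (𝟙_ T))
    (ha : ((sphE T v).inv ≫ D.phi U 1 v ⟨t, htw⟩) ≫ U.cobar.q 1 (𝟙_ T) = a ≫ unitMap D.R _)
    (x : (𝟙_ T)⟦2 * w⟧ ⟶ U.cobar.B 2 (𝟙_ T))
    (hx : ((sphE T w).inv ≫ D.phi U 2 w ⟨bcls p t, hb⟩) ≫ U.cobar.q 2 (𝟙_ T) =
      x ≫ unitMap D.R _)
    (hII : ∃ g, (p : ℤ) • g =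
      tSm (𝟙 (𝟙_ T)) (x ≫ U.bd 1 (𝟙_ T) ≫ (U.bd 0 (𝟙_ T))⟦(1 : ℤ)⟧') p ⊗ₘ (a ≫ U.bd 0 (𝟙_ T)))
    {S M : T} (hM : Kil (p : ℤ) M) (ζ : S ⟶ M) (hζ : (a ≫ U.bd 0 (𝟙_ T)) ⊗ₘ ζ = 0)
    (K : ℕ) (hK : (p - 1) ^ 2 ≤ K) :
    tSm (𝟙 (𝟙_ T)) (x ≫ U.bd 1 (𝟙_ T) ≫ (U.bd 0 (𝟙_ T))⟦(1 : ℤ)⟧') K ⊗ₘ ζ = 0 := by
  have hp2 := (Fact.out : p.Prime).two_le
  have h1 := toda_tensor D U hp ht hv hw htw hb a ha x hx hII hM ζ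
    ((AI.braid _ _).eq_zero hζ)
  have h2 : (ζ ⊗ₘ tSm (𝟙 (𝟙_ T)) (x ≫ U.bd 1 (𝟙_ T) ≫ (U.bd 0 (𝟙_ T))⟦(1 : ℤ)⟧')
      (p * (p - 2))) ⊗ₘ (x ≫ U.bd 1 (𝟙_ T) ≫ (U.bd 0 (𝟙_ T))⟦(1 : ℤ)⟧') = 0 := by
    have h3 := congrArg (fun z => z ≫ (_ ◁ (U.bd 0 (𝟙_ T))⟦(1 : ℤ)⟧')) h1
    simp only [zero_comp] at h3
    rw [← id_tensorHom, tensorHom_comp_tensorHom, Category.comp_id, Category.assoc] at h3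
    exact h3
  have h4 : p * (p - 2) + 1 = (p - 1) ^ 2 := by
    obtain ⟨q, rfl⟩ : ∃ q, p = q + 2 := ⟨p - 2, by omega⟩
    rw [Nat.add_sub_cancel, show q + 2 - 1 = q + 1 by omega]
    ring
  have h5 : ζ ⊗ₘ tSm (𝟙 (𝟙_ T)) (x ≫ U.bd 1 (𝟙_ T) ≫ (U.bd 0 (𝟙_ T))⟦(1 : ℤ)⟧')
      ((p - 1) ^ 2) = 0 := by
    rw [← h4]
    exact (AI.assoc _ _ _).symm.eq_zero h2
  obtain ⟨r, rfl⟩ := Nat.exists_eq_add_of_le hK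
  have h6 := (AI.refl ζ).tensor (AI_tSm_add (x ≫ U.bd 1 (𝟙_ T) ≫ (U.bd 0 (𝟙_ T))⟦(1 : ℤ)⟧')
    ((p - 1) ^ 2) r)
  refine ((AI.braid _ _).trans (h6.trans (AI.assoc _ _ _).symm)).eq_zero ?_
  rw [h5, MonoidalPreadditive.zero_tensor]

end Vale.Agent.P257.H762
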