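import Vale.Agent.P251.S.TowerR
import Vale.Agent.P251.S.Amitsur

/-!
# P257, Toda lemma: isomorphic arrows, smash powers of maps, extensions over `S ⊗ Z`

* `AI f g`: `f` and `g` are isomorphic arrows; calculus for `⊗ₘ`;
* `tSm f b n = f ⊗ b ⊗ ... ⊗ b`;
* `Ext κ f`: for `κ : 𝟙 ⟶ Z`, the map `f : S ⟶ M` extends over `S ⊗ Z`.
-/

open CategoryTheory MonoidalCategory Limits Pretriangulated MonObj

set_option linter.unusedSectionVars false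

universe v u

namespace Vale.Agent.P257.H762

open Vale.Agent.P251.S Vale.Agent.P251.T

section AI

variable {T : Type u} [Category.{v} T]

/-- `f` and `g` are isomorphic arrows. -/
def AI {A B A' B' : T} (f : A ⟶ B) (g : A' ⟶ B') : Prop :=
  ∃ (a : A ≅ A') (b : B ≅ B'), f ≫ b.hom = a.hom ≫ g

namespace AI

variable {A B A' B' A'' B'' : T} {f : A ⟶ B} {g : A' ⟶ B'} {h : A'' ⟶ B''}

lemma refl (f : A ⟶ B) : AI f f := ⟨Iso.refl _, Iso.refl _, by simp⟩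

lemma symm (H : AI f g) : AI g f := by
  obtain ⟨a, b, e⟩ := H
  exact ⟨a.symm, b.symm, by simp [e, Iso.comp_inv_eq]⟩

lemma trans (H : AI f g) (H' : AI g h) : AI f h := by
  obtain ⟨a, b, e⟩ := H
  obtain ⟨a', b', e'⟩ := H'
  exact ⟨a ≪≫ a', b ≪≫ b', by simp [reassoc_of% e, e']⟩

lemma of_iso_comp (a : A' ≅ A) (f : A ⟶ B) : AI (a.hom ≫ f) f :=
  ⟨a, Iso.refl _, by simp⟩

lemma of_comp_iso (f : A ⟶ B) (b : B ≅ B') : AI (f ≫ b.hom) f :=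
  ⟨Iso.refl _, b.symm, by simp⟩

lemma eq_zero [HasZeroMorphisms T] (H : AI f g) (h0 : g = 0) : f = 0 := by
  obtain ⟨a, b, e⟩ := H
  rw [← cancel_mono b.hom, e, h0, comp_zero, zero_comp]

lemma eq_zero' [HasZeroMorphisms T] (H : AI f g) (h0 : f = 0) : g = 0 := H.symm.eq_zero h0

lemma exists_smul [Preadditive T] (H : AI f g) {n : ℤ} (h0 : ∃ k : A ⟶ B, n • k = f) :
    ∃ k : A' ⟶ B', n • k = g := by
  obtain ⟨a, b, e⟩ := H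
  obtain ⟨k, rfl⟩ := h0
  refine ⟨a.inv ≫ k ≫ b.hom, ?_⟩
  rw [← cancel_epi a.hom, ← e]
  simp

variable [MonoidalCategory T]

lemma tensor {C D C' D' : T} {k : C ⟶ D} {l : C' ⟶ D'} (H : AI f g) (H' : AI k l) :
    AI (f ⊗ₘ k) (g ⊗ₘ l) := by
  obtain ⟨a, b, e⟩ := H
  obtain ⟨a', b', e'⟩ := H'
  exact ⟨a ⊗ᵢ a', b ⊗ᵢ b', by simp [tensorHom_comp_tensorHom, e, e']⟩

lemma assoc {C D E F : T} (f : A ⟶ B) (g : C ⟶ D) (h : E ⟶ F) :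
    AI ((f ⊗ₘ g) ⊗ₘ h) (f ⊗ₘ (g ⊗ₘ h)) := ⟨α_ _ _ _, α_ _ _ _, by simp⟩

lemma unit_left (f : A ⟶ B) : AI (𝟙 (𝟙_ T) ⊗ₘ f) f := ⟨λ_ _, λ_ _, by simp⟩

lemma unit_right (f : A ⟶ B) : AI (f ⊗ₘ 𝟙 (𝟙_ T)) f := ⟨ρ_ _, ρ_ _, by simp⟩

lemma braid [BraidedCategory T] {C D : T} (f : A ⟶ B) (g : C ⟶ D) :
    AI (f ⊗ₘ g) (g ⊗ₘ f) := ⟨β_ _ _, β_ _ _, by simp⟩

end AI

/-! ### smash powers -/

variable [MonoidalCategory T]

/-- `X ⊗ B ⊗ ... ⊗ B`. -/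
@[reducible] def tS (X B : T) : ℕ → T
  | 0 => X
  | n + 1 => tS X B n ⊗ B

/-- `f ⊗ b ⊗ ... ⊗ b`. -/
def tSm {S M B B' : T} (f : S ⟶ M) (b : B ⟶ B') : ∀ n : ℕ, tS S B n ⟶ tS M B' n
  | 0 => f
  | n + 1 => tSm f b n ⊗ₘ b

@[simp] lemma tSm_zero {S M B B' : T} (f : S ⟶ M) (b : B ⟶ B') : tSm f b 0 = f := rfl

lemma tSm_succ {S M B B' : T} (f : S ⟶ M) (b : B ⟶ B') (n : ℕ) :
    tSm f b (n + 1) = tSm f b n ⊗ₘ b := rfl

lemma AI_tSm {S M B B' : T} (f : S ⟶ M) (b : B ⟶ B') (n : ℕ) :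
    AI (tSm f b n) (f ⊗ₘ tSm (𝟙 (𝟙_ T)) b n) := by
  induction n with
  | zero => exact (AI.unit_right f).symm
  | succ n ih => exact (ih.tensor (AI.refl b)).trans (AI.assoc _ _ _)

lemma AI_tSm_add {B B' : T} (b : B ⟶ B') (m n : ℕ) :
    AI (tSm (𝟙 (𝟙_ T)) b (m + n)) (tSm (𝟙 (𝟙_ T)) b m ⊗ₘ tSm (𝟙 (𝟙_ T)) b n) := by
  induction n with
  | zero => exact (AI.unit_right _).symm
  | succ n ih => exact (ih.tensor (AI.refl b)).trans (AI.assoc _ _ _)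

end AI

/-! ### extensions over `S ⊗ Z` -/

section Ext

variable {T : Type u} [Category.{v} T] [MonoidalCategory T]

/-- `f : S ⟶ M` extends over `S ⊗ Z`, for `κ : 𝟙 ⟶ Z`. -/
def Ext {Z : T} (κ : 𝟙_ T ⟶ Z) {S M : T} (f : S ⟶ M) : Prop :=
  ∃ F : S ⊗ Z ⟶ M, (S ◁ κ) ≫ F = (ρ_ S).hom ≫ f

namespace Ext

variable {Z Z' S M M' : T} {κ : 𝟙_ T ⟶ Z} {κ' : 𝟙_ T ⟶ Z'}

lemma of_AI {S' : T} {f : S ⟶ M} {g : S' ⟶ M'} (H : AI f g) (h : Ext κ f) : Ext κ g := by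
  obtain ⟨a, b, e⟩ := H
  obtain ⟨F, hF⟩ := h
  refine ⟨(a.inv ▷ Z) ≫ F ≫ b.hom, ?_⟩
  rw [whisker_exchange_assoc, reassoc_of% hF, e, rightUnitor_naturality_assoc,
    Iso.inv_hom_id_assoc]

lemma comp {f : S ⟶ M} {g : M ⟶ M'} (h : Ext κ f) (h' : Ext κ' g) :
    Ext ((ρ_ (𝟙_ T)).inv ≫ (κ ⊗ₘ κ')) (f ≫ g) := by
  obtain ⟨F, hF⟩ := h
  obtain ⟨G, hG⟩ := h'
  refine ⟨(α_ S Z Z').inv ≫ (F ▷ Z') ≫ G, ?_⟩
  have h1 : (S ◁ (κ ⊗ₘ κ')) ≫ (α_ S Z Z').inv = (α_ S (𝟙_ T) (𝟙_ T)).inv ≫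
      ((S ◁ κ) ▷ 𝟙_ T) ≫ ((S ⊗ Z) ◁ κ') := by
    rw [tensorHom_def, MonoidalCategory.whiskerLeft_comp, Category.assoc]
    simp
  rw [MonoidalCategory.whiskerLeft_comp, Category.assoc, reassoc_of% h1, whisker_exchange_assoc,
    hG, ← comp_whiskerRight_assoc, hF, rightUnitor_naturality_assoc]
  simp

lemma whiskerRight [BraidedCategory T] {f : S ⟶ M} (h : Ext κ f) (X : T) : Ext κ (f ▷ X) := by
  obtain ⟨F, hF⟩ := h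
  refine ⟨(α_ S X Z).hom ≫ (S ◁ (β_ X Z).hom) ≫ (α_ S Z X).inv ≫ (F ▷ X), ?_⟩
  have h1 : ((S ⊗ X) ◁ κ) ≫ (α_ S X Z).hom ≫ (S ◁ (β_ X Z).hom) ≫ (α_ S Z X).inv =
      (α_ S X (𝟙_ T)).hom ≫ (S ◁ (β_ X (𝟙_ T)).hom) ≫ (α_ S (𝟙_ T) X).inv ≫ ((S ◁ κ) ▷ X) := by
    rw [associator_naturality_right_assoc, ← MonoidalCategory.whiskerLeft_comp_assoc,
      BraidedCategory.braiding_naturality_right, MonoidalCategory.whiskerLeft_comp_assoc,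
      associator_inv_naturality_middle]
  rw [reassoc_of% h1, ← comp_whiskerRight, hF, braiding_tensorUnit_right]
  simp

end Ext

end Ext

section Kill

variable {T : Type u} [Category.{v} T] [Preadditive T] [HasZeroObject T] [HasShift T ℤ]
  [∀ n : ℤ, (shiftFunctor T n).Additive] [Pretriangulated T] [MonoidalCategory T]
  [SymmetricCategory T] [TensorTriangulated T]

/-- If `f ⊗ α = 0` then `f` extends over `S ⊗ K`, `K` the cofibre of `α`. -/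
theorem Ext.of_tensor_eq_zero {K L : T} {e : 𝟙_ T ⟶ K} {π : K ⟶ L} {α : L ⟶ (𝟙_ T)⟦(1 : ℤ)⟧}
    (hK : Triangle.mk e π α ∈ distTriang T) {S M : T} (f : S ⟶ M) (h : f ⊗ₘ α = 0) :
    Ext e f := by
  have hT := rot_of_distTriang _ (rot_of_distTriang _ (dist_whiskerLeft S hK))
  have h1 : ((S ◁ α) ≫ ((tensorLeft S).commShiftIso (1 : ℤ)).hom.app (𝟙_ T)) ≫
      ((ρ_ S).hom ≫ f)⟦(1 : ℤ)⟧' = 0 := by
    have h2 : (f ▷ (𝟙_ T)⟦(1 : ℤ)⟧) ≫ (tensorSph 1 M).hom =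
        ((tensorLeft S).commShiftIso (1 : ℤ)).hom.app (𝟙_ T) ≫ ((ρ_ S).hom ≫ f)⟦(1 : ℤ)⟧' := by
      rw [tensorSph_naturality, Functor.map_comp, ← Category.assoc]
      rfl
    rw [Category.assoc, ← h2, ← Category.assoc, ← tensorHom_def', h, zero_comp]
  obtain ⟨g, hg⟩ : ∃ g : (S ⊗ K)⟦(1 : ℤ)⟧ ⟶ M⟦(1 : ℤ)⟧,
      ((ρ_ S).hom ≫ f)⟦(1 : ℤ)⟧' = (-(S ◁ e)⟦(1 : ℤ)⟧') ≫ g :=
    Triangle.yoneda_exact₂ _ hT (((ρ_ S).hom ≫ f)⟦(1 : ℤ)⟧') h1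
  refine ⟨-(shiftFunctor T (1 : ℤ)).preimage g, ?_⟩
  apply (shiftFunctor T (1 : ℤ)).map_injective
  rw [hg, Preadditive.comp_neg, Functor.map_neg, Functor.map_comp, Functor.map_preimage,
    Preadditive.neg_comp]

lemma whiskerLeft_zsmul' {A B : T} (X : T) (n : ℤ) (f : A ⟶ B) : X ◁ (n • f) = n • (X ◁ f) :=
  (tensorLeft X).map_zsmul

lemma whiskerRight_zsmul' {A B : T} (X : T) (n : ℤ) (f : A ⟶ B) : (n • f) ▷ X = n • (f ▷ X) :=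
  (tensorRight X).map_zsmul

/-- `n • 𝟙_M = 0`. -/
def Kil (n : ℤ) (M : T) : Prop := n • 𝟙 M = 0

lemma Kil.comp {n : ℤ} {M : T} (h : Kil n M) {A : T} (f : A ⟶ M) : n • f = 0 := by
  rw [← Category.comp_id f, ← Preadditive.comp_zsmul, h, comp_zero]

lemma Kil.comp' {n : ℤ} {M : T} (h : Kil n M) {A : T} (f : M ⟶ A) : n • f = 0 := by
  rw [← Category.id_comp f, ← Preadditive.zsmul_comp, h, zero_comp]

lemma Kil.tensor {n : ℤ} {M : T} (h : Kil n M) (X : T) : Kil n (M ⊗ X) := by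
  rw [Kil, ← id_whiskerRight, ← whiskerRight_zsmul', h, MonoidalPreadditive.zero_whiskerRight]

/-- A divisible map is killed by tensoring with `M`. -/
lemma Kil.tensorHom {n : ℤ} {M : T} (h : Kil n M) {A B : T} {f : A ⟶ B}
    (hf : ∃ g : A ⟶ B, n • g = f) : 𝟙 M ⊗ₘ f = 0 := by
  obtain ⟨g, rfl⟩ := hf
  rw [id_tensorHom, whiskerLeft_zsmul']
  exact (h.tensor A).comp' _

/-- If `f : S ⟶ M` extends over `S ⊗ Z` and `y ⊗ κ` is divisible by `n` then `f ⊗ y = 0`. -/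
theorem Ext.tensor_eq_zero {n : ℤ} {Z S M A Y : T} {κ : 𝟙_ T ⟶ Z} {f : S ⟶ M} (h : Ext κ f)
    (hM : Kil n M) (y : A ⟶ Y) (hy : ∃ g : A ⟶ Y ⊗ Z, n • g = y ≫ (ρ_ Y).inv ≫ (Y ◁ κ)) :
    f ⊗ₘ y = 0 := by
  obtain ⟨F, hF⟩ := h.whiskerRight Y
  obtain ⟨g, hg⟩ := hy
  have h1 : f ⊗ₘ y = n • ((S ◁ g) ≫ (α_ S Y Z).inv ≫ F) := by
    rw [← Preadditive.zsmul_comp, ← whiskerLeft_zsmul', hg, MonoidalCategory.whiskerLeft_comp,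
      MonoidalCategory.whiskerLeft_comp, Category.assoc, Category.assoc,
      associator_inv_naturality_right_assoc, hF, tensorHom_def']
    simp
  rw [h1]
  exact (hM.tensor Y).comp _

end Kill

end Vale.Agent.P257.H762
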