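import Mathlib.Algebra.Polynomial.Taylor
import Mathlib.Algebra.BigOperators.Group.Finset.Powerset
import Mathlib.Algebra.MvPolynomial.Basic
import Mathlib.Algebra.MvPolynomial.CommRing
import Mathlib.Data.Nat.Choose.Dvd
import Mathlib.Data.Nat.Choose.Sum
import Mathlib.Algebra.Polynomial.BigOperators
import Mathlib.Tactic.LinearCombination
import Mathlib.Tactic.Ring
import Mathlib.RingTheory.Ideal.Quotient.Operations

/-!
# P257, Toda lemma: the algebraic identity

`U p x y = ∑_{0<j<p} (binom(p,j)/p) x^j y^(p-j)`.  For families `E G : ι → A` of elements of a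
commutative ring let `es E G j` be the coefficient of `X^j` in `∏ i, (E i + X G i)`.  For
`card ι = p - 1`, modulo `p` the elements `(-1)^j es E G j` transform like the powers `g^j` under
`g ↦ g + x` when `G ↦ G + x E` (`main_identity`).
-/

open Polynomial

namespace Vale.Agent.P257.H762

/-! ### the polynomial `U` -/

/-- `((x+y)^p - x^p - y^p) / p`. -/
noncomputable def U {A : Type*} [CommRing A] (p : ℕ) (x y : A) : A :=
  ∑ j ∈ Finset.Ioo 0 p, ((p.choose j / p : ℕ) : ℤ) • (x ^ j * y ^ (p - j))

lemma map_U {A B : Type*} [CommRing A] [CommRing B] (f : A →+* B) (p : ℕ) (x y : A) :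
    f (U p x y) = U p (f x) (f y) := by
  simp [U, map_sum]

lemma range_split {p : ℕ} : Finset.range (p + 1) = insert 0 (insert p (Finset.Ioo 0 p)) := by
  ext i
  simp only [Finset.mem_range, Finset.mem_insert, Finset.mem_Ioo]
  omega

lemma p_mul_U {A : Type*} [CommRing A] (p : ℕ) (hp : p.Prime) (x y : A) :
    (p : ℤ) • U p x y = (x + y) ^ p - x ^ p - y ^ p := by
  have hpos := hp.pos
  rw [U, Finset.smul_sum, add_pow, range_split, Finset.sum_insert, Finset.sum_insert]
  · have hs : ∀ i ∈ Finset.Ioo 0 p, (p : ℤ) • ((p.choose i / p : ℕ) : ℤ) • (x ^ i * y ^ (p - i)) =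
        x ^ i * y ^ (p - i) * (p.choose i : A) := by
      intro i hi
      rw [Finset.mem_Ioo] at hi
      have hdvd : p ∣ p.choose i := hp.dvd_choose_self hi.1.ne' hi.2
      rw [smul_smul, zsmul_eq_mul]
      have : ((p : ℤ) * ((p.choose i / p : ℕ) : ℤ)) = ((p.choose i : ℕ) : ℤ) := by
        rw [← Nat.cast_mul, Nat.mul_div_cancel' hdvd]
      rw [this]
      push_cast
      ring
    rw [Finset.sum_congr rfl hs]
    simp
    ring
  · simp
  · simp [hpos.ne]

/-- The cocycle identity of `U`. -/
lemma U_identity {A : Type*} [CommRing A] (p : ℕ) (hp : p.Prime) (g x y : A) :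
    U p (g + x) y - U p g (x + y) + U p g x = U p x y := by
  let R := MvPolynomial (Fin 3) ℤ
  have key : ∀ g x y : R, U p (g + x) y - U p g (x + y) + U p g x = U p x y := by
    intro g x y
    have hp0 : (p : ℤ) ≠ 0 := by exact_mod_cast hp.ne_zero
    have : (p : ℤ) • (U p (g + x) y - U p g (x + y) + U p g x) = (p : ℤ) • U p x y := by
      rw [smul_add, smul_sub, p_mul_U p hp, p_mul_U p hp, p_mul_U p hp, p_mul_U p hp]
      ring
    have h2 : (p : ℤ) • ((U p (g + x) y - U p g (x + y) + U p g x) - U p x y) = 0 := by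
      rw [smul_sub, this, sub_self]
    rcases smul_eq_zero.1 h2 with h | h
    · exact absurd h hp0
    · exact sub_eq_zero.1 h
  have h := congrArg (MvPolynomial.eval₂Hom (Int.castRingHom A) ![g, x, y])
    (key (MvPolynomial.X 0) (MvPolynomial.X 1) (MvPolynomial.X 2))
  rw [map_add, map_sub, map_U, map_U, map_U, map_U, map_add, map_add] at h
  simpa using h

/-! ### the elementary symmetric functions -/

section es

variable {A : Type*} [CommRing A] {ι : Type*} [Fintype ι] [DecidableEq ι]

/-- The coefficient of `X^j` in `∏ i, (E i + X G i)`. -/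
noncomputable def es (E G : ι → A) (j : ℕ) : A :=
  ∑ s ∈ Finset.powersetCard j (Finset.univ : Finset ι), (∏ i ∈ s, G i) * ∏ i ∈ Finset.univ \ s, E i

lemma es_zero (E G : ι → A) : es E G 0 = ∏ i, E i := by
  simp [es]

lemma map_es {B : Type*} [CommRing B] (f : A →+* B) (E G : ι → A) (j : ℕ) :
    f (es E G j) = es (fun i => f (E i)) (fun i => f (G i)) j := by
  simp [es, map_sum, map_mul, map_prod]

/-- `∏ (a E_i + b G_i) = ∑ a^(m-j) b^j e_j`. -/
lemma prod_eq (E G : ι → A) (a b : A) :
    ∏ i, (b * G i + a * E i) = ∑ j ∈ Finset.range (Fintype.card ι + 1),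
      a ^ (Fintype.card ι - j) * b ^ j * es E G j := by
  rw [Finset.prod_add, Finset.sum_powerset, Finset.card_univ]
  refine Finset.sum_congr rfl fun j _ => ?_
  rw [es, Finset.mul_sum]
  refine Finset.sum_congr rfl fun s hs => ?_
  rw [Finset.mem_powersetCard] at hs
  rw [Finset.prod_mul_distrib, Finset.prod_mul_distrib, Finset.prod_const, Finset.prod_const,
    Finset.card_sdiff_of_subset hs.1, Finset.card_univ, hs.2]
  ring

lemma es_eq_coeff (E G : ι → A) {j : ℕ} (hj : j ≤ Fintype.card ι) :
    (∏ i, (X * C (G i) + C (E i))).coeff j = es E G j := by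
  have h := prod_eq (fun i => (C (E i) : A[X])) (fun i => C (G i)) 1 X
  simp only [one_mul, one_pow] at h
  rw [h, finsetSum_coeff]
  have h2 : ∀ k, es (fun i => (C (E i) : A[X])) (fun i => C (G i)) k = C (es E G k) :=
    fun k => (map_es (C : A →+* A[X]) E G k).symm
  simp only [h2]
  have h3 : ∀ k, (X ^ k * C (es E G k) : A[X]).coeff j = if j = k then es E G k else 0 := by
    intro k
    rw [mul_comm, coeff_C_mul, coeff_X_pow]
    split_ifs <;> simp
  simp only [h3]
  rw [Finset.sum_ite_eq, if_pos (Finset.mem_range.2 (by omega))]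

/-- Transformation of the elementary symmetric functions under `G ↦ G + x E`. -/
lemma es_shift (E G : ι → A) (x : A) {j : ℕ} (hj : j ≤ Fintype.card ι) :
    es E (fun i => G i + x * E i) j = ∑ i ∈ Finset.range (j + 1),
      ((Fintype.card ι - i).choose (j - i) : A) * x ^ (j - i) * es E G i := by
  rw [← es_eq_coeff E _ hj]
  have h1 : ∀ i, (X * C (G i + x * E i) + C (E i) : A[X]) =
      X * C (G i) + (1 + X * C x) * C (E i) := by
    intro i
    rw [C_add, C_mul]
    ring
  rw [Finset.prod_congr rfl (fun i _ => h1 i), prod_eq (fun i => (C (E i) : A[X]))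
    (fun i => C (G i)) (1 + X * C x) X, finsetSum_coeff]
  have h2 : ∀ k, es (fun i => (C (E i) : A[X])) (fun i => C (G i)) k = C (es E G k) :=
    fun k => (map_es (C : A →+* A[X]) E G k).symm
  simp only [h2]
  have h3 : ∀ n k : ℕ, ((1 + X * C x) ^ n : A[X]).coeff k = (n.choose k : A) * x ^ k := by
    intro n k
    have : (1 + X * C x : A[X]) = (1 + X).comp (C x * X) := by
      rw [add_comp, one_comp, X_comp, mul_comm X]
    rw [this, ← pow_comp, comp_C_mul_X_coeff, coeff_one_add_X_pow]
  have h4 : ∀ i, ((1 + X * C x) ^ (Fintype.card ι - i) * X ^ i * C (es E G i) : A[X]).coeff j =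
      if i ≤ j then ((Fintype.card ι - i).choose (j - i) : A) * x ^ (j - i) * es E G i
      else 0 := by
    intro i
    rw [coeff_mul_C, coeff_mul_X_pow']
    split_ifs
    · rw [h3]
    · simp
  simp only [h4]
  rw [← Finset.sum_filter]
  refine Finset.sum_congr ?_ fun _ _ => rfl
  ext i
  simp only [Finset.mem_filter, Finset.mem_range]
  omega

end es

/-! ### modulo `p` -/

section modp

variable {A : Type*} [CommRing A] {p : ℕ} (hp : p.Prime) (hA : (p : A) = 0)

include hp hA

lemma choose_pred {j : ℕ} (hj : j < p) : ((p - 1).choose j : A) = (-1) ^ j := by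
  induction j with
  | zero => simp
  | succ j ih =>
    have h1 : (p.choose (j + 1) : A) = 0 := by
      obtain ⟨c, hc⟩ := hp.dvd_choose_self (Nat.succ_ne_zero j) hj
      rw [hc, Nat.cast_mul, hA, zero_mul]
    have h2 : p.choose (j + 1) = (p - 1).choose j + (p - 1).choose (j + 1) := by
      obtain ⟨n, rfl⟩ : ∃ n, p = n + 1 := ⟨p - 1, (Nat.succ_pred_prime hp).symm⟩
      rw [Nat.add_sub_cancel, Nat.choose_succ_succ]
    rw [h2, Nat.cast_add, ih (by omega)] at h1
    rw [pow_succ]
    linear_combination h1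

lemma choose_swap {i j : ℕ} (hij : i ≤ j) (hj : j < p) :
    (-1 : A) ^ j * ((p - 1 - i).choose (j - i) : A) = (j.choose i : A) * (-1) ^ i := by
  have h := Nat.choose_mul (n := p - 1) (k := j) (s := i) hij
  have h2 : (((p - 1).choose j : A) * (j.choose i : A)) =
      ((p - 1).choose i : A) * ((p - 1 - i).choose (j - i) : A) := by exact_mod_cast congrArg _ h
  rw [choose_pred hp hA hj, choose_pred hp hA (by omega : i < p)] at h2
  have h3 : ((-1 : A) ^ j) * (-1) ^ j = 1 := by rw [← pow_add, ← two_mul, pow_mul]; simp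
  have h4 : ((-1 : A) ^ i) * (-1) ^ i = 1 := by rw [← pow_add, ← two_mul, pow_mul]; simp
  linear_combination (-(-1 : A) ^ j * (-1) ^ i) * h2 + (j.choose i : A) * (-1) ^ i * h3 -
    (-1 : A) ^ j * ((p - 1 - i).choose (j - i) : A) * h4

end modp

section fs

variable {A : Type*} [CommRing A] {ι : Type*} [Fintype ι] [DecidableEq ι]

/-- `f_j = (-1)^j e_j`. -/
noncomputable def fs (E G : ι → A) (j : ℕ) : A := (-1) ^ j * es E G j

lemma fs_zero (E G : ι → A) : fs E G 0 = ∏ i, E i := by
  rw [fs, es_zero, pow_zero, one_mul]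

lemma map_fs {B : Type*} [CommRing B] (f : A →+* B) (E G : ι → A) (j : ℕ) :
    f (fs E G j) = fs (fun i => f (E i)) (fun i => f (G i)) j := by
  rw [fs, fs, map_mul, map_pow, map_neg, map_one, map_es]

lemma fs_shift {p : ℕ} (hp : p.Prime) (hA : (p : A) = 0) (hι : Fintype.card ι = p - 1)
    (E G : ι → A) (x : A) {j : ℕ} (hj : j < p) :
    fs E (fun i => G i + x * E i) j = ∑ i ∈ Finset.range (j + 1),
      (j.choose i : A) * x ^ (j - i) * fs E G i := by
  rw [fs, es_shift E G x (by omega), Finset.mul_sum]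
  refine Finset.sum_congr rfl fun i hi => ?_
  rw [Finset.mem_range] at hi
  rw [hι, fs]
  have h := choose_swap hp hA (i := i) (j := j) (by omega) hj
  linear_combination (x ^ (j - i) * es E G i) * h

/-- The linear functional `g^j ↦ f_j` on polynomials. -/
noncomputable def lf (p : ℕ) (E G : ι → A) : A[X] →ₗ[A] A :=
  ∑ j ∈ Finset.range p, (lcoeff A j).smulRight (fs E G j)

lemma lf_apply (p : ℕ) (E G : ι → A) (P : A[X]) :
    lf p E G P = ∑ j ∈ Finset.range p, P.coeff j * fs E G j := by
  simp [lf, LinearMap.sum_apply]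

lemma lf_monomial {p : ℕ} (E G : ι → A) {j : ℕ} (hj : j < p) :
    lf p E G (X ^ j) = fs E G j := by
  rw [lf_apply]
  simp only [coeff_X_pow, ite_mul, one_mul, zero_mul]
  rw [Finset.sum_ite_eq' (Finset.range p) j, if_pos (Finset.mem_range.2 hj)]

/-- The functional is compatible with translations. -/
lemma lf_taylor {p : ℕ} (hp : p.Prime) (hA : (p : A) = 0) (hι : Fintype.card ι = p - 1)
    (E G : ι → A) (x : A) {j : ℕ} (hj : j < p) :
    lf p E (fun i => G i + x * E i) (X ^ j) = lf p E G ((X + C x) ^ j) := by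
  rw [lf_monomial _ _ hj, fs_shift hp hA hι E G x hj, lf_apply]
  have h1 : ∀ i, ((X + C x) ^ j : A[X]).coeff i = x ^ (j - i) * (j.choose i : A) :=
    fun i => coeff_X_add_C_pow x j i
  simp only [h1]
  symm
  rw [← Finset.sum_subset (Finset.range_mono (Nat.succ_le_of_lt hj))]
  · refine Finset.sum_congr rfl fun i _ => ?_
    ring
  · intro i _ hi
    rw [Finset.mem_range, not_lt] at hi
    rw [Nat.choose_eq_zero_of_lt (by omega), Nat.cast_zero, mul_zero, zero_mul]

/-- `U (g, y)` with `g^j` replaced by `f_j`. -/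
noncomputable def uu (p : ℕ) (E G : ι → A) (y : A) : A :=
  ∑ j ∈ Finset.Ioo 0 p, ((p.choose j / p : ℕ) : ℤ) • (fs E G j * y ^ (p - j))

lemma map_uu {B : Type*} [CommRing B] (f : A →+* B) (p : ℕ) (E G : ι → A) (y : A) :
    f (uu p E G y) = uu p (fun i => f (E i)) (fun i => f (G i)) (f y) := by
  simp [uu, map_sum, map_fs]

lemma uu_eq_lf (p : ℕ) (E G : ι → A) (y : A) : uu p E G y = lf p E G (U p X (C y)) := by
  rw [uu, U, map_sum]
  refine Finset.sum_congr rfl fun j hj => ?_
  rw [Finset.mem_Ioo] at hj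
  rw [map_zsmul]
  congr 1
  rw [← C_pow, mul_comm (X ^ j : A[X]), ← smul_eq_C_mul, map_smul, lf_monomial _ _ hj.2,
    smul_eq_mul, mul_comm]

/-- The main identity, in a ring killed by `p`. -/
theorem main_identity_modp {p : ℕ} (hp : p.Prime) (hA : (p : A) = 0)
    (hι : Fintype.card ι = p - 1) (E G : ι → A) (x y : A) :
    uu p E (fun i => G i + x * E i) y - uu p E G (x + y) + uu p E G x = U p x y * ∏ i, E i := by
  have h1 : uu p E (fun i => G i + x * E i) y = lf p E G (U p (X + C x) (C y)) := by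
    rw [uu_eq_lf, U, U, map_sum, map_sum]
    refine Finset.sum_congr rfl fun j hj => ?_
    rw [Finset.mem_Ioo] at hj
    rw [map_zsmul, map_zsmul]
    congr 1
    rw [← C_pow, mul_comm (X ^ j : A[X]), mul_comm ((X + C x) ^ j : A[X]), ← smul_eq_C_mul,
      ← smul_eq_C_mul, map_smul, map_smul, lf_taylor hp hA hι E G x hj.2]
  have h2 := U_identity p hp (X : A[X]) (C x) (C y)
  rw [h1, uu_eq_lf, uu_eq_lf, C_add, ← map_sub, ← map_add, h2, ← map_U (C : A →+* A[X])]
  have h3 : (C (U p x y) : A[X]) = U p x y • X ^ 0 := by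
    rw [pow_zero, smul_eq_C_mul, mul_one]
  rw [h3, map_smul, lf_monomial _ _ hp.pos, fs_zero, smul_eq_mul]

/-- The main identity, modulo `p`. -/
theorem main_identity {p : ℕ} (hp : p.Prime) (hι : Fintype.card ι = p - 1) (E G : ι → A)
    (x y : A) : ∃ z : A, uu p E (fun i => G i + x * E i) y - uu p E G (x + y) + uu p E G x =
      U p x y * ∏ i, E i + (p : A) * z := by
  let π := Ideal.Quotient.mk (Ideal.span {(p : A)})
  have hB : ((p : ℕ) : A ⧸ Ideal.span {(p : A)}) = 0 := by
    have : π (p : A) = 0 := Ideal.Quotient.eq_zero_iff_mem.2 (Ideal.mem_span_singleton_self _)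
    rwa [map_natCast] at this
  have h := main_identity_modp hp hB hι (fun i => π (E i)) (fun i => π (G i)) (π x) (π y)
  have h2 : π (uu p E (fun i => G i + x * E i) y - uu p E G (x + y) + uu p E G x -
      U p x y * ∏ i, E i) = 0 := by
    rw [map_sub, map_add, map_sub, map_uu, map_uu, map_uu, map_mul, map_U, map_prod]
    simp only [map_add, map_mul]
    rw [h, sub_self]
  rw [Ideal.Quotient.eq_zero_iff_mem, Ideal.mem_span_singleton] at h2
  obtain ⟨z, hz⟩ := h2
  exact ⟨z, by linear_combination hz⟩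

end fs

end Vale.Agent.P257.H762
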