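import Vale.Agent.P257.H762.Split
import Vale.Agent.P251.B.Final

/-!
# P257, Toda lemma: the map `h : K ⟶ R`

`D : MUData T`, `U` a cofibre of the unit of `D.R`, `a : 𝟙⟦2v⟧ ⟶ J ⊗ 𝟙` with image `q₁ (phi t)` in
`R ⊗ J`, `K` the cofibre of (the desuspension of) `α = a ≫ bdry`.  There is `h : K ⟶ R^{⊗1}`,
`e ≫ h = η`, whose coboundary is `π ≫ phi t` (`exists_h`).
-/

open CategoryTheory MonoidalCategory MonObj Limits Pretriangulated Opposite

universe v u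

namespace Vale.Agent.P257.H762

open Vale.Agent.P251.S Vale.Agent.P251.T Vale.Agent.P251.M Vale.Agent.P251.F Vale.Agent.P251.I
  Vale.Agent.P251.B

variable {T : Type u} [Category.{v} T] [Preadditive T] [HasZeroObject T] [HasShift T ℤ]
  [∀ n : ℤ, (shiftFunctor T n).Additive] [Pretriangulated T] [MonoidalCategory T]
  [SymmetricCategory T] [TensorTriangulated T]

section

variable {R : T} [MonObj R] (U : UnitCof R)

/-- A cocycle of degree one whose image in the `E_1`-term is zero is zero. -/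
lemma eq_zero_of_q_one {P Y : T} (z : P ⟶ U.cobar.Q 2 Y) (hd : z ≫ U.cobar.d 2 Y = 0)
    (hq : z ≫ U.cobar.q 1 Y = 0) : z = 0 := by
  obtain ⟨c', h1, h2⟩ := U.cobar.exists_cobdy (F := preadditiveCoyoneda.obj (op P)) 0 Y z hd 0
    (by rw [map_zero]; exact hq)
  rw [CobarData.q_zero, CobarData.ev_id] at h2
  rw [h2, map_zero] at h1
  exact h1.symm

end

variable [HasCoproducts.{0} T] (D : MUData T) (U : UnitCof D.R)

lemma unitMap_qAm :
    unitMap D.R (𝟙_ T) ≫ (D.qAm U 1).hom = η[Am D.R 1] := by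
  have h := D.d_qAm U 0
  have h0 : (D.qAm U 0).hom = 𝟙 (𝟙_ T) := by
    change (λ_ (𝟙_ T)).inv ≫ (ρ_ (𝟙_ T)).hom = 𝟙 _
    rw [unitors_equal.symm, Iso.inv_hom_id]
  rw [h0, Category.id_comp, Fin.sum_univ_one, Fin.val_zero, pow_zero, one_smul] at h
  have h1 : Am.map D.R (Fin.succAbove 0 : Fin 0 → Fin 1) = η[Am D.R 1] := rfl
  rw [h1] at h
  exact h

/-- The map `h : K ⟶ R^{⊗ 1}`. -/
theorem exists_h {v : ℤ} {t : Cob Laz 1} (htw : Cob.IsWt v t) (ht : Cob.d 1 t = 0)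
    (a : (𝟙_ T)⟦2 * v⟧ ⟶ U.cobar.B 1 (𝟙_ T))
    (ha : ((sphE T v).inv ≫ D.phi U 1 v ⟨t, htw⟩) ≫ U.cobar.q 1 (𝟙_ T) = a ≫ unitMap D.R _)
    {K : T} {e : 𝟙_ T ⟶ K} {π : K ⟶ (𝟙_ T)⟦2 * v⟧}
    (hK : Triangle.mk e π (a ≫ U.bd 0 (𝟙_ T)) ∈ distTriang T) :
    ∃ h : K ⟶ Am D.R 1, e ≫ h = η[Am D.R 1] ∧
      h ≫ Am.map D.R (fun _ : Fin 1 => (1 : Fin 2)) - h ≫ Am.map D.R (fun _ : Fin 1 => (0 : Fin 2)) =
        π ≫ (sphE T v).inv ≫ D.evw 1 v ⟨t, htw⟩ := by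
  obtain ⟨h, h1, h2⟩ : ∃ h : K ⟶ U.cobar.Q 1 (𝟙_ T), e ≫ h = 𝟙 _ ≫ unitMap D.R (𝟙_ T) ∧
      π ≫ a = h ≫ (U.ρ ▷ 𝟙_ T) :=
    complete_distinguished_triangle_morphism₂ _ _ hK (U.triangle_distinguished (𝟙_ T)) (𝟙 _) a
      (by
        change (a ≫ U.bdry (𝟙_ T)) ≫ (𝟙 (𝟙_ T))⟦(1 : ℤ)⟧' = a ≫ U.bdry (𝟙_ T)
        rw [CategoryTheory.Functor.map_id, Category.comp_id])
  rw [Category.id_comp] at h1
  have h3 : h ≫ U.cobar.d 1 (𝟙_ T) = π ≫ (sphE T v).inv ≫ D.phi U 1 v ⟨t, htw⟩ := by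
    rw [← sub_eq_zero]
    apply eq_zero_of_q_one U
    · rw [Preadditive.sub_comp, Category.assoc, CobarData.d_d, comp_zero, zero_sub, neg_eq_zero,
        Category.assoc]
      have h4 := phi_cocycle D U htw ht (sphE T v).inv
      rw [Category.assoc] at h4 ⊢
      rw [h4, comp_zero]
    · rw [Preadditive.sub_comp, Category.assoc, CobarData.d_q, CobarData.q_zero,
        Category.id_comp, Category.assoc, ha]
      change h ≫ (U.ρ ▷ 𝟙_ T) ≫ unitMap D.R _ - _ = 0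
      rw [reassoc_of% h2, sub_self]
  refine ⟨h ≫ (D.qAm U 1).hom, ?_, ?_⟩
  · rw [reassoc_of% h1, unitMap_qAm]
  · have h4 := congrArg (fun f => f ≫ (D.qAm U 2).hom) h3
    simp only [Category.assoc, D.d_qAm, D.phi_apply, Iso.inv_hom_id, Category.comp_id] at h4
    have e0 : (Fin.succAbove (0 : Fin 2) : Fin 1 → Fin 2) = fun _ => 1 := by
      funext i; fin_cases i; rfl
    have e1 : (Fin.succAbove (1 : Fin 2) : Fin 1 → Fin 2) = fun _ => 0 := by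
      funext i; fin_cases i; rfl
    rw [← h4, Fin.sum_univ_two, e0, e1, Fin.val_zero, Fin.val_one, pow_zero, pow_one, one_smul,
      neg_smul, one_smul, Preadditive.comp_add, Preadditive.comp_neg, Preadditive.comp_add,
      Preadditive.comp_neg, Category.assoc, Category.assoc, sub_eq_add_neg]

end Vale.Agent.P257.H762
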