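import Vale.Agent.P251.S.Amitsur
import Mathlib.CategoryTheory.Monoidal.Preadditive
import Mathlib.CategoryTheory.Limits.Shapes.BinaryBiproducts
import Mathlib.CategoryTheory.Preadditive.Biproducts

/-!
# P257, Toda lemma: the square-zero extension `𝟙 ⊕ K` as a commutative monoid
-/

open CategoryTheory MonoidalCategory MonObj Limits

universe v u

namespace Vale.Agent.P257.H762

open Vale.Agent.P251.S

variable {T : Type u} [Category.{v} T] [Preadditive T] [MonoidalCategory T]
  [MonoidalPreadditive T] [HasBinaryBiproducts T]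

/-- The square-zero extension `𝟙 ⊕ K`. -/
noncomputable def SqZ (K : T) : T := 𝟙_ T ⊞ K

namespace SqZ

variable (K : T)

/-- The unit. -/
noncomputable def inl : 𝟙_ T ⟶ SqZ K := biprod.inl
/-- The inclusion of `K`. -/
noncomputable def inr : K ⟶ SqZ K := biprod.inr
/-- The projection to the unit object. -/
noncomputable def fst : SqZ K ⟶ 𝟙_ T := biprod.fst
/-- The projection to `K`. -/
noncomputable def snd : SqZ K ⟶ K := biprod.snd

omit [MonoidalPreadditive T] in
@[reassoc (attr := simp)] lemma inl_fst : inl K ≫ fst K = 𝟙 _ := biprod.inl_fst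
omit [MonoidalPreadditive T] in
@[reassoc (attr := simp)] lemma inr_snd : inr K ≫ snd K = 𝟙 _ := biprod.inr_snd
omit [MonoidalPreadditive T] in
@[reassoc (attr := simp)] lemma inl_snd : inl K ≫ snd K = 0 := biprod.inl_snd
omit [MonoidalPreadditive T] in
@[reassoc (attr := simp)] lemma inr_fst : inr K ≫ fst K = 0 := biprod.inr_fst

omit [MonoidalPreadditive T] in
lemma total : fst K ≫ inl K + snd K ≫ inr K = 𝟙 _ := biprod.total

omit [MonoidalPreadditive T] in
variable {K} in
lemma hom_ext {X : T} {f g : X ⟶ SqZ K} (h1 : f ≫ fst K = g ≫ fst K)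
    (h2 : f ≫ snd K = g ≫ snd K) : f = g := by
  rw [← Category.comp_id f, ← Category.comp_id g, ← total, Preadditive.comp_add,
    Preadditive.comp_add, reassoc_of% h1, reassoc_of% h2]

/-- The multiplication. -/
noncomputable def mul : SqZ K ⊗ SqZ K ⟶ SqZ K :=
  (fst K ⊗ₘ fst K) ≫ (λ_ (𝟙_ T)).hom ≫ inl K +
    ((fst K ⊗ₘ snd K) ≫ (λ_ K).hom ≫ inr K + (snd K ⊗ₘ fst K) ≫ (ρ_ K).hom ≫ inr K)

omit [MonoidalPreadditive T] in
@[reassoc] lemma mul_fst : mul K ≫ fst K = (fst K ⊗ₘ fst K) ≫ (λ_ (𝟙_ T)).hom := by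
  simp [mul]

omit [MonoidalPreadditive T] in
@[reassoc] lemma mul_snd : mul K ≫ snd K =
    (fst K ⊗ₘ snd K) ≫ (λ_ K).hom + (snd K ⊗ₘ fst K) ≫ (ρ_ K).hom := by
  simp [mul]

noncomputable instance : MonObj (SqZ K) where
  one := inl K
  mul := mul K
  one_mul := by
    apply hom_ext
    · rw [Category.assoc, mul_fst, ← tensorHom_id, tensorHom_comp_tensorHom_assoc, inl_fst,
        Category.id_comp, id_tensorHom, leftUnitor_naturality]
    · rw [Category.assoc, mul_snd, Preadditive.comp_add, ← tensorHom_id,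
        tensorHom_comp_tensorHom_assoc, tensorHom_comp_tensorHom_assoc, inl_fst, inl_snd,
        MonoidalPreadditive.zero_tensor, zero_comp, add_zero, Category.id_comp, id_tensorHom,
        leftUnitor_naturality]
  mul_one := by
    apply hom_ext
    · rw [Category.assoc, mul_fst, ← id_tensorHom, tensorHom_comp_tensorHom_assoc, inl_fst,
        Category.id_comp, tensorHom_id, unitors_equal, rightUnitor_naturality]
    · rw [Category.assoc, mul_snd, Preadditive.comp_add, ← id_tensorHom,
        tensorHom_comp_tensorHom_assoc, tensorHom_comp_tensorHom_assoc, inl_fst, inl_snd,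
        MonoidalPreadditive.tensor_zero, zero_comp, zero_add, Category.id_comp, tensorHom_id,
        rightUnitor_naturality]
  mul_assoc := by
    apply hom_ext
    · have h1 : (mul K ▷ SqZ K) ≫ mul K ≫ fst K = ((fst K ⊗ₘ fst K) ⊗ₘ fst K) ≫
          ((λ_ (𝟙_ T)).hom ▷ 𝟙_ T) ≫ (λ_ (𝟙_ T)).hom := by
        rw [mul_fst, ← tensorHom_id, tensorHom_comp_tensorHom_assoc, mul_fst, Category.id_comp,
          ← tensorHom_id, tensorHom_comp_tensorHom_assoc, Category.comp_id]
      have h2 : (SqZ K ◁ mul K) ≫ mul K ≫ fst K = (fst K ⊗ₘ (fst K ⊗ₘ fst K)) ≫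
          (𝟙_ T ◁ (λ_ (𝟙_ T)).hom) ≫ (λ_ (𝟙_ T)).hom := by
        rw [mul_fst, ← id_tensorHom, tensorHom_comp_tensorHom_assoc, mul_fst, Category.id_comp,
          ← id_tensorHom, tensorHom_comp_tensorHom_assoc, Category.comp_id]
      rw [Category.assoc, Category.assoc, Category.assoc, h1, h2,
        ← associator_naturality_assoc]
      congr 1
      monoidal
    · have h1 : (mul K ▷ SqZ K) ≫ mul K ≫ snd K =
          ((fst K ⊗ₘ fst K) ⊗ₘ snd K) ≫ ((λ_ (𝟙_ T)).hom ▷ K) ≫ (λ_ K).hom +
          (((fst K ⊗ₘ snd K) ⊗ₘ fst K) ≫ ((λ_ K).hom ▷ 𝟙_ T) ≫ (ρ_ K).hom +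
          ((snd K ⊗ₘ fst K) ⊗ₘ fst K) ≫ ((ρ_ K).hom ▷ 𝟙_ T) ≫ (ρ_ K).hom) := by
        simp only [← tensorHom_id]
        rw [mul_snd, Preadditive.comp_add, tensorHom_comp_tensorHom_assoc,
          tensorHom_comp_tensorHom_assoc, mul_fst, mul_snd, Category.id_comp, Category.id_comp,
          MonoidalPreadditive.add_tensor, Preadditive.add_comp, tensorHom_comp_tensorHom_assoc,
          tensorHom_comp_tensorHom_assoc, tensorHom_comp_tensorHom_assoc, Category.comp_id,
          Category.comp_id]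
      have h2 : (SqZ K ◁ mul K) ≫ mul K ≫ snd K =
          (fst K ⊗ₘ (fst K ⊗ₘ snd K)) ≫ (𝟙_ T ◁ (λ_ K).hom) ≫ (λ_ K).hom +
          ((fst K ⊗ₘ (snd K ⊗ₘ fst K)) ≫ (𝟙_ T ◁ (ρ_ K).hom) ≫ (λ_ K).hom +
          (snd K ⊗ₘ (fst K ⊗ₘ fst K)) ≫ (K ◁ (λ_ (𝟙_ T)).hom) ≫ (ρ_ K).hom) := by
        simp only [← id_tensorHom]
        rw [mul_snd, Preadditive.comp_add, tensorHom_comp_tensorHom_assoc,
          tensorHom_comp_tensorHom_assoc, mul_fst, mul_snd, Category.id_comp, Category.id_comp,
          MonoidalPreadditive.tensor_add, Preadditive.add_comp, tensorHom_comp_tensorHom_assoc,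
          tensorHom_comp_tensorHom_assoc, tensorHom_comp_tensorHom_assoc, Category.comp_id,
          Category.comp_id, add_assoc]
      rw [Category.assoc, Category.assoc, Category.assoc, h1, h2, Preadditive.comp_add,
        Preadditive.comp_add, ← associator_naturality_assoc, ← associator_naturality_assoc,
        ← associator_naturality_assoc]
      congr 1
      · congr 1
        monoidal
      · congr 1
        · congr 1
          monoidal
        · congr 1
          monoidal

lemma one_def : (η[SqZ K] : 𝟙_ T ⟶ SqZ K) = inl K := rfl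
lemma mul_def : (μ[SqZ K] : SqZ K ⊗ SqZ K ⟶ SqZ K) = mul K := rfl

instance [SymmetricCategory T] : IsCommMonObj (SqZ K) where
  mul_comm := by
    rw [mul_def]
    apply hom_ext
    · rw [Category.assoc, mul_fst, ← BraidedCategory.braiding_naturality_assoc,
        braiding_tensorUnit_left]
      congr 1
      rw [unitors_equal]
      simp
    · rw [Category.assoc, mul_snd, Preadditive.comp_add,
        ← BraidedCategory.braiding_naturality_assoc,
        ← BraidedCategory.braiding_naturality_assoc, add_comm]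
      simp

end SqZ

end Vale.Agent.P257.H762
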