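import Vale.Agent.P257.H762.AlphaH
import Vale.Agent.P257.H762.Alg
import Vale.Agent.P257.H762.SqZero

/-!
# P257, Toda lemma: the cochain which kills `b`

In the homotopy ring of `R^{⊗(s+1)} ⊗ N`, `N = (𝟙 ⊕ K)^{⊗(p-1)}`.
-/

open CategoryTheory MonoidalCategory MonObj Limits Pretriangulated

universe v u

namespace Vale.Agent.P257.H762

open Vale.Agent.P251.S Vale.Agent.P251.T Vale.Agent.P251.M Vale.Agent.P251.M.EvenSpheres
  Vale.Agent.P251.F Vale.Agent.P251.I Vale.Agent.P251.B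

section gen

variable {T : Type u} [Category.{v} T] [MonoidalCategory T] [SymmetricCategory T]
  [Preadditive T] [MonoidalPreadditive T] {E : EvenSpheres T}

/-- Components of the image under a ring map. -/
lemma HRing_map_apply {X Y : T} [MonObj X] [MonObj Y] (f : X ⟶ Y) [IsMonHom f] (z : HRing E X)
    (w : ℤ) : (HRing.map (E := E) f z) w = z w ≫ f := by
  induction z using DirectSum.induction_on with
  | zero => 
    rw [map_zero, DirectSum.zero_apply, DirectSum.zero_apply]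
    exact zero_comp.symm
  | of n a =>
    have h := HRing.map_of (E := E) f n a
    refine (congrArg (fun z : HRing E Y => z w) h).trans ?_
    by_cases hn : n = w
    · subst hn
      erw [DirectSum.of_eq_same, DirectSum.of_eq_same]
    · erw [DirectSum.of_eq_of_ne _ _ _ (Ne.symm hn), DirectSum.of_eq_of_ne _ _ _ (Ne.symm hn)]
      exact zero_comp.symm
  | add x y hx hy =>
    rw [map_add, DirectSum.add_apply, DirectSum.add_apply, hx, hy]
    exact (Preadditive.add_comp _ _ _ _ _ _).symm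

/-- The component of weight `w`. -/
noncomputable def cmp (E : EvenSpheres T) (X : T) (w : ℤ) : HRing E X →+ (E.S w ⟶ X) :=
  AddMonoidHom.mk' (fun z : DirectSum ℤ (E.Gr X) => z w) (fun y z => DirectSum.add_apply y z w)

lemma cmp_map {X Y : T} [MonObj X] [MonObj Y] (f : X ⟶ Y) [IsMonHom f] (z : HRing E X)
    (w : ℤ) : cmp E Y w (HRing.map (E := E) f z) = cmp E X w z ≫ f :=
  HRing_map_apply f z w

omit [MonoidalPreadditive T] in
lemma cmp_of {X : T} (w : ℤ) (a : E.S w ⟶ X) : cmp E X w (HRing.of E X w a) = a :=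
  DirectSum.of_eq_same (β := E.Gr X) w a

variable {X N : T} [MonObj X] [MonObj N]

/-- The class of a map `𝟙 ⟶ N`. -/
noncomputable def Ecls (E : EvenSpheres T) (X : T) [MonObj X] {N : T} [MonObj N] (ε : 𝟙_ T ⟶ N) :
    HRing E (X ⊗ N) :=
  HRing.of E (X ⊗ N) 0 (E.zero.inv ≫ ε ≫ inrM X N)

/-- The class of a map `S^{2w} ⟶ X ⊗ K` with respect to `κ : K ⟶ N`. -/
noncomputable def Gcls {w : ℤ} {K : T} (g : E.S w ⟶ X ⊗ K) (κ : K ⟶ N) : HRing E (X ⊗ N) :=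
  HRing.of E (X ⊗ N) w (g ≫ (X ◁ κ))

/-- The class of a map `S^{2w} ⟶ X`. -/
noncomputable def Tcls (N : T) [MonObj N] {w : ℤ} (a : E.S w ⟶ X) : HRing E (X ⊗ N) :=
  HRing.of E (X ⊗ N) w (a ≫ inlM X N)

lemma Tcls_mul_Ecls {w : ℤ} (a : E.S w ⟶ X) (ε : 𝟙_ T ⟶ N) :
    Tcls N a * Ecls E X ε = HRing.of E (X ⊗ N) w (a ≫ (ρ_ X).inv ≫ (X ◁ ε)) := by
  rw [Tcls, Ecls, of_mul_of (p := w) (add_zero w), gmul, ext_one]
  congr 1
  have h : (inlM X N ▷ 𝟙_ T) ≫ ((X ⊗ N) ◁ (ε ≫ inrM X N)) = (X ◁ ε) ≫ (inlM X N ⊗ₘ inrM X N) := by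
    rw [MonoidalCategory.whiskerLeft_comp, ← whisker_exchange_assoc, tensorHom_def]
  rw [Category.assoc, Category.assoc, Category.assoc, rightUnitor_inv_naturality_assoc,
    reassoc_of% h, inlM_inrM_mul, Category.comp_id]

variable {X' : T} [MonObj X'] (f : X ⟶ X') [IsMonHom f]

lemma map_Ecls (ε : 𝟙_ T ⟶ N) :
    HRing.map (E := E) (f ▷ N) (Ecls E X ε) = Ecls E X' ε := by
  rw [Ecls, HRing.map_of, Category.assoc, Category.assoc, inrM_whiskerRight, Ecls]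

lemma map_Gcls {w : ℤ} {K : T} (g : E.S w ⟶ X ⊗ K) (κ : K ⟶ N) :
    HRing.map (E := E) (f ▷ N) (Gcls g κ) = Gcls (g ≫ (f ▷ K)) κ := by
  rw [Gcls, HRing.map_of, Category.assoc, whisker_exchange, ← Category.assoc, Gcls]

lemma map_Tcls {w : ℤ} (a : E.S w ⟶ X) :
    HRing.map (E := E) (f ▷ N) (Tcls N a) = Tcls N (a ≫ f) := by
  rw [Tcls, HRing.map_of, Category.assoc, inlM_whiskerRight, Tcls, Category.assoc]

lemma Gcls_add {w : ℤ} {K : T} (g : E.S w ⟶ X ⊗ K) (κ : K ⟶ N) (e : 𝟙_ T ⟶ K) (τ : E.S w ⟶ X) :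
    Gcls (g + τ ≫ (ρ_ X).inv ≫ (X ◁ e)) κ = Gcls g κ + Tcls N τ * Ecls E X (e ≫ κ) := by
  rw [Tcls_mul_Ecls, Gcls, Preadditive.add_comp]
  refine ((DirectSum.of (E.Gr (X ⊗ N)) w).map_add _ _).trans ?_
  rw [MonoidalCategory.whiskerLeft_comp]
  simp only [Category.assoc]
  rfl

omit [Preadditive T] [MonoidalPreadditive T] [SymmetricCategory T] in
/-- `e^{⊗ m} : 𝟙 ⟶ K^{⊗ m}`. -/
def epow {K : T} (e : 𝟙_ T ⟶ K) : ∀ m : ℕ, 𝟙_ T ⟶ Am K m
  | 0 => 𝟙 _
  | m + 1 => (ρ_ (𝟙_ T)).inv ≫ (epow e m ⊗ₘ e)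

omit [Preadditive T] [MonoidalPreadditive T] [SymmetricCategory T] in
lemma epow_succ {K : T} (e : 𝟙_ T ⟶ K) (m : ℕ) :
    epow e (m + 1) = (ρ_ (𝟙_ T)).inv ≫ (epow e m ⊗ₘ e) := rfl

lemma prod_of {Z : T} [MonObj Z] [IsCommMonObj Z] (ε : 𝟙_ T ⟶ Z) (m : ℕ) :
    ∏ i : Fin m, HRing.of E (Am Z m) 0 (E.zero.inv ≫ ε ≫ Am.v Z i) =
      HRing.of E (Am Z m) 0 (E.zero.inv ≫ epow ε m) := by
  induction m with
  | zero =>
    rw [Finset.univ_eq_empty, Finset.prod_empty]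
    rfl
  | succ m ih =>
    rw [Fin.prod_univ_castSucc]
    have h1 : ∀ i : Fin m, HRing.of E (Am Z (m + 1)) 0 (E.zero.inv ≫ ε ≫ Am.v Z i.castSucc) =
        HRing.map (E := E) (inlM (Am Z m) Z) (HRing.of E (Am Z m) 0
          (E.zero.inv ≫ ε ≫ Am.v Z i)) := by
      intro i
      rw [HRing.map_of, Am.v_castSucc, Category.assoc, Category.assoc]
    rw [Finset.prod_congr rfl (fun i _ => h1 i), ← map_prod, ih, HRing.map_of, Am.v_last]
    have h2 := Tcls_mul_Ecls (E := E) (N := Z) (E.zero.inv ≫ epow ε m) ε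
    refine h2.trans ?_
    rw [epow_succ, Category.assoc, rightUnitor_inv_naturality_assoc, tensorHom_def]

lemma prod_Ecls {Z : T} [MonObj Z] [IsCommMonObj Z] [IsCommMonObj X] (ε : 𝟙_ T ⟶ Z) (m : ℕ) :
    ∏ i : Fin m, Ecls E X (ε ≫ Am.v Z i) = Ecls E X (epow ε m) := by
  have h1 : ∀ ε' : 𝟙_ T ⟶ Am Z m, Ecls E X ε' = HRing.map (E := E) (inrM X (Am Z m))
      (HRing.of E (Am Z m) 0 (E.zero.inv ≫ ε')) := by
    intro ε'
    rw [HRing.map_of, Category.assoc, Ecls]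
  rw [Finset.prod_congr rfl (fun i _ => h1 _), ← map_prod, prod_of, ← h1]

end gen

section cob

/-- `bcls p t = U (t ⊗ 1, 1 ⊗ t)`. -/
lemma bcls_eq (p : ℕ) (t : Cob Laz 1) :
    bcls p t = U p (Cob.map (Fin.succAbove (2 : Fin 3)) t) (Cob.map (Fin.succAbove (0 : Fin 3)) t) := by
  have hfront : Cob.front 1 1 = Fin.succAbove (2 : Fin 3) := by
    funext i
    fin_cases i <;> rfl
  have hback : Cob.back 1 1 = Fin.succAbove (0 : Fin 3) := by
    funext i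
    fin_cases i <;> rfl
  rw [bcls, U]
  refine Finset.sum_congr rfl fun i _ => ?_
  congr 1
  change Cob.map (Cob.front 1 1) (t ^ i) * Cob.map (Cob.back 1 1) (t ^ (p - i)) = _
  rw [hfront, hback, map_pow, map_pow]

/-- Additivity of a primitive `t`. -/
lemma map_add_of_d {t : Cob Laz 1} (hd : Cob.d 1 t = 0) :
    Cob.map (Fin.succAbove (1 : Fin 3)) t =
      Cob.map (Fin.succAbove (2 : Fin 3)) t + Cob.map (Fin.succAbove (0 : Fin 3)) t := by
  rw [Cob.d_apply, Fin.sum_univ_three] at hd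
  simp only [Fin.val_zero, pow_zero, one_smul, Fin.val_one, pow_one, neg_smul, Fin.val_two,
    even_two, Even.neg_pow, one_pow] at hd
  linear_combination (-1 : Cob Laz 2) * hd

end cob

section main

variable {T : Type u} [Category.{v} T] [Preadditive T] [HasZeroObject T]
  [HasShift T ℤ] [∀ n : ℤ, (shiftFunctor T n).Additive] [Pretriangulated T]
  [MonoidalCategory T] [SymmetricCategory T] [TensorTriangulated T] [HasCoproducts.{0} T]
  (D : MUData T)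

/-- The vertex `R^{⊗1} ⟶ R^{⊗(s+1)}`. -/
noncomputable def vx (s : ℕ) (k : Fin (s + 1)) : Am D.R 1 ⟶ Am D.R (s + 1) :=
  Am.map D.R (fun _ : Fin 1 => k)

instance (s : ℕ) (k : Fin (s + 1)) : IsMonHom (vx D s k) := by
  unfold vx
  infer_instance

lemma vx_map {m s : ℕ} (α : Fin (m + 1) → Fin (s + 1)) (k : Fin (m + 1)) :
    vx D m k ≫ Am.map D.R α = vx D s (α k) := by
  rw [vx, ← Am.map_comp]
  rfl

/-- The data needed for the construction of the cochain. -/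
structure GData (K : T) (e : 𝟙_ T ⟶ K) {v : ℤ} (t : Cob.wt Laz 1 v) where
  /-- the class `G` -/
  g : (stdEven T).S v ⟶ Am D.R 1 ⊗ K
  rel : g ≫ (vx D 1 1 ▷ K) = g ≫ (vx D 1 0 ▷ K) +
    D.evw 1 v t ≫ (ρ_ _).inv ≫ (Am D.R 2 ◁ e)

variable {D} {K : T} {e : 𝟙_ T ⟶ K} {v : ℤ} {t : Cob.wt Laz 1 v} (Γ : GData D K e t)

namespace GData

lemma rel_map {s : ℕ} (α : Fin 2 → Fin (s + 1)) :
    Γ.g ≫ (vx D s (α 1) ▷ K) = Γ.g ≫ (vx D s (α 0) ▷ K) +
      (D.evw 1 v t ≫ Am.map D.R α) ≫ (ρ_ _).inv ≫ (Am D.R (s + 1) ◁ e) := by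
  have h := congrArg (fun z => z ≫ (Am.map D.R α ▷ K)) Γ.rel
  simp only [Preadditive.add_comp, Category.assoc, ← comp_whiskerRight] at h
  rw [vx_map, vx_map, whisker_exchange, ← rightUnitor_inv_naturality_assoc] at h
  rw [h, Category.assoc]

variable (m : ℕ)

/-- The inclusion of the `i`-th copy of `K`. -/
noncomputable def κ (K : T) (m : ℕ) (i : Fin m) : K ⟶ Am (SqZ K) m := SqZ.inr K ≫ Am.v (SqZ K) i

/-- The classes `E_i`. -/
noncomputable def EE (D : MUData T) (e : 𝟙_ T ⟶ K) (m : ℕ) (s : ℕ) (i : Fin m) :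
    HRing (stdEven T) (Am D.R (s + 1) ⊗ Am (SqZ K) m) :=
  Ecls (stdEven T) (Am D.R (s + 1)) (e ≫ κ K m i)

/-- The classes `G_i` at the vertex `k`. -/
noncomputable def GG (s : ℕ) (k : Fin (s + 1)) (i : Fin m) :
    HRing (stdEven T) (Am D.R (s + 1) ⊗ Am (SqZ K) m) :=
  Gcls (Γ.g ≫ (vx D s k ▷ K)) (κ K m i)

/-- The class of an edge of `t`. -/
noncomputable def TT (D : MUData T) (K : T) (m : ℕ) (s : ℕ) (z : Cob Laz s) :
    HRing (stdEven T) (Am D.R (s + 1) ⊗ Am (SqZ K) m) :=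
  HRing.map (E := stdEven T) (inlM (Am D.R (s + 1)) (Am (SqZ K) m)) (D.ev s z)

lemma TT_wt {s : ℕ} {w : ℤ} (z : Cob.wt Laz s w) :
    TT D K m s z.1 = Tcls (Am (SqZ K) m) (D.evw s w z) := by
  rw [TT, ← D.of_evw, HRing.map_of, Tcls]

lemma TT_map {r s : ℕ} (α : Fin (r + 1) → Fin (s + 1)) (z : Cob Laz r) :
    HRing.map (E := stdEven T) (Am.map D.R α ▷ Am (SqZ K) m) (TT D K m r z) =
      TT D K m s (Cob.map α z) := by
  have h : ∀ y : HRing (stdEven T) (Am D.R (r + 1)),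
      HRing.map (E := stdEven T) (Am.map D.R α ▷ Am (SqZ K) m)
        (HRing.map (E := stdEven T) (inlM (Am D.R (r + 1)) (Am (SqZ K) m)) y) =
      HRing.map (E := stdEven T) (inlM (Am D.R (s + 1)) (Am (SqZ K) m))
        (HRing.map (E := stdEven T) (Am.map D.R α) y) := by
    intro y
    apply DFunLike.ext
    intro w
    rw [HRing_map_apply, HRing_map_apply, HRing_map_apply, HRing_map_apply, Category.assoc,
      Category.assoc, inlM_whiskerRight]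
  rw [TT, TT, ← D.ev_map, h]

lemma GG_rel {s : ℕ} (α : Fin 2 → Fin (s + 1)) (i : Fin m) :
    Γ.GG m s (α 1) i = Γ.GG m s (α 0) i + TT D K m s (Cob.map α t.1) * EE D e m s i := by
  have h : Tcls (Am (SqZ K) m) (D.evw 1 v t ≫ Am.map D.R α) = TT D K m s (Cob.map α t.1) := by
    rw [← TT_map, TT_wt, map_Tcls]
  rw [GG, Γ.rel_map α, Gcls_add, h, GG, EE]

lemma GG_map {r s : ℕ} (α : Fin (r + 1) → Fin (s + 1)) (k : Fin (r + 1)) (i : Fin m) :
    HRing.map (E := stdEven T) (Am.map D.R α ▷ Am (SqZ K) m) (Γ.GG m r k i) = Γ.GG m s (α k) i := by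
  rw [GG, map_Gcls, Category.assoc, ← comp_whiskerRight, vx_map, GG]

lemma EE_map {r s : ℕ} (α : Fin (r + 1) → Fin (s + 1)) (i : Fin m) :
    HRing.map (E := stdEven T) (Am.map D.R α ▷ Am (SqZ K) m) (EE D e m r i) = EE D e m s i := by
  rw [EE, map_Ecls, EE]

lemma prod_EE (s : ℕ) : ∏ i, EE D e m s i =
    Ecls (stdEven T) (Am D.R (s + 1)) (epow (e ≫ SqZ.inr K) m) := by
  rw [← prod_Ecls]
  refine Finset.prod_congr rfl fun i _ => ?_
  rw [EE, κ, Category.assoc]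

lemma TT_add (s : ℕ) (y z : Cob Laz s) :
    TT D K m s (y + z) = TT D K m s y + TT D K m s z := by
  rw [TT, TT, TT, map_add, map_add]

include Γ in
/-- The cochain in the homotopy rings. -/
theorem exists_cochain_ring (p : ℕ) [Fact p.Prime] (hd : Cob.d 1 t.1 = 0) :
    ∃ (u : HRing (stdEven T) (Am D.R 2 ⊗ Am (SqZ K) (p - 1)))
      (z : HRing (stdEven T) (Am D.R 3 ⊗ Am (SqZ K) (p - 1))),
      HRing.map (E := stdEven T)
          (Am.map D.R (Fin.succAbove (0 : Fin 3)) ▷ Am (SqZ K) (p - 1)) u -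
        HRing.map (E := stdEven T)
          (Am.map D.R (Fin.succAbove (1 : Fin 3)) ▷ Am (SqZ K) (p - 1)) u +
        HRing.map (E := stdEven T)
          (Am.map D.R (Fin.succAbove (2 : Fin 3)) ▷ Am (SqZ K) (p - 1)) u =
      TT D K (p - 1) 2 (bcls p t.1) *
        Ecls (stdEven T) (Am D.R 3) (epow (e ≫ SqZ.inr K) (p - 1)) +
      (p : HRing (stdEven T) (Am D.R 3 ⊗ Am (SqZ K) (p - 1))) * z := by
  have hp : p.Prime := Fact.out
  refine ⟨uu p (EE D e (p - 1) 1) (Γ.GG (p - 1) 1 0) (TT D K (p - 1) 1 t.1), ?_⟩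
  obtain ⟨z, hz⟩ := main_identity hp (by rw [Fintype.card_fin]) (EE D e (p - 1) 2)
    (Γ.GG (p - 1) 2 0) (TT D K (p - 1) 2 (Cob.map (Fin.succAbove (2 : Fin 3)) t.1))
    (TT D K (p - 1) 2 (Cob.map (Fin.succAbove (0 : Fin 3)) t.1))
  refine ⟨z, ?_⟩
  have hU : TT D K (p - 1) 2 (bcls p t.1) =
      U p (TT D K (p - 1) 2 (Cob.map (Fin.succAbove (2 : Fin 3)) t.1))
        (TT D K (p - 1) 2 (Cob.map (Fin.succAbove (0 : Fin 3)) t.1)) := by
    rw [bcls_eq, TT, map_U, map_U, TT, TT]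
  rw [hU, ← prod_EE, ← hz, map_uu, map_uu, map_uu]
  simp only [EE_map, GG_map, TT_map]
  congr 1
  · congr 1
    · congr 1
      funext i
      exact Γ.GG_rel (p - 1) (Fin.succAbove (2 : Fin 3)) i
    · congr 1
      rw [map_add_of_d hd, TT_add]

include Γ in
/-- The cochain. -/
theorem exists_cochain (p : ℕ) [Fact p.Prime] (hd : Cob.d 1 t.1 = 0) {w : ℤ}
    (hb : Cob.IsWt w (bcls p t.1)) :
    ∃ (u : (stdEven T).S w ⟶ Am D.R 2 ⊗ Am (SqZ K) (p - 1))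
      (z : (stdEven T).S w ⟶ Am D.R 3 ⊗ Am (SqZ K) (p - 1)),
      u ≫ ∑ i : Fin 3, (-1 : ℤ) ^ (i : ℕ) •
          (Am.map D.R (Fin.succAbove i : Fin 2 → Fin 3) ▷ Am (SqZ K) (p - 1)) =
        D.evw 2 w ⟨bcls p t.1, hb⟩ ≫ (ρ_ _).inv ≫
          (Am D.R 3 ◁ epow (e ≫ SqZ.inr K) (p - 1)) + (p : ℤ) • z := by
  obtain ⟨u, z, h⟩ := Γ.exists_cochain_ring p hd
  have h1 := TT_wt (D := D) (K := K) (p - 1) (⟨bcls p t.1, hb⟩ : Cob.wt Laz 2 w)
  have h3 : (p : HRing (stdEven T) (Am D.R 3 ⊗ Am (SqZ K) (p - 1))) * z = (p : ℤ) • z := by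
    rw [zsmul_eq_mul, Int.cast_natCast]
  rw [show TT D K (p - 1) 2 (bcls p t.1) = _ from h1, Tcls_mul_Ecls, h3] at h
  refine ⟨cmp (stdEven T) _ w u, cmp (stdEven T) _ w z, ?_⟩
  have h2 := congrArg (cmp (stdEven T) (Am D.R 3 ⊗ Am (SqZ K) (p - 1)) w) h
  rw [map_add, map_sub, map_add, map_zsmul, cmp_of, cmp_map, cmp_map, cmp_map] at h2
  rw [← h2, Fin.sum_univ_three]
  simp only [Fin.val_zero, pow_zero, one_smul, Fin.val_one, pow_one, neg_smul, Fin.val_two,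
    even_two, Even.neg_pow, one_pow, Preadditive.comp_add, Preadditive.comp_neg, sub_eq_add_neg]

end GData

end main

end Vale.Agent.P257.H762
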