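import Vale.Agent.P257.H762.MHK
import Vale.Agent.P257.H80.BPLib

/-!
# P257, monotonicity: the universal Brown-Peterson monoid
-/

open CategoryTheory MonoidalCategory Limits Pretriangulated MonObj
open Vale.Agent.P251 Vale.Agent.P251.T Vale.Agent.P251.S Vale.Agent.P251.H Vale.Agent.P251.M
  Vale.Agent.P251.I Vale.Agent.P251.F Vale.Agent.P257.H702

universe u

set_option linter.unusedSectionVars false

namespace Vale.Agent.P257.H762

variable {T : Type u} [Category.{0} T] [Preadditive T] [HasZeroObject T]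
    [HasShift T ℤ] [∀ n : ℤ, (shiftFunctor T n).Additive] [Pretriangulated T] [IsTriangulated T]
    [MonoidalCategory T] [SymmetricCategory T] [TensorTriangulated T] [MonoidalClosed T]
    [HasCoproducts.{0} T] [HasProducts.{0} T] [StableCat T]
  {F : SpaceFunctor T} {e : F.S.obj CCF ≅ (stdEven T).L} {D : MUData T}
  {p : ℕ} [hp : Fact p.Prime]

/-- the low homotopy of the Brown-Peterson monoid -/
theorem hk_of_isBPMon (hD : MUUniv e D) {B : T} [MonObj B] [IsCommMonObj B] {b : D.R ⟶ B}
    [IsMonHom b] (hb : H80.IsBPMon p b) : HK p B := by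
  obtain ⟨Rp, i1, i2, l, i3, B', i4, i5, s, r, i6, i7, hl, hsr, hb'⟩ := H80.exists_bp (p := p) hD
  obtain ⟨f, g, i8, i9, hfg, hgf, hf⟩ := hb.exists_iso hb'
  refine HK.of_retract hp.out F (R := D.R) (fun h => conn_cof_MU F D h) hl (f ≫ s) (r ≫ g) ?_
  rw [Category.assoc, reassoc_of% hsr, hfg]

end Vale.Agent.P257.H762
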