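import Vale.Agent.P251.X.HQ

/-!
# P257, monotonicity: objects with vanishing homotopy below `n` are built from cells

`bigCell_of_conn`: if `π_k X = 0` for `k < n`, then `X` is in `BigCell n`.
-/

open CategoryTheory MonoidalCategory Limits Pretriangulated
open Vale.Agent.P251.T Vale.Agent.P251.S Vale.Agent.P251.H Vale.Agent.P251.M
  Vale.Agent.P251.I

universe v u

set_option linter.unusedSectionVars false

namespace Vale.Agent.P257.H762

variable {T : Type u} [Category.{v} T] [Preadditive T] [HasZeroObject T]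
    [HasShift T ℤ] [∀ n : ℤ, (shiftFunctor T n).Additive] [Pretriangulated T] [IsTriangulated T]
    [MonoidalCategory T] [SymmetricCategory T] [TensorTriangulated T] [MonoidalClosed T]
    [HasCoproducts.{0} T] [HasProducts.{0} T] [StableCat T]

theorem BigCell.conn' {n : ℤ} {X : T} (h0 : Conn (0 : ℤ) (𝟙_ T)) (hX : BigCell T n X) :
    Conn n X := hX.conn h0 (fun Y k f => StableCat.compact k Y f)

/-- Attach cells of dimension `≥ n` onto the homotopy of `X`. -/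
theorem exists_onto [LocallySmall.{0} T] (n : ℤ) (X : T) :
    ∃ (A : T) (g : A ⟶ X), BigCell T n A ∧
      ∀ k : ℤ, n ≤ k → ∀ x : (𝟙_ T)⟦k⟧ ⟶ X, ∃ y : (𝟙_ T)⟦k⟧ ⟶ A, y ≫ g = x := by
  let J : Type := Σ m : ℕ, Shrink.{0} ((𝟙_ T)⟦(n + m : ℤ)⟧ ⟶ X)
  let Y : J → T := fun j => (𝟙_ T)⟦(n + j.1 : ℤ)⟧
  refine ⟨∐ Y, Sigma.desc fun j : J => (equivShrink _).symm j.2,
    BigCell.coprod Y fun j => BigCell.sphere _ (by omega), ?_⟩
  intro k hk x
  obtain ⟨m, rfl⟩ : ∃ m : ℕ, k = n + (m : ℤ) := ⟨(k - n).toNat, by omega⟩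
  exact ⟨Sigma.ι Y ⟨m, equivShrink _ x⟩, by simp [Y]⟩

/-- Kill the kernel on the homotopy in degrees `≥ n`. -/
theorem exists_kerKill [LocallySmall.{0} T] (n : ℤ) {A X : T} (g : A ⟶ X) (hA : BigCell T n A) :
    ∃ (A' : T) (f : A ⟶ A') (g' : A' ⟶ X), f ≫ g' = g ∧ BigCell T n A' ∧
      ∀ k : ℤ, n ≤ k → ∀ x : (𝟙_ T)⟦k⟧ ⟶ A, x ≫ g = 0 → x ≫ f = 0 := by
  let J : Type := Σ m : ℕ, Shrink.{0} {x : (𝟙_ T)⟦(n + m : ℤ)⟧ ⟶ A // x ≫ g = 0}
  let Y : J → T := fun j => (𝟙_ T)⟦(n + j.1 : ℤ)⟧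
  let a : ∐ Y ⟶ A := Sigma.desc fun j : J => ((equivShrink _).symm j.2).1
  obtain ⟨A', f, w, D⟩ := exists_cone a
  have ha : a ≫ g = 0 := by
    refine Sigma.hom_ext _ _ fun j => ?_
    rw [Sigma.ι_desc_assoc, comp_zero]
    exact ((equivShrink _).symm j.2).2
  obtain ⟨g', hg'⟩ := D.desc₂ g ha
  refine ⟨A', f, g', hg', ?_, ?_⟩
  · exact BigCell.ext₃ _ D hA
      ((BigCell.coprod (n := n) Y fun j => BigCell.sphere _ (by omega)).mono (by omega))
  · intro k hk x hx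
    obtain ⟨m, rfl⟩ : ∃ m : ℕ, k = n + (m : ℤ) := ⟨(k - n).toNat, by omega⟩
    have h1 : x = Sigma.ι Y ⟨m, equivShrink _ ⟨x, hx⟩⟩ ≫ a := by
      simp [a, Y]
    rw [h1, Category.assoc, D.zero₁₂, comp_zero]

/-- If `π_k X = 0` for `k < n`, then `X` is built from cells of dimension `≥ n`. -/
theorem bigCell_of_conn [LocallySmall.{0} T] (h0 : Conn (0 : ℤ) (𝟙_ T)) {n : ℤ} {X : T}
    (hX : Conn n X) : BigCell T n X := by
  obtain ⟨A₀, g₀, hA₀, hs₀⟩ := exists_onto n X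
  choose A' f g' hfg hA' hk using
    fun (s : {s : Σ A : T, (A ⟶ X) // BigCell T n s.1}) => exists_kerKill n s.1.2 s.2
  let E : ℕ → {s : Σ A : T, (A ⟶ X) // BigCell T n s.1} := fun m =>
    Nat.rec ⟨⟨A₀, g₀⟩, hA₀⟩ (fun _ s => ⟨⟨A' s, g' s⟩, hA' s⟩) m
  let F : ∀ m, (E m).1.1 ⟶ (E (m + 1)).1.1 := fun m => f (E m)
  let U : Tel (X := fun m => (E m).1.1) F := tel _
  obtain ⟨G, hG⟩ := U.exists_desc (fun m => (E m).1.2) (fun m => hfg (E m))
  have hU : BigCell T n U.obj := BigCell.tel U.isTel fun m => (E m).2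
  have hUc : Conn n U.obj := BigCell.conn' h0 hU
  have hiso : IsIso G := by
    refine isIso_of_bijective_hom (fun k => (𝟙_ T)⟦k⟧)
      (fun k k' h => ⟨((shiftFunctorAdd' T k 1 k' h).app (𝟙_ T)).symm⟩)
      (fun X hX => StableCat.generator X hX) _ ?_ ?_
    · intro k x hx
      rcases lt_or_ge k n with h | h
      · exact hUc k h x
      · obtain ⟨m, a, rfl⟩ := U.exists_factor (Vale.Agent.P251.X.cpt_sphere k) x
        rw [Category.assoc, hG] at hx
        have h1 : a ≫ F m = 0 := hk (E m) k h a hx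
        rw [← U.w, ← Category.assoc, h1, zero_comp]
    · intro k y
      rcases lt_or_ge k n with h | h
      · exact ⟨0, by rw [hX k h y, zero_comp]⟩
      · obtain ⟨z, hz⟩ := hs₀ k h y
        exact ⟨z ≫ U.ι 0, by rw [Category.assoc, hG]; exact hz⟩
  exact BigCell.of_iso (asIso G) hU

end Vale.Agent.P257.H762
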