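import Vale.Agent.P257.H762.MFin

/-!
# P257, monotonicity: families of ring spectra

`mono_family` : for a family of ring spectra `R j` with classes `v j`, if a spectrum `X` with
`(R j)_* X = (R j)_* / (v_0, …, v_{n+1})` for all `j` exists, then a spectrum `Y` with
`(R j)_* Y = (R j)_* / (v_0, …, v_n)` for all `j` exists.
-/

open CategoryTheory MonoidalCategory Limits Pretriangulated MonObj
open Vale.Agent.P251 Vale.Agent.P251.T Vale.Agent.P251.S Vale.Agent.P251.H Vale.Agent.P251.M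
  Vale.Agent.P251.I Vale.Agent.P257.H702 Vale.Agent.P257.St
open Vale.Agent.P257.H314 (sI)

set_option linter.unusedSectionVars false

noncomputable section

universe v u w

namespace Vale.Agent.P257.H762

section gen

variable {T : Type u} [Category.{v} T] [Preadditive T] [HasZeroObject T] [HasShift T ℤ]
  [∀ n : ℤ, (shiftFunctor T n).Additive] [Pretriangulated T]
  [MonoidalCategory T] [SymmetricCategory T] [TensorTriangulated T]

variable {K : T} [MonObj K]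

theorem hcls_one {C : T} (x : 𝟙_ T ⟶ C) : hcls x η[K] = x ≫ hur K C := by
  unfold hcls hur
  rw [rightUnitor_inv_naturality_assoc, leftUnitor_inv_naturality_assoc, unitors_inv_equal,
    whisker_exchange]

theorem smul_hcls {A C : T} (m : ℤ) (x : 𝟙_ T ⟶ C) (a : A ⟶ K) :
    hcls (m • x) a = m • hcls x a := by
  unfold hcls
  rw [smul_whiskerLeft, Preadditive.comp_zsmul, Preadditive.comp_zsmul]

variable [MonoidalClosed T] [HasCoproducts.{0} T]

/-- `K_* (S/p) = K_*/p` -/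
theorem cycK_one {S : ℕ → T} {v : ∀ n, S n ⟶ K} {p : ℕ} (hS : SphAct S) (hr : Reg v 1)
    (ε : S 0 ≅ 𝟙_ T) (hv0 : v 0 = (p : ℤ) • (ε.hom ≫ η[K])) {C : T} {iC : 𝟙_ T ⟶ C}
    {δ : C ⟶ (𝟙_ T)⟦(1 : ℤ)⟧} (hC : Triangle.mk ((p : ℤ) • 𝟙 (𝟙_ T)) iC δ ∈ distTriang T) :
    CycK v 1 iC := by
  have h0 := CycK.zero (v := v)
  let a : 𝟙_ T ≅ S 0 ⊗ 𝟙_ T := ε.symm ≪≫ (ρ_ _).symm
  have hΔ : Triangle.mk (a.inv ≫ ((p : ℤ) • 𝟙 (𝟙_ T))) iC (δ ≫ a.hom⟦(1 : ℤ)⟧') ∈ distTriang T :=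
    H702.dist_iso' hC a (Iso.refl _) (Iso.refl _) (by simp) (by simp) (by simp)
  have h1 := h0.step hS (hr 0 Nat.one_pos) ?_ hΔ
  · rwa [Category.id_comp] at h1
  · rw [hv0]
    simp [a, hcls, unitors_inv_equal]

variable [IsTriangulated T] [HasProducts.{0} T] [StableCat T]

theorem inI_p {S : ℕ → T} {v : ∀ n, S n ⟶ K} {p : ℕ} (ε : S 0 ≅ 𝟙_ T)
    (hv0 : v 0 = (p : ℤ) • (ε.hom ≫ η[K])) {k : ℕ} (hk : 1 ≤ k) {A : T} (a : A ⟶ K) :
    InI v k ((p : ℤ) • a) := by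
  have h4 : InI v k (v 0) := by
    have := inI_single v (Nat.lt_of_lt_of_le Nat.zero_lt_one hk)
      ((λ_ (S 0)).inv ≫ η[K] ▷ S 0)
    rwa [unit_mul_cls] at this
  have h5 := h4.mul_left (a ≫ (ρ_ K).inv ≫ K ◁ ε.inv)
  convert h5 using 1
  rw [hv0, smul_whiskerLeft, Preadditive.zsmul_comp, Preadditive.comp_zsmul]
  congr 1
  simp only [Category.assoc]
  rw [← MonoidalCategory.whiskerLeft_comp_assoc, Iso.inv_hom_id_assoc]
  simp

end gen

variable {T : P251.St.SHCat} {S : P251.St.Susp T} {p n : ℕ}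

/-- from the statement layer to the library, with a Hurewicz generator -/
theorem cycK_of_isSmithToda {R : P251.St.RingSp T} (hp : 1 ≤ p)
    {v : ∀ i : ℕ, P251.St.SHCat.Hom (S.obj (P251.St.Cn (p ^ i - 1))) R.obj} {X : T.C}
    {g : 𝟙_ T.C ⟶ R.obj ⊗ X}
    (h1 : ∀ (k : ℤ) (y : P251.St.SHCat.Hom (P251.St.sphere T k) (P251.St.SHCat.ten R.obj X)),
      ∃ a : P251.St.SHCat.Hom (P251.St.sphere T k) R.obj, y = P251.St.SHCat.comp a (lin g))
    (h2 : ∀ (k : ℤ) (a : P251.St.SHCat.Hom (P251.St.sphere T k) R.obj),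
      P251.St.SHCat.comp a (lin g) = 0 ↔ InIdeal p n v a)
    {x : 𝟙_ T.C ⟶ X} (hx : x ≫ hur R.obj X = g) : CycK (wv hp v) (n + 1) x := by
  subst hx
  constructor
  · rintro A ⟨k, ⟨e⟩⟩ y
    obtain ⟨a, ha⟩ := h1 k (e.inv ≫ y)
    refine ⟨e.hom ≫ a, ?_⟩
    rw [hcls_comp, ← comp_lin_hur]
    rw [← cancel_epi e.inv, Iso.inv_hom_id_assoc]
    exact ha
  · rintro A ⟨k, ⟨e⟩⟩ a
    have h3 := h2 k (e.inv ≫ a)
    rw [inI_of_inIdeal hp] at h3
    have h4 : P251.St.SHCat.comp (e.inv ≫ a) (lin (x ≫ hur R.obj X)) = e.inv ≫ hcls x a :=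
      (comp_lin_hur x (e.inv ≫ a)).trans (hcls_comp x e.inv a)
    rw [h4] at h3
    constructor
    · intro h5
      have h6 := (h3.1 (by rw [h5, comp_zero])).comp _ e.hom
      rwa [Iso.hom_inv_id_assoc] at h6
    · intro h5
      have h6 := h3.2 (h5.comp _ e.inv)
      rw [← cancel_epi e.inv, h6, comp_zero]

theorem dimLe_unit : DimLe (𝟙_ T.C) 0 := ⟨0, le_rfl, ⟨((shiftFunctorZero T.C ℤ).app _).symm⟩⟩

theorem clos_fin : Clos (fun X : T.C => FinSp X ∧ KillsPow p X) where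
  iso h e := ⟨finSp_iso h.1 e, h.2.imp fun _ hj => hj.of_iso e⟩
  shift m h := ⟨finSp_shift h.1 m, h.2.imp fun _ hj => hj.shift m⟩
  cone D h h' := by
    refine ⟨finSp_cof D h.1 h'.1, ?_⟩
    obtain ⟨i, hi⟩ := h.2
    obtain ⟨j, hj⟩ := h'.2
    exact ⟨j + i, by rw [pow_add]; exact Kills.cof D hi hj⟩

section fam

variable {J : Type w} (R : J → P251.St.RingSp T)
  (v : ∀ (j : J) (i : ℕ), P251.St.SHCat.Hom (S.obj (P251.St.Cn (p ^ i - 1))) (R j).obj)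

include S

/-- a common generator -/
theorem exists_gen (hp : p.Prime) (hK : ∀ j, HK p (R j).obj)
    (hv0 : ∀ j, wv hp.one_le (v j) 0 = (p : ℤ) • ((e0 T.C p).hom ≫ η[(R j).obj])) (j₀ : J)
    {X : T.C} (hX : FinPLocal p X) (h : ∀ j, IsSmithToda p n (v j) X) :
    Conn 0 X ∧ ∃ x : 𝟙_ T.C ⟶ X, ∀ j, CycK (wv hp.one_le (v j)) (n + 1) x := by
  choose g hprim hgen hker using h
  have hloc := finPLocal_pLoc hX
  obtain ⟨b, hb⟩ := finPLocal_conn hp S.toSpaceFunctor hX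
  have h0 : Conn (0 : ℤ) (𝟙_ T.C) := unit_conn S.toSpaceFunctor
  have hX0 : Conn 0 X := by
    refine conn_of_hur hp (hK j₀) h0 hloc hb fun k hk y => ?_
    obtain ⟨a, ha⟩ := hgen j₀ k y
    have h1 : a = 0 := (hK j₀).conn k hk a
    refine ha.trans ?_
    rw [h1]
    exact zero_comp
  have hx : ∀ j, ∃ x : 𝟙_ T.C ⟶ X, x ≫ hur (R j).obj X = g j := fun j =>
    hur_surj' hp (hK j) h0 hloc hX0 dimLe_unit (g j)
  choose x hx using hx
  have hcyc : ∀ j, CycK (wv hp.one_le (v j)) (n + 1) (x j) := fun j =>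
    cycK_of_isSmithToda hp.one_le (hgen j) (hker j) (hx j)
  have key : ∀ j (z : 𝟙_ T.C ⟶ X), ∃ c : ℤ, z = c • x j := by
    intro j z
    obtain ⟨a, ha⟩ := (hcyc j).1 _ dimLe_unit.isSph (z ≫ hur (R j).obj X)
    obtain ⟨m, hm, c, hc⟩ := (hK j).zero a
    have h1 : m • z = c • x j := by
      rw [← sub_eq_zero]
      refine hur_inj' (A := 𝟙_ T.C) hp (hK j) h0 hloc hX0 dimLe_unit _ ?_
      rw [Preadditive.sub_comp, Preadditive.zsmul_comp, Preadditive.zsmul_comp, ha,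
        ← hcls_smul, hc, hcls_smul, hcls_one, sub_self]
    have h2 : (p : ℤ) • z = 0 := by
      refine hur_inj' (A := 𝟙_ T.C) hp (hK j) h0 hloc hX0 dimLe_unit _ ?_
      rw [Preadditive.zsmul_comp, ha, ← hcls_smul, (hcyc j).2 _ dimLe_unit.isSph]
      exact inI_p (e0 T.C p) (hv0 j) (Nat.succ_le_succ (Nat.zero_le n)) a
    obtain ⟨α, β, hαβ⟩ := exists_smul_inv hp hm
    refine ⟨α * c, ?_⟩
    have h7 : (α * m + β * p) • z = z := by rw [hαβ, one_smul]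
    rw [← h7, add_smul, mul_smul, mul_smul β, h2, smul_zero, add_zero, h1, mul_smul]
  refine ⟨hX0, x j₀, fun j => ?_⟩
  obtain ⟨s, hs⟩ := key j₀ (x j)
  obtain ⟨t, ht⟩ := key j (x j₀)
  constructor
  · intro A hA y
    obtain ⟨a, rfl⟩ := (hcyc j).1 A hA y
    exact ⟨s • a, by rw [hs, smul_hcls, hcls_smul]⟩
  · intro A hA a
    rw [← (hcyc j).2 A hA]
    constructor
    · intro h1
      rw [hs, smul_hcls, h1, smul_zero]
    · intro h1
      rw [ht, smul_hcls, h1, smul_zero]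

/-- **Monotonicity**, for a family of ring spectra. -/
theorem mono_family (hp : p.Prime) (hK : ∀ j, HK p (R j).obj)
    (hv0 : ∀ j, wv hp.one_le (v j) 0 = (p : ℤ) • ((e0 T.C p).hom ≫ η[(R j).obj]))
    (hreg : ∀ j h, Reg (wv hp.one_le (v j)) h) {X : T.C} (hX : FinPLocal p X)
    (h : ∀ j, IsSmithToda p (n + 1) (v j) X) :
    ∃ Y : T.C, FinPLocal p Y ∧ ∀ j, IsSmithToda p n (v j) Y := by
  rcases isEmpty_or_nonempty J with hJ | ⟨⟨j₀⟩⟩
  · exact ⟨X, hX, fun j => (hJ.false j).elim⟩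
  obtain ⟨hX0, x, hx⟩ := exists_gen R v hp hK hv0 j₀ hX h
  obtain ⟨M, iM, δM, DM⟩ := exists_cone ((p : ℤ) • 𝟙 (𝟙_ T.C))
  have hunit : FinSp (𝟙_ T.C) := finSp_iso (finSp_sphere 0) ((shiftFunctorZero T.C ℤ).app _)
  have hM : FinSp M ∧ KillsPow p M := ⟨finSp_cof DM hunit hunit, KillsPow.one DM⟩
  have hn1 := aa_nonneg hp.one_le (n + 1)
  have hn2 := aa_le_ww hp.two_le (n + 1)
  have hcond : ∀ j, KilV (wv hp.one_le (v j)) (n + 1) x ∧ Sur (R j).obj x (aa p (n + 1)) ∧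
      Ker (wv hp.one_le (v j)) (n + 1) x (aa p (n + 1) - 1) := by
    intro j
    refine ⟨?_, fun A hA y => (hx j).1 A hA.isSph y, ?_⟩
    · intro i hi
      rw [(hx j).2 _ (by exact ⟨_, ⟨sI T.C ((p ^ i : ℤ) - 1)⟩⟩)]
      have := inI_single (wv hp.one_le (v j)) (show i < n + 1 + 1 by omega)
        ((λ_ (Sv T.C p i)).inv ≫ η[(R j).obj] ▷ Sv T.C p i)
      rwa [unit_mul_cls] at this
    · exact Ker.low (K := (R j).obj) (hK j).conn (fun k => sI T.C ((p ^ k : ℤ) - 1))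
        (M := aa p (n + 1) - 1) (fun A hA a ha => ((hx j).2 A hA.isSph a).1 ha) le_rfl (by omega)
  obtain ⟨Y, y, f, ⟨hY1, j, hj⟩, -, -, -, hY⟩ := exists_tower
    (K := fun j => (R j).obj) (S := Sv T.C p) (v := fun j => wv hp.one_le (v j)) hp hK
    (unit_conn S.toSpaceFunctor) (sphAct p)
    (fun k => sI T.C ((p ^ k : ℤ) - 1)) (e0 T.C p) hv0 hreg j₀ clos_fin DM hM
    (fun j => cycK_one (sphAct p) (hreg j 1) (e0 T.C p) (hv0 j) DM) n X x (finPLocal_pLoc hX)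
    hX0 hcond
  exact ⟨Y, finPLocal_of_kills hp hY1 hj, fun j =>
    isSmithToda_of_cycK hp.one_le (v := v j) (fun _ => rfl) (hY j)⟩

end fam

end Vale.Agent.P257.H762
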