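import Vale.Agent.P257.H762.MHur
import Vale.Agent.P257.H702.Change
import Vale.Agent.P257.H702.GenK
import Vale.Agent.P251.M.EvenPer

/-!
# P257, monotonicity: the homology of a fibre
-/

open CategoryTheory MonoidalCategory Limits Pretriangulated MonObj
open Vale.Agent.P251.T Vale.Agent.P251.S Vale.Agent.P251.H Vale.Agent.P251.M
  Vale.Agent.P251.I Vale.Agent.P257.H702

universe v u

set_option linter.unusedSectionVars false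

namespace Vale.Agent.P257.H762

section tt

variable {T : Type u} [Category.{v} T] [Preadditive T] [HasZeroObject T] [HasShift T ℤ]
  [∀ n : ℤ, (shiftFunctor T n).Additive] [Pretriangulated T]
  [MonoidalCategory T] [SymmetricCategory T] [TensorTriangulated T]

/-- `A` is a sphere of dimension `≤ N`. -/
def DimLe (A : T) (N : ℤ) : Prop := ∃ j ≤ N, Nonempty (A ≅ (𝟙_ T)⟦j⟧)

lemma DimLe.isSph {A : T} {N : ℤ} (h : DimLe A N) : IsSph A := by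
  obtain ⟨j, -, h⟩ := h
  exact ⟨j, h⟩

lemma DimLe.mono {A : T} {M N : ℤ} (h : DimLe A M) (hMN : M ≤ N) : DimLe A N := by
  obtain ⟨j, hj, h⟩ := h
  exact ⟨j, hj.trans hMN, h⟩

lemma DimLe.sph (j : ℤ) : DimLe ((𝟙_ T)⟦j⟧) j := ⟨j, le_rfl, ⟨Iso.refl _⟩⟩

lemma DimLe.of_iso {A B : T} {N : ℤ} (h : DimLe A N) (e : A ≅ B) : DimLe B N := by
  obtain ⟨j, hj, ⟨i⟩⟩ := h
  exact ⟨j, hj, ⟨e.symm ≪≫ i⟩⟩

lemma DimLe.shift_one {A : T} {M N : ℤ} (h : DimLe A M) (hMN : M + 1 = N) :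
    DimLe (A⟦(1 : ℤ)⟧) N := by
  obtain ⟨j, hj, ⟨i⟩⟩ := h
  exact ⟨j + 1, by omega, ⟨(shiftFunctor T (1 : ℤ)).mapIso i ≪≫
    ((shiftFunctorAdd T j 1).app (𝟙_ T)).symm⟩⟩

lemma DimLe.tensor {A B : T} {M w N : ℤ} (h : DimLe A M) (e : B ≅ (𝟙_ T)⟦w⟧) (hN : M + w = N) :
    DimLe (A ⊗ B) N := by
  obtain ⟨j, hj, ⟨i⟩⟩ := h
  exact ⟨j + w, by omega, ⟨(i ⊗ᵢ e) ≪≫ tensorSph w ((𝟙_ T)⟦j⟧) ≪≫
    ((shiftFunctorAdd T j w).app (𝟙_ T)).symm⟩⟩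

variable {K : T} [MonObj K]

variable (K) in
/-- `K_* C` is generated by `x` in degrees `≤ N` -/
def Sur {C : T} (x : 𝟙_ T ⟶ C) (N : ℤ) : Prop :=
  ∀ A : T, DimLe A N → ∀ y : A ⟶ K ⊗ C, ∃ a : A ⟶ K, y = hcls x a

/-- the annihilator of `x` is in `(v_0, …, v_{k-1})` in degrees `≤ N` -/
def Ker {S : ℕ → T} (v : ∀ i, S i ⟶ K) (k : ℕ) {C : T} (x : 𝟙_ T ⟶ C) (N : ℤ) : Prop :=
  ∀ A : T, DimLe A N → ∀ a : A ⟶ K, hcls x a = 0 → InI v k a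

/-- `v_0, …, v_{k-1}` kill `x` -/
def KilV {S : ℕ → T} (v : ∀ i, S i ⟶ K) (k : ℕ) {C : T} (x : 𝟙_ T ⟶ C) : Prop :=
  ∀ i < k, hcls x (v i) = 0

/-- the action of `K` on `K ⊗ C` -/
abbrev actK (K C : T) [MonObj K] : K ⊗ (K ⊗ C) ⟶ K ⊗ C := (α_ K K C).inv ≫ μ[K] ▷ C

theorem lin_hcls {A C : T} (x : 𝟙_ T ⟶ C) (c : A ⟶ K) :
    K ◁ hcls x c ≫ actK K C = K ◁ c ≫ μ[K] ≫ (ρ_ K).inv ≫ K ◁ x := by
  unfold hcls actK
  simp only [MonoidalCategory.whiskerLeft_comp, Category.assoc]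
  rw [associator_inv_naturality_right_assoc, whisker_exchange,
    rightUnitor_inv_naturality_assoc]
  simp

theorem lin_hur {A C : T} (t : A ⟶ C) : K ◁ (t ≫ hur K C) ≫ actK K C = K ◁ t := by
  have h1 : K ◁ ((λ_ C).inv ≫ η[K] ▷ C) ≫ (α_ K K C).inv ≫ μ[K] ▷ C = 𝟙 (K ⊗ C) := by
    rw [MonoidalCategory.whiskerLeft_comp, Category.assoc, associator_inv_naturality_middle_assoc,
      ← comp_whiskerRight, MonObj.mul_one]
    simp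
  rw [MonoidalCategory.whiskerLeft_comp, Category.assoc]
  change K ◁ t ≫ K ◁ ((λ_ C).inv ≫ η[K] ▷ C) ≫ (α_ K K C).inv ≫ μ[K] ▷ C = _
  rw [h1, Category.comp_id]

theorem hcls_mul {A B C : T} (x : 𝟙_ T ⟶ C) (b : A ⟶ K ⊗ B) (c : B ⟶ K) :
    hcls x (b ≫ K ◁ c ≫ μ[K]) = b ≫ K ◁ hcls x c ≫ actK K C := by
  rw [lin_hcls]
  simp [hcls]

theorem hcls_smul {A C : T} (x : 𝟙_ T ⟶ C) (m : ℤ) (a : A ⟶ K) :
    hcls x (m • a) = m • hcls x a := by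
  simp [hcls]

theorem hcls_pr {A B C : T} (x : 𝟙_ T ⟶ C) (a : A ⟶ K) (c : B ⟶ K) :
    hcls x (pr a c) = a ▷ B ≫ K ◁ hcls x c ≫ actK K C := by
  rw [← hcls_mul]
  simp [pr, MonoidalCategory.tensorHom_def]

theorem hcls_map {A C D : T} (x : 𝟙_ T ⟶ C) (f : C ⟶ D) (a : A ⟶ K) :
    hcls x a ≫ K ◁ f = hcls (x ≫ f) a := by
  simp [hcls]

theorem KilV.zero {S : ℕ → T} {v : ∀ i, S i ⟶ K} {k : ℕ} {C : T} {x : 𝟙_ T ⟶ C}
    (h : KilV v k x) {A : T} {a : A ⟶ K} (ha : InI v k a) : hcls x a = 0 := by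
  obtain ⟨b, rfl⟩ := ha
  have h1 : hcls x (∑ i ∈ Finset.range k, b i ≫ K ◁ v i ≫ μ[K]) =
      ∑ i ∈ Finset.range k, hcls x (b i ≫ K ◁ v i ≫ μ[K]) := by
    simp [hcls, Preadditive.sum_comp]
  rw [h1]
  refine Finset.sum_eq_zero fun i hi => ?_
  rw [hcls_mul, h i (Finset.mem_range.1 hi), MonoidalPreadditive.whiskerLeft_zero, zero_comp,
    comp_zero]

theorem smul_whiskerLeft {A B : T} (n : ℤ) (f : A ⟶ B) : K ◁ (n • f) = n • (K ◁ f) :=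
  (tensorLeft K).map_zsmul

theorem hur_nat {A B : T} (f : A ⟶ B) : hur K A ≫ K ◁ f = f ≫ hur K B := by
  unfold hur
  rw [Category.assoc, ← whisker_exchange, leftUnitor_inv_naturality_assoc]

section fib

variable {F Y C : T} {d : F ⟶ Y} {f : Y ⟶ C} {g : C ⟶ F⟦(1 : ℤ)⟧}

/-- the homology of the fibre injects -/
theorem inj_fib (D : Dist d f g) {y : 𝟙_ T ⟶ Y} {x : 𝟙_ T ⟶ C} (hx : y ≫ f = x) {N : ℤ}
    (hs : Sur K x (N + 1)) {A : T} (hA : DimLe A N) (z : A ⟶ K ⊗ F) (hz : z ≫ K ◁ d = 0) :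
    z = 0 := by
  obtain ⟨h, D'⟩ : ∃ h, Dist (K ◁ d) (K ◁ f) h := ⟨_, (tensorLeft K).map_distinguished _ D⟩
  have h1 : z⟦(1 : ℤ)⟧' ≫ (K ◁ d)⟦(1 : ℤ)⟧' = 0 := by
    rw [← Functor.map_comp, hz, Functor.map_zero]
  obtain ⟨u, hu⟩ := D'.lift₁ _ h1
  obtain ⟨a, rfl⟩ := hs _ (hA.shift_one rfl) u
  apply (shiftFunctor T (1 : ℤ)).map_injective
  rw [← hu, ← hx, ← hcls_map, Category.assoc, D'.zero₂₃, comp_zero, Functor.map_zero]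

variable {S : ℕ → T} {v : ∀ i, S i ⟶ K} {k : ℕ}

/-- the image of the homology of the fibre -/
theorem img_fib (D : Dist d f g) {y : 𝟙_ T ⟶ Y} {x : 𝟙_ T ⟶ C} (hx : y ≫ f = x) {N : ℤ}
    (hy : CycK v k y) (hk : Ker v (k + 1) x N) {A : T} (hA : DimLe A N) (z : A ⟶ K ⊗ F) :
    ∃ b : A ⟶ K ⊗ S k, z ≫ K ◁ d = hcls y (b ≫ K ◁ v k ≫ μ[K]) := by
  obtain ⟨a, ha⟩ := hy.1 A hA.isSph (z ≫ K ◁ d)
  have h1 : hcls x a = 0 := by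
    rw [← hx, ← hcls_map, ← ha, Category.assoc, ← MonoidalCategory.whiskerLeft_comp, D.zero₁₂,
      MonoidalPreadditive.whiskerLeft_zero, comp_zero]
  obtain ⟨b, hb⟩ := (inI_succ v a).1 (hk A hA a h1)
  refine ⟨b, ?_⟩
  rw [ha, ← sub_eq_zero, ← hcls_sub, hy.2 A hA.isSph]
  exact hb

end fib

end tt

end Vale.Agent.P257.H762
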