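import Vale.Agent.P257.H762.MHK
import Vale.Agent.P257.H702.Final

/-!
# P257, monotonicity: finite `p`-local spectra, and the statement layer
-/

open CategoryTheory MonoidalCategory Limits Pretriangulated MonObj
open Vale.Agent.P251 Vale.Agent.P251.T Vale.Agent.P251.S Vale.Agent.P251.H Vale.Agent.P251.M
  Vale.Agent.P251.I Vale.Agent.P257.H702 Vale.Agent.P257.St

set_option linter.unusedSectionVars false

noncomputable section

namespace Vale.Agent.P257.H762

variable {T : P251.St.SHCat}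

theorem exists_conn_finSp {X : T.C} (F : SpaceFunctor T.C) (h : FinSp X) : ∃ b : ℤ, Conn b X := by
  induction h with
  | zero h0 => exact ⟨0, Conn.zero (isZero_of_ident h0)⟩
  | @cell X Y k f g h hd hX ih =>
    obtain ⟨b, hb⟩ := ih
    have h1 : Conn k (P251.St.sphere T k) := (unit_conn F).shift k k (by ring)
    refine ⟨min b k, Conn.ext₃ _ hd (hb.mono (min_le_left _ _)) (h1.mono ?_)⟩
    have := min_le_right b k
    omega

theorem finPLocal_pLoc {p : ℕ} {X : T.C} (h : FinPLocal p X) : PLoc p X := by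
  obtain ⟨F, Y, l, i, r, -, hl, hir⟩ := h
  exact PLoc.of_retract (show PLoc p Y from hl.1) i r hir

theorem finPLocal_conn {p : ℕ} (hp : p.Prime) (F : SpaceFunctor T.C) {X : T.C}
    (h : FinPLocal p X) : ∃ b : ℤ, Conn b X := by
  obtain ⟨W, Y, l, i, r, hW, hl, hir⟩ := h
  obtain ⟨b, hb⟩ := exists_conn_finSp F hW
  refine ⟨b, Conn.of_retract i r hir ?_⟩
  obtain ⟨U, -, -, -⟩ := H604.exists_locUnit (T := T.C) hp
  have hl' := H604.isPLoc_tel hp W U
  set l' := (ρ_ W).inv ≫ W ◁ U.ι 0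
  have hYl : H604.LocObj p Y := hl.1
  obtain ⟨g, hg, -⟩ := hl.2 _ hl'.loc l'
  obtain ⟨g', hg'⟩ := (hl'.bij_unit hYl).2 l
  have h1 : g ≫ g' = 𝟙 Y := by
    obtain ⟨t, -, ht⟩ := hl.2 Y hl.1 l
    have e1 : l ≫ g ≫ g' = l := by
      rw [← Category.assoc]
      exact (congrArg (· ≫ g') hg).trans hg'
    rw [ht (g ≫ g') e1, ht (𝟙 Y) (Category.comp_id l)]
  refine Conn.of_retract g g' h1 ?_
  intro k hk y
  obtain ⟨m, x, hm, hx⟩ := hl'.frac _ (H604.cptS k) y
  rw [hb k hk x, zero_comp] at hx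
  exact PLoc.inj (show PLoc p (W ⊗ U.obj) from hl'.loc) hm hx

/-! ### Smith-Toda complexes of the statement layer -/

section st

variable {S : P251.St.Susp T} {p n : ℕ}

/-- the classes `v_i`, on the standard spheres -/
abbrev wv {R : P251.St.RingSp T} (hp : 1 ≤ p)
    (v : ∀ i : ℕ, P251.St.SHCat.Hom (S.obj (P251.St.Cn (p ^ i - 1))) R.obj) (i : ℕ) :
    Sv T.C p i ⟶ R.obj := (spI S hp i).inv ≫ v i

theorem inI_of_inIdeal {R : P251.St.RingSp T} (hp : 1 ≤ p)
    {v : ∀ i : ℕ, P251.St.SHCat.Hom (S.obj (P251.St.Cn (p ^ i - 1))) R.obj} {k : ℤ}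
    {a : P251.St.SHCat.Hom (P251.St.sphere T k) R.obj} :
    InIdeal p n v a ↔ InI (wv hp v) (n + 1) a := by
  constructor
  · rintro ⟨b, hb⟩
    refine ⟨fun j => b j ≫ R.obj ◁ (spI S hp j).hom, hb.trans (Finset.sum_congr rfl ?_)⟩
    intro j _
    change b j ≫ (𝟙 R.obj ⊗ₘ v j) ≫ μ[R.obj] = _
    rw [wv, id_tensorHom, MonoidalCategory.whiskerLeft_comp]
    simp only [Category.assoc]
    rw [← MonoidalCategory.whiskerLeft_comp_assoc, Iso.hom_inv_id]
    simp
  · rintro ⟨b, hb⟩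
    refine ⟨fun j => b j ≫ R.obj ◁ (spI S hp j).inv, hb.trans (Finset.sum_congr rfl ?_)⟩
    intro j _
    change _ = (b j ≫ R.obj ◁ (spI S hp j).inv) ≫ (𝟙 R.obj ⊗ₘ v j) ≫ μ[R.obj]
    rw [id_tensorHom, MonoidalCategory.whiskerLeft_comp]
    simp only [Category.assoc]

/-- the linear extension of a Hurewicz class -/
theorem comp_lin_hur {R : P251.St.RingSp T} {X : T.C} (x : 𝟙_ T.C ⟶ X) {A : T.C}
    (a : A ⟶ R.obj) : a ≫ lin (x ≫ hur R.obj X) = hcls x a :=
  comp_lin_unitCls x a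

end st

end Vale.Agent.P257.H762
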