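import Vale.Agent.P257.H762.MMain
import Vale.Agent.P257.H604.Loc
import Vale.Agent.P251.M.PiR
import Vale.Agent.P251.I.M

/-!
# P257, monotonicity: the low homotopy of the Brown-Peterson monoids
-/

open CategoryTheory MonoidalCategory Limits Pretriangulated MonObj
open Vale.Agent.P251 Vale.Agent.P251.T Vale.Agent.P251.S Vale.Agent.P251.H Vale.Agent.P251.M
  Vale.Agent.P251.I Vale.Agent.P257.H702

universe v u w

set_option linter.unusedSectionVars false

namespace Vale.Agent.P257.H762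

variable {T : Type u} [Category.{v} T] [Preadditive T] [HasZeroObject T]
    [HasShift T ℤ] [∀ n : ℤ, (shiftFunctor T n).Additive] [Pretriangulated T] [IsTriangulated T]
    [MonoidalCategory T] [SymmetricCategory T] [TensorTriangulated T] [MonoidalClosed T]
    [HasCoproducts.{0} T] [HasProducts.{0} T] [StableCat T] {p : ℕ}

/-- A retract of the `p`-localization of a ring `R` whose unit has a `1`-connected cofibre. -/
theorem HK.of_retract (hp : p.Prime) (F : SpaceFunctor T) {R : T} [MonObj R]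
    (hR : ∀ {J : T} {a : R ⟶ J} {b : J ⟶ (𝟙_ T)⟦(1 : ℤ)⟧}, Dist η[R] a b → Conn 2 J)
    {Rp : T} [MonObj Rp] {l : R ⟶ Rp} [IsMonHom l] (hl : H604.IsPLoc p l)
    {B : T} [MonObj B] (s : B ⟶ Rp) (r : Rp ⟶ B) [IsMonHom s] [IsMonHom r]
    (hsr : s ≫ r = 𝟙 B) : HK p B := by
  obtain ⟨J₀, a₀, b₀, D₀⟩ := exists_cone (η[R])
  have hJ₀ := hR D₀
  have hpp := Nat.prime_iff_prime_int.mp hp
  have h1 : ¬ (p : ℤ) ∣ 1 := fun h => hpp.not_isUnit (isUnit_of_dvd_one h)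
  have hloc : PLoc p B := H604.LocObj.retract hl.loc s r hsr
  have hs : ∀ {A : T} {f g : A ⟶ B}, f ≫ s = g ≫ s → f = g := by
    intro A f g h
    rw [← Category.comp_id f, ← Category.comp_id g, ← hsr, ← Category.assoc, h, Category.assoc]
  have hlB : PLoc p Rp := hl.loc
  -- from a class of `B` to a class of `R`
  have key : ∀ (k : ℤ) (y : (𝟙_ T)⟦k⟧ ⟶ B), ∃ (m : ℤ) (x : (𝟙_ T)⟦k⟧ ⟶ R), ¬ (p : ℤ) ∣ m ∧
      m • (y ≫ s) = x ≫ l := fun k y => hl.frac _ (H604.cptS k) (y ≫ s)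
  have hηs : η[B] ≫ s = η[R] ≫ l := by rw [IsMonHom.one_hom, IsMonHom.one_hom]
  have hconn : Conn 0 B := by
    intro k hk y
    obtain ⟨m, x, hm, hx⟩ := key k y
    rw [conn_ring F D₀ hJ₀ k hk x, zero_comp] at hx
    apply hs
    rw [zero_comp]
    exact hlB.inj hm hx
  have hzero : ∀ f : 𝟙_ T ⟶ B, ∃ m : ℤ, ¬ (p : ℤ) ∣ m ∧ ∃ a : ℤ, m • f = a • η[B] := by
    intro f
    let ε : (𝟙_ T)⟦(0 : ℤ)⟧ ≅ 𝟙_ T := (shiftFunctorZero T ℤ).app (𝟙_ T)
    obtain ⟨m, x, hm, hx⟩ := key 0 (ε.hom ≫ f)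
    obtain ⟨a, ha⟩ := exists_int_ring F D₀ hJ₀ (ε.inv ≫ x)
    refine ⟨m, hm, a, ?_⟩
    apply hs
    rw [← cancel_epi ε.hom, Preadditive.zsmul_comp, Preadditive.comp_zsmul, ← Category.assoc, hx,
      Preadditive.zsmul_comp, hηs, ← Preadditive.zsmul_comp, ← ha, Category.assoc,
      Iso.hom_inv_id_assoc]
  refine ⟨hloc, hconn, hzero, ?_⟩
  intro J b w D k hk a
  by_cases hk1 : k = 1
  · subst hk1
    obtain ⟨f, hf⟩ := (shiftFunctor T (1 : ℤ)).map_surjective (a ≫ w)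
    have h2 : f ≫ η[B] = 0 := by
      apply (shiftFunctor T (1 : ℤ)).map_injective
      rw [Functor.map_comp, hf, Category.assoc, D.zero₃₁, comp_zero, Functor.map_zero]
    obtain ⟨m, rfl⟩ := exists_int_unit F f
    rw [Preadditive.zsmul_comp, Category.id_comp] at h2
    have hm : m = 0 := by
      have h3 : (m • η[R]) ≫ l = 0 := by
        rw [Preadditive.zsmul_comp, ← hηs, ← Preadditive.zsmul_comp, h2, zero_comp]
      let ε : (𝟙_ T)⟦(0 : ℤ)⟧ ≅ 𝟙_ T := (shiftFunctorZero T ℤ).app (𝟙_ T)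
      obtain ⟨c, hc, h4⟩ := hl.tor _ (H604.cptS 0) (ε.hom ≫ (m • η[R]))
        (by rw [Category.assoc, h3, comp_zero])
      have h5 : (c * m) • η[R] = 0 := by
        rw [mul_smul, ← cancel_epi ε.hom, Preadditive.comp_zsmul, h4, comp_zero]
      have h6 := eq_zero_of_zsmul_unit F D₀ hJ₀ _ h5
      rcases mul_eq_zero.1 h6 with h7 | h7
      · exact absurd (h7 ▸ dvd_zero _) hc
      · exact h7
    rw [hm, zero_smul, Functor.map_zero] at hf
    obtain ⟨y, rfl⟩ := D.lift₃ a hf.symm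
    obtain ⟨c, x, hc, hx⟩ := key 1 y
    obtain ⟨g, rfl⟩ := exists_lift_unit D₀ hJ₀ 1 (by norm_num) x
    refine ⟨c, hc, ?_⟩
    have h3 : c • y = g ≫ η[B] := by
      apply hs
      rw [Preadditive.zsmul_comp, hx, Category.assoc, Category.assoc, hηs]
    rw [← Preadditive.zsmul_comp, h3, Category.assoc, D.zero₁₂, comp_zero]
  · have h2 : a ≫ w = 0 := ((unit_conn F).shift 1 1 (by norm_num)) k (by omega) _
    obtain ⟨y, rfl⟩ := D.lift₃ a h2
    by_cases hk0 : k = 0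
    · subst hk0
      let ε : (𝟙_ T)⟦(0 : ℤ)⟧ ≅ 𝟙_ T := (shiftFunctorZero T ℤ).app (𝟙_ T)
      obtain ⟨m, hm, c, hc⟩ := hzero (ε.inv ≫ y)
      refine ⟨m, hm, ?_⟩
      have h3 : m • y = c • (ε.hom ≫ η[B]) := by
        rw [← cancel_epi ε.inv, Preadditive.comp_zsmul, hc, Preadditive.comp_zsmul,
          Iso.inv_hom_id_assoc]
      rw [← Preadditive.zsmul_comp, h3, Preadditive.zsmul_comp, Category.assoc, D.zero₁₂,
        comp_zero, smul_zero]
    · exact ⟨1, h1, by rw [hconn k (by omega) y, zero_comp, smul_zero]⟩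

/-- the cofibre of the unit of `MU` -/
theorem conn_cof_MU (F : SpaceFunctor T) (D : I.MUData T) {J : T} {a : D.R ⟶ J}
    {b : J ⟶ (𝟙_ T)⟦(1 : ℤ)⟧} (h : Dist η[D.R] a b) : Conn 2 J :=
  BigCell.conn' (unit_conn F) (D.conn J a b h)

end Vale.Agent.P257.H762
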