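import Vale.Agent.P257.H762.MFam
import Vale.Agent.P257.H762.MBP
import Vale.Agent.P257.H702.HasV

/-!
# P257, monotonicity: the final form

`hasV_mono` : if `V(n+1)` exists at the odd prime `p`, then `V(n)` exists at `p`.
-/

open CategoryTheory MonoidalCategory Limits Pretriangulated MonObj
open Vale.Agent.P251 Vale.Agent.P251.T Vale.Agent.P251.S Vale.Agent.P251.H Vale.Agent.P251.M
  Vale.Agent.P251.I Vale.Agent.P257.H702 Vale.Agent.P257.St Vale.Agent.P257.H80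

set_option linter.unusedSectionVars false

noncomputable section

namespace Vale.Agent.P257.H762

variable {T : P251.St.SHCat} {S : P251.St.Susp T} {p n : ℕ}

/-- `IsSmithToda` depends only on the ideal -/
theorem isSmithToda_congr {R : P251.St.RingSp T}
    {v v' : ∀ i : ℕ, P251.St.SHCat.Hom (S.obj (P251.St.Cn (p ^ i - 1))) R.obj}
    (h : ∀ (k : ℤ) (a : P251.St.SHCat.Hom (P251.St.sphere T k) R.obj),
      InIdeal p n v a ↔ InIdeal p n v' a) {X : T.C} (H : IsSmithToda p n v X) :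
    IsSmithToda p n v' X := by
  obtain ⟨g, h1, h2, h3⟩ := H
  exact ⟨g, h1, h2, fun k a => (h3 k a).trans (h k a)⟩

/-- the ideals of the Hazewinkel generators -/
theorem inI_haz {R : P251.St.RingSp T} [Fact p.Prime] (hp : 1 ≤ p) {D : MUData T.C}
    {u : D.R ⟶ R.obj} [IsMonHom u]
    {φ : ∀ n : ℕ, VPoly p n →+ P251.St.SHCat.Hom (S.obj (P251.St.Cn n)) R.obj}
    {Φ : MvPolynomial ℕ ℤ →+* HRing (stdEven T.C) R.obj}
    (hlaw : lawOf u = (haz p).map Φ)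
    (hΦ : ∀ (n : ℕ) (x : VPoly p n), Φ (x : MvPolynomial ℕ ℤ) =
      HRing.of (stdEven T.C) R.obj n ((isoE S n).inv ≫ φ n x)) {A : T.C} (a : A ⟶ R.obj) :
    InI (vK D p u) (n + 1) a ↔ InI (wv hp (hazV φ)) (n + 1) a := by
  have hI : Ideal.span (Set.range fun j : Fin (n + 1) =>
      HRing.of (stdEven T.C) R.obj ((p ^ (j : ℕ) : ℤ) - 1) (vK D p u j)) =
      Ideal.span (Set.range fun j : Fin (n + 1) => HRing.of (stdEven T.C) R.obj
        ((p ^ (j : ℕ) : ℤ) - 1) (wv hp (hazV φ) j)) := by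
    simp only [← vv_lawOf, wv, H604.of_hazV hp hΦ]
    rw [H604.span_vv, hlaw, Ih_haz, H604.span_haz]
  constructor
  · refine InI.trans fun j hj => ?_
    rw [inI_iff_mem_span (w := fun i => (p ^ i : ℤ) - 1) (v := wv hp (hazV φ)), ← hI]
    exact Ideal.subset_span ⟨⟨j, hj⟩, rfl⟩
  · refine InI.trans fun j hj => ?_
    rw [inI_iff_mem_span (w := fun i => (p ^ i : ℤ) - 1), hI]
    exact Ideal.subset_span ⟨⟨j, hj⟩, rfl⟩

/-- **Monotonicity**: if `V(n+1)` exists at the odd prime `p`, then `V(n)` exists at `p`. -/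
theorem hasV_mono (hp : p.Prime) (h2 : p ≠ 2) (h : HasV S p (n + 1)) : HasV S p n := by
  obtain ⟨hex, X, hX, hB⟩ := h
  refine ⟨hex, ?_⟩
  have : Fact p.Prime := ⟨hp⟩
  obtain ⟨D, hD, ⟨U⟩, -⟩ := exists_muAll S.toSpaceFunctor (lineIso S.toSpaceFunctor)
  obtain ⟨C, iC, δ, hC⟩ := distinguished_cocone_triangle ((p : ℤ) • 𝟙 (𝟙_ T.C))
  let J := { x : Σ (B : P251.St.RingSp T) (_ : P251.St.Oriented S B),
    ∀ n : ℕ, VPoly p n →+ P251.St.SHCat.Hom (S.obj (P251.St.Cn n)) B.obj //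
      IsBrownPeterson p x.2.1 x.2.2 }
  have hu : ∀ j : J, ∃ (u : D.R ⟶ j.1.1.obj) (_ : IsMonHom u)
      (Φ : MvPolynomial ℕ ℤ →+* HRing (stdEven T.C) j.1.1.obj), IsBPMon p u ∧
      lawOf u = (haz p).map Φ ∧ ∀ (n : ℕ) (x : VPoly p n), Φ (x : MvPolynomial ℕ ℤ) =
        HRing.of (stdEven T.C) j.1.1.obj n ((isoE S n).inv ≫ j.1.2.2 n x) := by
    intro j
    obtain ⟨u, hu, ho⟩ := U.exists_mapS j.1.2.1
    obtain ⟨Φ, hΦ, hlaw⟩ := exists_hom j.2.typ
    exact ⟨u, hu, Φ, isBPMon_of_isBrownPeterson ptypOut hD U ptypIn j.2 ho,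
      by rw [← hlaw, U.lawS_eq ho]; rfl, hΦ⟩
  choose u iu Φ hb hlaw hΦ using hu
  have hw : ∀ j, (wv hp.one_le fun i => (spI S hp.one_le i).hom ≫ vK D p (u j) i) =
      vK D p (u j) := fun j => funext fun i => Iso.inv_hom_id_assoc _ _
  have hI : ∀ j (n : ℕ) (k : ℤ) (a : P251.St.SHCat.Hom (P251.St.sphere T k) j.1.1.obj),
      InIdeal p n (fun i => (spI S hp.one_le i).hom ≫ vK D p (u j) i) a ↔
        InIdeal p n (hazV j.1.2.2) a := by
    intro j n k a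
    rw [inI_of_inIdeal hp.one_le, inI_of_inIdeal hp.one_le, hw]
    exact inI_haz hp.one_le (hlaw j) (hΦ j) a
  obtain ⟨Y, hY, h1⟩ := mono_family (S := S) (n := n) (fun j : J => j.1.1)
    (fun j i => (spI S hp.one_le i).hom ≫ vK D p (u j) i) hp (fun j => hk_of_isBPMon hD (hb j))
    (fun j => by rw [hw]; exact vK_zero (u j))
    (fun j k => by rw [hw]; exact (hb j).reg hD h2 hC k) hX
    (fun j => isSmithToda_congr (fun k a => (hI j _ k a).symm) (hB j.1.1 j.1.2.1 j.1.2.2 j.2))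
  exact ⟨Y, hY, fun B o φ hφ => isSmithToda_congr (hI ⟨⟨B, o, φ⟩, hφ⟩ n) (h1 ⟨⟨B, o, φ⟩, hφ⟩)⟩

end Vale.Agent.P257.H762
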