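import Vale.Agent.P257.H762.MLoc
import Vale.Agent.P251.S.TensorShift

/-!
# P257, monotonicity: the Hurewicz theorem for `p`-local objects
-/

open CategoryTheory MonoidalCategory Limits Pretriangulated MonObj
open Vale.Agent.P251.T Vale.Agent.P251.S Vale.Agent.P251.H Vale.Agent.P251.M
  Vale.Agent.P251.I

universe v u

set_option linter.unusedSectionVars false

namespace Vale.Agent.P257.H762

variable {T : Type u} [Category.{v} T] [Preadditive T] [HasZeroObject T]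
    [HasShift T ℤ] [∀ n : ℤ, (shiftFunctor T n).Additive] [Pretriangulated T] [IsTriangulated T]
    [MonoidalCategory T] [SymmetricCategory T] [TensorTriangulated T] [MonoidalClosed T]
    [HasCoproducts.{0} T] [HasProducts.{0} T] [StableCat T] {p : ℕ}

lemma locSeq_whiskerRight (H C : T) :
    (fun n => locSeq p H n ▷ C) = locSeq p (H ⊗ C) := by
  funext n
  change (rr p n • 𝟙 H) ▷ C = rr p n • 𝟙 (H ⊗ C)
  rw [← id_whiskerRight]
  exact (tensorRight C).map_zsmul ..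

/-- tensoring the telescope -/
noncomputable def telR {H : T} (U : Tel (X := fun _ => H) (locSeq p H)) (C : T) :
    Tel (X := fun _ => H ⊗ C) (locSeq p (H ⊗ C)) :=
  ⟨U.obj ⊗ C, fun n => U.ι n ▷ C, (U.tensR C).δ, by
    rw [← locSeq_whiskerRight]
    exact (U.tensR C).dist⟩

/-- The low homotopy of a `p`-local connective ring spectrum `K` with `π_0 K = ℤ_(p)`: the
homotopy of the cofibre of `S_(p) ⟶ K` vanishes in degrees `< 2`. -/
structure HK (p : ℕ) (K : T) [MonObj K] : Prop where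
  loc : PLoc p K
  conn : Conn (0 : ℤ) K
  zero : ∀ f : 𝟙_ T ⟶ K, ∃ m : ℤ, ¬ (p : ℤ) ∣ m ∧ ∃ a : ℤ, m • f = a • η[K]
  low : ∀ {J : T} {b : K ⟶ J} {w : J ⟶ (𝟙_ T)⟦(1 : ℤ)⟧}, Dist η[K] b w →
    ∀ k : ℤ, k < 2 → ∀ a : (𝟙_ T)⟦k⟧ ⟶ J, ∃ m : ℤ, ¬ (p : ℤ) ∣ m ∧ m • a = 0

/-- `HK` from the integral homotopy. -/
theorem HK.of_pi {K : T} [MonObj K] (hp : p.Prime) (h0 : Conn (0 : ℤ) (𝟙_ T))
    (hu : ∀ f : 𝟙_ T ⟶ 𝟙_ T, ∃ m : ℤ, f = m • 𝟙 (𝟙_ T))
    (loc : PLoc p K) (conn : Conn (0 : ℤ) K) (one : ∀ f : (𝟙_ T)⟦(1 : ℤ)⟧ ⟶ K, f = 0)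
    (zero : ∀ f : 𝟙_ T ⟶ K, ∃ m : ℤ, ¬ (p : ℤ) ∣ m ∧ ∃ a : ℤ, m • f = a • η[K])
    (inj : ∀ a : ℤ, a • η[K] = 0 → a = 0) : HK p K where
  loc := loc
  conn := conn
  zero := zero
  low {J b w} D k hk a := by
    have h1 : ¬ (p : ℤ) ∣ 1 := fun h => (Nat.prime_iff_prime_int.mp hp).not_isUnit
      (isUnit_of_dvd_one h)
    by_cases hk1 : k = 1
    · subst hk1
      obtain ⟨f, hf⟩ := (shiftFunctor T (1 : ℤ)).map_surjective (a ≫ w)
      have h2 : f ≫ η[K] = 0 := by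
        apply (shiftFunctor T (1 : ℤ)).map_injective
        rw [Functor.map_comp, hf, Category.assoc, D.zero₃₁, comp_zero, Functor.map_zero]
      obtain ⟨m, rfl⟩ := hu f
      rw [Preadditive.zsmul_comp, Category.id_comp] at h2
      have hm := inj m h2
      rw [hm, zero_smul, Functor.map_zero] at hf
      obtain ⟨y, rfl⟩ := D.lift₃ a hf.symm
      exact ⟨1, h1, by rw [one y, zero_comp, smul_zero]⟩
    · have h2 : a ≫ w = 0 := (h0.shift 1 1 (by norm_num)) k (by omega) _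
      obtain ⟨y, rfl⟩ := D.lift₃ a h2
      by_cases hk0 : k = 0
      · subst hk0
        let ε : (𝟙_ T)⟦(0 : ℤ)⟧ ≅ 𝟙_ T := (shiftFunctorZero T ℤ).app (𝟙_ T)
        obtain ⟨m, hm, c, hc⟩ := zero (ε.inv ≫ y)
        refine ⟨m, hm, ?_⟩
        have h3 : m • y = c • (ε.hom ≫ η[K]) := by
          rw [← cancel_epi ε.inv, Preadditive.comp_zsmul, hc, Preadditive.comp_zsmul,
            Iso.inv_hom_id_assoc]
        rw [← Preadditive.zsmul_comp, h3, Preadditive.zsmul_comp, Category.assoc, D.zero₁₂,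
          comp_zero, smul_zero]
      · exact ⟨1, h1, by rw [conn k (by omega) y, zero_comp, smul_zero]⟩

section

variable {K : T} [MonObj K] {J : T} {b : K ⟶ J} {w : J ⟶ (𝟙_ T)⟦(1 : ℤ)⟧}

/-- `J ⊗ C` is `(n+2)`-connective, for `J` the cofibre of the unit of `K`. -/
theorem conn_tensor_cof [LocallySmall.{0} T] (hp : p.Prime) (hK : HK p K)
    (h0 : Conn (0 : ℤ) (𝟙_ T))
    (D : Dist η[K] b w) {C : T} (hC : PLoc p C) {n : ℤ} (hn : Conn n C) :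
    Conn (n + 2) (J ⊗ C) := by
  let U : Tel (X := fun _ => 𝟙_ T) (locSeq p (𝟙_ T)) := tel _
  have hLJ : Conn 2 (U.obj ⊗ J) := by
    have hloc : PLoc p (U.obj ⊗ J) := pLoc_tel (telR U J) hp
    intro k hk x
    obtain ⟨m, a, ha⟩ := (telR U J).exists_factor (Vale.Agent.P251.X.cpt_sphere k) x
    obtain ⟨c, hc, h1⟩ := hK.low D k hk (a ≫ (λ_ J).hom)
    have h2 : c • a = 0 := by
      rw [← cancel_mono (λ_ J).hom, Preadditive.zsmul_comp, h1, zero_comp]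
    have h5 : c • (a ≫ (telR U J).ι m) = 0 := by
      rw [← Preadditive.zsmul_comp, h2, zero_comp]
    refine hloc.inj hc ?_
    rw [← ha]
    exact h5
  have hiso : IsIso (U.ι 0 ▷ C) := isIso_tel_zero (telR U C) hp (hC.tensorLeft _)
  have h2 := bigCell_of_conn h0 hLJ
  have h3 := bigCell_of_conn h0 hn
  have h4 : BigCell T (n + 2) ((U.obj ⊗ J) ⊗ C) := h2.tensor h3 (n + 2) (by ring)
  have e : (U.obj ⊗ J) ⊗ C ≅ J ⊗ C :=
    (β_ U.obj J ▷ᵢ C) ≪≫ α_ J U.obj C ≪≫ (J ◁ᵢ ((asIso (U.ι 0 ▷ C)).symm ≪≫ λ_ C))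
  exact BigCell.conn' h0 (h4.of_iso e)

variable (K) in
/-- the Hurewicz map -/
abbrev hur (C : T) : C ⟶ K ⊗ C := (λ_ C).inv ≫ η[K] ▷ C

theorem dist_hur (D : Dist η[K] b w) (C : T) :
    ∃ w' : J ⊗ C ⟶ C⟦(1 : ℤ)⟧, Dist (hur K C) (b ▷ C) w' := by
  obtain ⟨w', D'⟩ : ∃ w', Dist (η[K] ▷ C) (b ▷ C) w' :=
    ⟨_, (tensorRight C).map_distinguished _ D⟩
  refine ⟨w' ≫ (λ_ C).hom⟦(1 : ℤ)⟧', ?_⟩
  refine isomorphic_distinguished _ D' _ (Triangle.isoMk _ _ (λ_ C).symm (Iso.refl _)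
    (Iso.refl _) ?_ ?_ ?_)
  · change hur K C ≫ 𝟙 _ = (λ_ C).inv ≫ η[K] ▷ C
    simp
  · change b ▷ C ≫ 𝟙 _ = 𝟙 _ ≫ b ▷ C
    simp
  · change (w' ≫ (λ_ C).hom⟦(1 : ℤ)⟧') ≫ (λ_ C).inv⟦(1 : ℤ)⟧' = 𝟙 _ ≫ w'
    rw [Category.assoc, ← Functor.map_comp, Iso.hom_inv_id, CategoryTheory.Functor.map_id,
      Category.comp_id, Category.id_comp]

/-- **Hurewicz**, injectivity: on `π_k C`, `k ≤ n`, for `(n-1)`-connected `p`-local `C`. -/
theorem hur_inj [LocallySmall.{0} T] (hp : p.Prime) (hK : HK p K)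
    (h0 : Conn (0 : ℤ) (𝟙_ T))
    {C : T} (hC : PLoc p C) {n : ℤ} (hn : Conn n C) {k : ℤ} (hk : k ≤ n)
    (f : (𝟙_ T)⟦k⟧ ⟶ C) (hf : f ≫ hur K C = 0) : f = 0 := by
  obtain ⟨J, b, w, D⟩ := exists_cone η[K]
  obtain ⟨w', D'⟩ := dist_hur D C
  have h1 := conn_tensor_cof hp hK h0 D hC hn
  obtain ⟨w'', b', D''⟩ := Dist.invRot' D'
  obtain ⟨g, rfl⟩ := D''.lift₂ f hf
  have h2 : Conn (n + 1) ((J ⊗ C)⟦(-1 : ℤ)⟧) := h1.shift (-1) (n + 1) (by ring)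
  rw [h2 k (by omega) g, zero_comp]

/-- **Hurewicz**, surjectivity. -/
theorem hur_surj [LocallySmall.{0} T] (hp : p.Prime) (hK : HK p K)
    (h0 : Conn (0 : ℤ) (𝟙_ T))
    {C : T} (hC : PLoc p C) {n : ℤ} (hn : Conn n C) {k : ℤ} (hk : k ≤ n)
    (y : (𝟙_ T)⟦k⟧ ⟶ K ⊗ C) : ∃ f : (𝟙_ T)⟦k⟧ ⟶ C, f ≫ hur K C = y := by
  obtain ⟨J, b, w, D⟩ := exists_cone η[K]
  obtain ⟨w', D'⟩ := dist_hur D C
  have h1 := conn_tensor_cof hp hK h0 D hC hn
  exact D'.lift₂ y (h1 k (by omega) _)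

/-- If `K_j C = 0` for `j < n` then `π_j C = 0` for `j < n`, for bounded below `p`-local `C`. -/
theorem conn_of_hur [LocallySmall.{0} T] (hp : p.Prime) (hK : HK p K)
    (h0 : Conn (0 : ℤ) (𝟙_ T))
    {C : T} (hC : PLoc p C) {m n : ℤ} (hm : Conn m C) (hn : Conn n (K ⊗ C)) : Conn n C := by
  rcases le_total n m with h | h
  · exact hm.mono h
  · obtain ⟨d, rfl⟩ := Int.le.dest h
    have key : ∀ d : ℕ, Conn (m + d) (K ⊗ C) → Conn (m + d) C := by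
      intro d
      induction d with
      | zero => intro _; simpa using hm
      | succ d ih =>
        intro hd k hk f
        have h1 := ih (hd.mono (by push_cast; omega))
        push_cast at hk
        exact hur_inj hp hK h0 hC h1 (by omega) f (hd k (by push_cast; omega) _)
    exact key d hn

end

end Vale.Agent.P257.H762
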