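import Vale.Agent.P257.H762.MStep

/-!
# P257, monotonicity: the induction
-/

open CategoryTheory MonoidalCategory Limits Pretriangulated MonObj
open Vale.Agent.P251.T Vale.Agent.P251.S Vale.Agent.P251.H Vale.Agent.P251.M
  Vale.Agent.P251.I Vale.Agent.P257.H702

universe v u w

set_option linter.unusedSectionVars false

namespace Vale.Agent.P257.H762

/-! ### Degrees -/

/-- `|v_k|` -/
def ww (p k : ℕ) : ℤ := 2 * ((p ^ k : ℤ) - 1)

/-- the dimension of `V(k-1)` -/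
def aa (p : ℕ) : ℕ → ℤ
  | 0 => 0
  | k + 1 => aa p k + ww p k + 1

lemma ww_nonneg {p : ℕ} (hp : 1 ≤ p) (k : ℕ) : 0 ≤ ww p k := by
  have : (1 : ℤ) ≤ (p : ℤ) ^ k := one_le_pow₀ (by exact_mod_cast hp)
  unfold ww
  linarith

lemma aa_nonneg {p : ℕ} (hp : 1 ≤ p) (k : ℕ) : 0 ≤ aa p k := by
  induction k with
  | zero => exact le_rfl
  | succ k ih => have := ww_nonneg hp k; simp only [aa]; linarith

lemma aa_le_ww {p : ℕ} (hp : 2 ≤ p) (k : ℕ) : aa p k ≤ ww p k := by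
  induction k with
  | zero => simp [aa, ww]
  | succ k ih =>
    have h1 : (1 : ℤ) ≤ (p : ℤ) ^ k := one_le_pow₀ (by exact_mod_cast (by omega : 1 ≤ p))
    have h2 : (2 : ℤ) ≤ (p : ℤ) := by exact_mod_cast hp
    have h3 : 2 * (p : ℤ) ^ k ≤ (p : ℤ) ^ (k + 1) := by
      rw [pow_succ]
      nlinarith
    simp only [aa, ww] at ih ⊢
    linarith

lemma ww_lt_aa {p : ℕ} (hp : 1 ≤ p) {i k : ℕ} (h : i < k) : ww p i < aa p k := by
  induction k with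
  | zero => omega
  | succ k ih =>
    have h1 := aa_nonneg hp k
    have h2 := ww_nonneg hp k
    rcases Nat.lt_succ_iff_lt_or_eq.1 h with h | rfl
    · have := ih h
      simp only [aa]
      linarith
    · simp only [aa]
      linarith

variable {T : Type u} [Category.{v} T] [Preadditive T] [HasZeroObject T]
    [HasShift T ℤ] [∀ n : ℤ, (shiftFunctor T n).Additive] [Pretriangulated T] [IsTriangulated T]
    [MonoidalCategory T] [SymmetricCategory T] [TensorTriangulated T] [MonoidalClosed T]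
    [HasCoproducts.{0} T] [HasProducts.{0} T] [StableCat T] {p : ℕ}

section hurs

variable [LocallySmall.{0} T] {K : T} [MonObj K] (hp : p.Prime) (hK : HK p K)
  (h0 : Conn (0 : ℤ) (𝟙_ T)) {C : T} (hC : PLoc p C) {n : ℤ} (hn : Conn n C) {A : T}
  (hA : DimLe A n)
include hp hK h0 hC hn hA

theorem hur_inj' (f : A ⟶ C) (hf : f ≫ hur K C = 0) : f = 0 := by
  obtain ⟨j, hj, ⟨e⟩⟩ := hA
  have h1 := hur_inj hp hK h0 hC hn hj (e.inv ≫ f) (by rw [Category.assoc, hf, comp_zero])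
  rw [← cancel_epi e.inv, h1, comp_zero]

theorem hur_surj' (y : A ⟶ K ⊗ C) : ∃ f : A ⟶ C, f ≫ hur K C = y := by
  obtain ⟨j, hj, ⟨e⟩⟩ := hA
  obtain ⟨f, hf⟩ := hur_surj hp hK h0 hC hn hj (e.inv ≫ y)
  exact ⟨e.hom ≫ f, by rw [Category.assoc, hf, Iso.hom_inv_id_assoc]⟩

end hurs

/-- `S₀ ⊗ C⟦-w⟧ ≅ C` for `S₀ = 𝟙⟦w⟧` -/
noncomputable def desusIso {S₀ : T} {w : ℤ} (s : S₀ ≅ (𝟙_ T)⟦w⟧) (C : T) :
    S₀ ⊗ (C⟦-w⟧) ≅ C :=
  (s ▷ᵢ _) ≪≫ β_ _ _ ≪≫ tensorSph w (C⟦-w⟧) ≪≫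
    (shiftFunctorCompIsoId T (-w) w (by ring)).app C

theorem inI_single {K : T} [MonObj K] {S : ℕ → T} (v : ∀ n, S n ⟶ K) {k j : ℕ} (hj : j < k)
    {A : T} (b : A ⟶ K ⊗ S j) : InI v k (b ≫ K ◁ v j ≫ μ[K]) := by
  classical
  refine ⟨fun n => if h : n = j then b ≫ K ◁ eqToHom (by rw [h]) else 0, ?_⟩
  rw [Finset.sum_eq_single_of_mem j (Finset.mem_range.2 hj)]
  · simp
  · intro n _ hn
    dsimp only
    rw [dif_neg hn, zero_comp]

theorem unit_mul_cls {K : T} [MonObj K] {A : T} (c : A ⟶ K) :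
    ((λ_ A).inv ≫ η[K] ▷ A) ≫ K ◁ c ≫ μ[K] = c := by
  rw [Category.assoc, ← whisker_exchange_assoc, MonObj.one_mul, leftUnitor_naturality,
    Iso.inv_hom_id_assoc]

variable [LocallySmall.{0} T] {J : Type w} {K : J → T} [∀ i, MonObj (K i)]
  [∀ i, IsCommMonObj (K i)] {S : ℕ → T} {v : ∀ i n, S n ⟶ K i}

/-- The data of the induction step. -/
theorem exists_fibre_data (hp : p.Prime) (hK : ∀ i, HK p (K i)) (h0 : Conn (0 : ℤ) (𝟙_ T))
    (hS : SphAct S) (sI : ∀ k, S k ≅ (𝟙_ T)⟦ww p k⟧) (ε : S 0 ≅ 𝟙_ T)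
    (hv0 : ∀ i, v i 0 = (p : ℤ) • (ε.hom ≫ η[K i])) (hreg : ∀ i n, Reg (v i) n) (i₀ : J)
    {k : ℕ} (hk : 1 ≤ k) {C Y : T} {x : 𝟙_ T ⟶ C} {y : 𝟙_ T ⟶ Y} {f : Y ⟶ C} (hx : y ≫ f = x)
    (hC : PLoc p C) (hY : PLoc p Y) (hC0 : Conn 0 C) (hY0 : Conn 0 Y)
    (h1 : ∀ i, KilV (v i) (k + 1) x) (h2 : ∀ i, Sur (K i) x (aa p (k + 1)))
    (h3 : ∀ i, Ker (v i) (k + 1) x (aa p (k + 1) - 1)) (hc : ∀ i, CycK (v i) k y) :
    ∃ (C' : T) (x' : 𝟙_ T ⟶ C') (d : S k ⊗ C' ⟶ Y) (g : C ⟶ (S k ⊗ C')⟦(1 : ℤ)⟧), Dist d f g ∧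
      PLoc p C' ∧ Conn 0 C' ∧ ∀ i, KilV (v i) k x' ∧ Sur (K i) x' (aa p k) ∧
        Ker (v i) k x' (aa p k - 1) ∧ ∃ m : ℤ,
          m • ((bot (S k) x' ≫ d) ≫ hur (K i) Y) = hcls y (v i k) ∧
          ∃ c : S k ⟶ K i, (bot (S k) x' ≫ d) ≫ hur (K i) Y = hcls y c ∧ InI (v i) (k + 1) c := by
  have hp1 := hp.one_le
  have hinv := hS.inv k
  obtain ⟨F, d₀, g₀, D⟩ := exists_fibre f
  set N : ℤ := aa p (k + 1) - 1 with hN
  have hN1 : N + 1 = aa p (k + 1) := by omega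
  have hN2 : N = aa p k + ww p k := by simp [hN, aa]
  have ha0 := aa_nonneg hp1 k
  have hw0 := ww_nonneg hp1 k
  have hSd : DimLe (S k) N := ⟨ww p k, by omega, ⟨sI k⟩⟩
  have hSd' : DimLe (S k) (ww p k) := ⟨ww p k, le_rfl, ⟨sI k⟩⟩
  have h2' : ∀ i, Sur (K i) x (N + 1) := fun i => by rw [hN1]; exact h2 i
  -- connectivity of the fibre
  have hF : PLoc p F := PLoc.fib D hY hC
  have hFm : Conn (-1) F := Conn.ext₁ _ D (hY0.mono (by norm_num)) (hC0.mono (by norm_num))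
  have hKF : ∀ i, Conn (ww p k) (K i ⊗ F) := by
    intro i j hj z
    have hA : DimLe ((𝟙_ T)⟦j⟧) N := (DimLe.sph j).mono (by omega)
    obtain ⟨b, hb⟩ := img_fib D hx (hc i) (h3 i) hA z
    have hKS : Conn (ww p k) (K i ⊗ S k) :=
      ((hK i).conn.shift (ww p k) (ww p k) (by ring)).of_iso
        ((tensorSph (ww p k) (K i)).symm ≪≫ (K i ◁ᵢ (sI k).symm))
    refine inj_fib D hx (h2' i) hA z ?_
    rw [hb, hKS j hj b, zero_comp, hcls_zero]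
  have hFc : Conn (ww p k) F := conn_of_hur hp (hK i₀) h0 hF hFm (hKF i₀)
  -- the classes over `v_k`
  have hgm : ∀ i, ∃ gm : S k ⟶ K i ⊗ F, gm ≫ K i ◁ d₀ = hcls y (v i k) := by
    intro i
    obtain ⟨h, D'⟩ : ∃ h, Dist (K i ◁ d₀) (K i ◁ f) h :=
      ⟨_, (tensorLeft (K i)).map_distinguished _ D⟩
    exact D'.lift₂ _ (by rw [hcls_map, hx]; exact h1 i k (Nat.lt_succ_self k))
  obtain ⟨gm₀, hgm₀⟩ := hgm i₀
  obtain ⟨s₀, hs₀⟩ := hur_surj' hp (hK i₀) h0 hF hFc hSd' gm₀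
  -- multiples of `p`
  have hpI : ∀ i {A : T} (a : A ⟶ K i), InI (v i) k ((p : ℤ) • a) := by
    intro i A a
    have h4 : InI (v i) k (v i 0) := by
      have := inI_single (v i) (Nat.lt_of_lt_of_le Nat.zero_lt_one hk)
        ((λ_ (S 0)).inv ≫ η[K i] ▷ S 0)
      rwa [unit_mul_cls] at this
    have h5 := h4.mul_left (a ≫ (ρ_ (K i)).inv ≫ K i ◁ ε.inv)
    convert h5 using 1
    rw [hv0, smul_whiskerLeft, Preadditive.zsmul_comp, Preadditive.comp_zsmul]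
    congr 1
    simp only [Category.assoc]
    rw [← MonoidalCategory.whiskerLeft_comp_assoc, Iso.inv_hom_id_assoc]
    simp
  -- every class is a multiple of `s₀`
  have hcyc : ∀ z : S k ⟶ F, ∃ m : ℤ, z = m • s₀ := by
    intro z
    obtain ⟨b, hb⟩ := img_fib D hx (hc i₀) (h3 i₀) hSd (z ≫ hur (K i₀) F)
    obtain ⟨b', hb'⟩ := Vale.Agent.P251.M.whiskerRight_surj (S k) ((λ_ (S k)).hom ≫ b)
    have hb2 : b = (λ_ (S k)).inv ≫ b' ▷ S k := by rw [hb', Iso.inv_hom_id_assoc]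
    obtain ⟨m, hm, c, hmc⟩ := (hK i₀).zero b'
    have h4 : m • (b ≫ K i₀ ◁ v i₀ k ≫ μ[K i₀]) = c • v i₀ k := by
      have h5 : m • (b' ▷ S k) = c • (η[K i₀] ▷ S k) := by
        have h6 : ∀ (n : ℤ) (g : 𝟙_ T ⟶ K i₀), n • (g ▷ S k) = (n • g) ▷ S k := fun n g =>
          ((tensorRight (S k)).map_zsmul ..).symm
        rw [h6, h6, hmc]
      rw [hb2, Category.assoc, ← Preadditive.comp_zsmul, ← Preadditive.zsmul_comp, h5,
        Preadditive.zsmul_comp, Preadditive.comp_zsmul]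
      congr 1
      exact (Category.assoc _ _ _).symm.trans (unit_mul_cls _)
    have h5 : m • z = c • s₀ := by
      rw [← sub_eq_zero]
      apply hur_inj' hp (hK i₀) h0 hF hFc hSd'
      apply inj_fib D hx (h2' i₀) hSd
      rw [Preadditive.sub_comp, Preadditive.sub_comp, Preadditive.zsmul_comp,
        Preadditive.zsmul_comp, Preadditive.zsmul_comp, Preadditive.zsmul_comp, hb, hs₀, hgm₀,
        ← hcls_smul, h4, hcls_smul, sub_self]
    have h6 : (p : ℤ) • z = 0 := by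
      apply hur_inj' hp (hK i₀) h0 hF hFc hSd'
      apply inj_fib D hx (h2' i₀) hSd
      rw [Preadditive.zsmul_comp, Preadditive.zsmul_comp, hb, ← hcls_smul,
        (hc i₀).2 _ hSd.isSph]
      exact hpI i₀ _
    obtain ⟨α, β, hαβ⟩ := exists_smul_inv hp hm
    refine ⟨α * c, ?_⟩
    have h7 : (α * m + β * p) • z = z := by rw [hαβ, one_smul]
    rw [← h7, add_smul, mul_smul, mul_smul β, h6, smul_zero, add_zero, h5, mul_smul]
  -- desuspension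
  let e := desusIso (sI k) F
  obtain ⟨x', hx'⟩ := whiskerLeft_surj (S k) ((ρ_ (S k)).hom ≫ s₀ ≫ e.inv)
  have hbot : bot (S k) x' = s₀ ≫ e.inv := by rw [bot, hx', Iso.inv_hom_id_assoc]
  have D₁ : Dist (e.hom ≫ d₀) f (g₀ ≫ (e.inv)⟦(1 : ℤ)⟧') :=
    dist_iso' D e.symm (Iso.refl _) (Iso.refl _) (by simp) (by simp) (by simp)
  have ht : bot (S k) x' ≫ e.hom ≫ d₀ = s₀ ≫ d₀ := by
    rw [hbot, Category.assoc, Iso.inv_hom_id_assoc]
  refine ⟨_, x', e.hom ≫ d₀, _, D₁, hF.shift _, hFc.shift _ 0 (by ring), fun i => ?_⟩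
  -- the Hurewicz image of `t`
  obtain ⟨c, hcc⟩ := (hc i).1 (S k) hSd.isSph ((bot (S k) x' ≫ e.hom ≫ d₀) ≫ hur (K i) Y)
  have hcI : InI (v i) (k + 1) c := by
    refine h3 i _ hSd c ?_
    rw [← hx, ← hcls_map, ← hcc, ht, Category.assoc, hur_nat, Category.assoc,
      ← Category.assoc d₀, D.zero₁₂, zero_comp, comp_zero]
  obtain ⟨gm, hgmi⟩ := hgm i
  obtain ⟨z, hz⟩ := hur_surj' hp (hK i) h0 hF hFc hSd' gm
  obtain ⟨m, rfl⟩ := hcyc z
  have hm : m • ((bot (S k) x' ≫ e.hom ≫ d₀) ≫ hur (K i) Y) = hcls y (v i k) := by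
    rw [ht, ← hgmi, ← hz, Category.assoc, Category.assoc, ← hur_nat, Preadditive.zsmul_comp]
  refine ⟨?_, ?_, ?_, m, hm, c, hcc, hcI⟩
  · -- `v_j`, `j < k`, kills `x'`
    intro j hj
    apply hat_inj (S₀ := S k)
    have hA : DimLe (S j ⊗ S k) N := by
      refine DimLe.tensor (M := aa p k) ?_ (sI k) (by omega)
      exact ⟨ww p j, (ww_lt_aa hp1 hj).le, ⟨sI j⟩⟩
    apply inj_fib D₁ hx (h2' i) hA
    rw [hat_hcls, mul_t y _ c hcc, (hc i).2 _ hA.isSph]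
    have h4 : v i j ▷ S k ≫ K i ◁ c ≫ μ[K i] =
        ((β_ (S j) (S k)).hom ≫ c ▷ S j) ≫ K i ◁ v i j ≫ μ[K i] := by
      have h5 : v i j ▷ S k ≫ K i ◁ c = (v i j ⊗ₘ c) := (MonoidalCategory.tensorHom_def _ _).symm
      have h6 : c ▷ S j ≫ K i ◁ v i j = (c ⊗ₘ v i j) := (MonoidalCategory.tensorHom_def _ _).symm
      rw [← Category.assoc, h5, Category.assoc, ← Category.assoc (c ▷ S j), h6,
        ← BraidedCategory.braiding_naturality_assoc, IsCommMonObj.mul_comm]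
    rw [h4]
    exact inI_single (v i) hj _
  · -- generation
    intro A hA z
    have hAS : DimLe (A ⊗ S k) N := hA.tensor (sI k) hN2.symm
    obtain ⟨b, hb⟩ := img_fib D₁ hx (hc i) (h3 i) hAS (hat (K i) _ (S k) z)
    obtain ⟨a', ha'⟩ := Vale.Agent.P251.M.whiskerRight_surj (S k) b
    refine ⟨m • a', ?_⟩
    rw [← sub_eq_zero]
    apply hat_inj (S₀ := S k)
    apply inj_fib D₁ hx (h2' i) hAS
    rw [hat_sub, hcls_smul, hat_smul, Preadditive.sub_comp, Preadditive.zsmul_comp, hat_hcls,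
      mul_t_smul y _ (v i k) m hm a', hb, ← ha', sub_eq_zero]
    simp [pr, MonoidalCategory.tensorHom_def]
  · -- the annihilator
    intro A hA a ha
    have h4 := mul_t_smul y _ (v i k) m hm a
    rw [← hat_hcls, ha] at h4
    have h5 : hcls y (pr a (v i k)) = 0 := by
      rw [← h4]
      simp [hat]
    obtain ⟨j, hj, ⟨eA⟩⟩ := hA
    have hAS : IsSph (A ⊗ S k) := (DimLe.tensor (A := A) ⟨j, le_rfl, ⟨eA⟩⟩ (sI k) rfl).isSph
    exact hreg i (k + 1) k (Nat.lt_succ_self k) A ⟨j, ⟨eA⟩⟩ a (((hc i).2 _ hAS _).1 h5)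

end Vale.Agent.P257.H762
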