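import Vale.Agent.P257.H762.MCell
import Mathlib.Data.Nat.Prime.Int
import Mathlib.RingTheory.Int.Basic

/-!
# P257, monotonicity: `p`-local objects and the Hurewicz theorem

For a monoid `K` with `π_{<0} K = 0`, `π_1 K = 0`, `π_0 K = ℤ_(p)`, and a `p`-local object `C` with
`π_j C = 0` for `j < n`: the map `π_j C ⟶ K_j C` is bijective for `j ≤ n`.
-/

open CategoryTheory MonoidalCategory Limits Pretriangulated MonObj
open Vale.Agent.P251.T Vale.Agent.P251.S Vale.Agent.P251.H Vale.Agent.P251.M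
  Vale.Agent.P251.I

universe v u

set_option linter.unusedSectionVars false

namespace Vale.Agent.P257.H762

section basic

variable {C : Type u} [Category.{v} C] [Preadditive C]

/-- `X` is `p`-local. -/
def PLoc (p : ℕ) (X : C) : Prop := ∀ m : ℤ, ¬ (p : ℤ) ∣ m → IsIso (m • 𝟙 X)

variable {p : ℕ}

lemma PLoc.inj {X : C} (hX : PLoc p X) {m : ℤ} (hm : ¬ (p : ℤ) ∣ m) {A : C} {f : A ⟶ X}
    (h : m • f = 0) : f = 0 := by
  have := hX m hm
  rw [← cancel_mono (m • 𝟙 X), Preadditive.comp_zsmul, Category.comp_id, h, zero_comp]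

lemma PLoc.surj {X : C} (hX : PLoc p X) {m : ℤ} (hm : ¬ (p : ℤ) ∣ m) {A : C} (f : A ⟶ X) :
    ∃ g : A ⟶ X, m • g = f := by
  have := hX m hm
  refine ⟨f ≫ inv (m • 𝟙 X), ?_⟩
  have h1 : m • (f ≫ inv (m • 𝟙 X)) = (f ≫ inv (m • 𝟙 X)) ≫ (m • 𝟙 X) := by
    rw [Preadditive.comp_zsmul, Category.comp_id]
  rw [h1, Category.assoc, IsIso.inv_hom_id, Category.comp_id]

lemma PLoc.of_iso {X Y : C} (hX : PLoc p X) (e : X ≅ Y) : PLoc p Y := by
  intro m hm
  have := hX m hm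
  have h1 : m • 𝟙 Y = e.inv ≫ (m • 𝟙 X) ≫ e.hom := by simp
  rw [h1]
  infer_instance

lemma PLoc.of_retract {X Y : C} (hX : PLoc p X) (i : Y ⟶ X) (r : X ⟶ Y) (h : i ≫ r = 𝟙 Y) :
    PLoc p Y := by
  intro m hm
  have := hX m hm
  have h1 : inv (m • 𝟙 X) ≫ (m • 𝟙 X) = 𝟙 X := IsIso.inv_hom_id _
  have h2 : m • inv (m • 𝟙 X) = 𝟙 X := by
    rwa [Preadditive.comp_zsmul, Category.comp_id] at h1
  refine ⟨i ≫ inv (m • 𝟙 X) ≫ r, ?_, ?_⟩
  · rw [Preadditive.zsmul_comp, Category.id_comp, ← Preadditive.comp_zsmul,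
      ← Preadditive.zsmul_comp, h2, Category.id_comp, h]
  · rw [Preadditive.comp_zsmul, Category.comp_id, ← Preadditive.comp_zsmul,
      ← Preadditive.zsmul_comp, h2, Category.id_comp, h]

lemma PLoc.map {D : Type*} [Category* D] [Preadditive D] (F : C ⥤ D) [F.Additive] {X : C}
    (hX : PLoc p X) : PLoc p (F.obj X) := by
  intro m hm
  have := hX m hm
  have h1 : m • 𝟙 (F.obj X) = F.map (m • 𝟙 X) := by
    rw [F.map_zsmul, F.map_id]
  rw [h1]
  infer_instance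

/-- the product of two integers prime to `p` -/
lemma not_dvd_mul (hp : p.Prime) {m n : ℤ} (hm : ¬ (p : ℤ) ∣ m) (hn : ¬ (p : ℤ) ∣ n) :
    ¬ (p : ℤ) ∣ m * n := fun h =>
  ((Nat.prime_iff_prime_int.mp hp).dvd_or_dvd h).elim hm hn

/-- If `m` and `n` kill `f`, and `m` is prime to `p`, `n` a power of `p`. -/
lemma exists_smul_inv (hp : p.Prime) {m : ℤ} (hm : ¬ (p : ℤ) ∣ m) :
    ∃ a b : ℤ, a * m + b * p = 1 := by
  have hc : IsCoprime m (p : ℤ) := by
    rw [isCoprime_comm, Prime.coprime_iff_not_dvd (Nat.prime_iff_prime_int.mp hp)]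
    exact hm
  exact hc

end basic

section tri

variable {C : Type u} [Category.{v} C] [Preadditive C] [HasZeroObject C] [HasShift C ℤ]
  [∀ n : ℤ, (shiftFunctor C n).Additive] [Pretriangulated C] {p : ℕ}

lemma PLoc.shift {X : C} (hX : PLoc p X) (n : ℤ) : PLoc p (X⟦n⟧) := hX.map (shiftFunctor C n)

lemma PLoc.mid {X Y Z : C} {f : X ⟶ Y} {g : Y ⟶ Z} {h : Z ⟶ X⟦(1 : ℤ)⟧} (D : Dist f g h)
    (hX : PLoc p X) (hZ : PLoc p Z) : PLoc p Y := by
  intro m hm
  have h1 := hX m hm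
  have h3 := hZ m hm
  let φ : Triangle.mk f g h ⟶ Triangle.mk f g h :=
    { hom₁ := m • 𝟙 X
      hom₂ := m • 𝟙 Y
      hom₃ := m • 𝟙 Z
      comm₁ := by change f ≫ (m • 𝟙 Y) = (m • 𝟙 X) ≫ f; simp
      comm₂ := by change g ≫ (m • 𝟙 Z) = (m • 𝟙 Y) ≫ g; simp
      comm₃ := by change h ≫ (m • 𝟙 X)⟦(1 : ℤ)⟧' = (m • 𝟙 Z) ≫ h; simp }
  exact isIso₂_of_isIso₁₃ φ D D h1 h3

lemma PLoc.cof {X Y Z : C} {f : X ⟶ Y} {g : Y ⟶ Z} {h : Z ⟶ X⟦(1 : ℤ)⟧} (D : Dist f g h)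
    (hX : PLoc p X) (hY : PLoc p Y) : PLoc p Z := PLoc.mid D.rot hY (hX.shift 1)

lemma PLoc.fib {X Y Z : C} {f : X ⟶ Y} {g : Y ⟶ Z} {h : Z ⟶ X⟦(1 : ℤ)⟧} (D : Dist f g h)
    (hY : PLoc p Y) (hZ : PLoc p Z) : PLoc p X := by
  obtain ⟨a, b, D'⟩ := Dist.invRot' D
  exact PLoc.mid D' (hZ.shift _) hY

end tri

section stable

variable {T : Type u} [Category.{v} T] [Preadditive T] [HasZeroObject T]
    [HasShift T ℤ] [∀ n : ℤ, (shiftFunctor T n).Additive] [Pretriangulated T] [IsTriangulated T]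
    [MonoidalCategory T] [SymmetricCategory T] [TensorTriangulated T] [MonoidalClosed T]
    [HasCoproducts.{0} T] [HasProducts.{0} T] [StableCat T] {p : ℕ}

lemma PLoc.tensorLeft {X : T} (W : T) (hX : PLoc p X) : PLoc p (W ⊗ X) :=
  hX.map (MonoidalCategory.tensorLeft W)

lemma PLoc.tensorRight {X : T} (W : T) (hX : PLoc p X) : PLoc p (X ⊗ W) :=
  hX.map (MonoidalCategory.tensorRight W)

/-! ### The `p`-local sphere -/

/-- `n + 1` if it is prime to `p`, and `1` otherwise -/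
def rr (p n : ℕ) : ℤ := if p ∣ n + 1 then 1 else (n + 1 : ℕ)

lemma rr_not_dvd (hp : p.Prime) (n : ℕ) : ¬ (p : ℤ) ∣ rr p n := by
  unfold rr
  split_ifs with h
  · intro h1
    exact (Nat.prime_iff_prime_int.mp hp).not_isUnit (isUnit_of_dvd_one h1)
  · exact fun h1 => h (Int.natCast_dvd_natCast.1 h1)

/-- the product of `k` successive numbers -/
def rprod (p n : ℕ) : ℕ → ℤ
  | 0 => 1
  | k + 1 => rprod p n k * rr p (n + k)

lemma rprod_not_dvd (hp : p.Prime) (n k : ℕ) : ¬ (p : ℤ) ∣ rprod p n k := by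
  induction k with
  | zero => exact fun h1 => (Nat.prime_iff_prime_int.mp hp).not_isUnit (isUnit_of_dvd_one h1)
  | succ k ih => exact not_dvd_mul hp ih (rr_not_dvd hp _)

lemma exists_dvd_rprod (hp : p.Prime) (n : ℕ) {m : ℤ} (hm : ¬ (p : ℤ) ∣ m) :
    ∃ k, m ∣ rprod p n k := by
  set N := m.natAbs with hN
  have hN0 : N ≠ 0 := by
    intro h
    exact hm (by rw [Int.natAbs_eq_zero.1 h]; exact dvd_zero _)
  have hpN : ¬ p ∣ N := fun h => hm (Int.natCast_dvd.2 h)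
  have h1 : ¬ p ∣ N * (p * n + 1) := by
    intro h
    rcases hp.dvd_mul.1 h with h | h
    · exact hpN h
    · exact hp.one_lt.ne' (Nat.dvd_one.1 ((Nat.dvd_add_right (dvd_mul_right p n)).1 h))
  have h2 : n + 1 ≤ N * (p * n + 1) := by
    have : n + 1 ≤ p * n + 1 := by nlinarith [hp.one_lt.le]
    exact this.trans (Nat.le_mul_of_pos_left _ (Nat.pos_of_ne_zero hN0))
  obtain ⟨k, hk⟩ : ∃ k, n + k + 1 = N * (p * n + 1) := ⟨N * (p * n + 1) - (n + 1), by omega⟩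
  refine ⟨k + 1, Dvd.dvd.mul_left ?_ _⟩
  have h3 : rr p (n + k) = ((N * (p * n + 1) : ℕ) : ℤ) := by
    unfold rr
    rw [hk, if_neg h1]
  rw [h3]
  refine Int.natAbs_dvd.1 ?_
  exact Int.natCast_dvd_natCast.2 (dvd_mul_right _ _)

/-- The sequence `H ⟶ H ⟶ H ⟶ …` of the multiplications by the integers prime to `p`. -/
abbrev locSeq (p : ℕ) (H : T) (n : ℕ) : H ⟶ H := rr p n • 𝟙 H

theorem trT_locSeq (H : T) (n k : ℕ) :
    trT (X := fun _ => H) (locSeq p H) n k = rprod p n k • 𝟙 H := by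
  induction k with
  | zero => simp [rprod]
  | succ k ih =>
    rw [trT_succ, ih, Preadditive.zsmul_comp, Category.id_comp, smul_smul]
    rfl

section tel

variable {H : T} (U : Tel (X := fun _ => H) (locSeq p H))

theorem smul_ι_loc (n k : ℕ) : rprod p n k • U.ι (n + k) = U.ι n := by
  rw [← U.trT_ι n k, trT_locSeq, Preadditive.zsmul_comp, Category.id_comp]

/-- a class of a sphere in the telescope is zero iff it is killed by an integer prime to `p` -/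
theorem exists_smul_eq_zero (hp : p.Prime) {k : ℤ} {n : ℕ} (a : (𝟙_ T)⟦k⟧ ⟶ H)
    (h : a ≫ U.ι n = 0) : ∃ m : ℤ, ¬ (p : ℤ) ∣ m ∧ m • a = 0 := by
  obtain ⟨j, hj⟩ := U.exists_eq_zero (Vale.Agent.P251.X.cpt_sphere k) a h
  rw [trT_locSeq, Preadditive.comp_zsmul, Category.comp_id] at hj
  exact ⟨_, rprod_not_dvd hp n j, hj⟩

theorem pLoc_tel (hp : p.Prime) : PLoc p U.obj := by
  intro m hm
  refine isIso_of_bijective_hom (fun k => (𝟙_ T)⟦k⟧)
    (fun k k' h => ⟨((shiftFunctorAdd' T k 1 k' h).app (𝟙_ T)).symm⟩)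
    (fun X hX => StableCat.generator X hX) _ ?_ ?_
  · intro k x hx
    obtain ⟨n, a, rfl⟩ := U.exists_factor (Vale.Agent.P251.X.cpt_sphere k) x
    rw [Preadditive.comp_zsmul, Category.comp_id, ← Preadditive.zsmul_comp] at hx
    obtain ⟨m', hm', h1⟩ := exists_smul_eq_zero U hp (m • a) hx
    obtain ⟨j, c, hc⟩ := exists_dvd_rprod hp n (not_dvd_mul hp hm' hm)
    rw [← smul_ι_loc U n j, hc, Preadditive.comp_zsmul, ← Preadditive.zsmul_comp,
      mul_comm, mul_smul, mul_smul, h1, smul_zero, zero_comp]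
  · intro k y
    obtain ⟨n, a, rfl⟩ := U.exists_factor (Vale.Agent.P251.X.cpt_sphere k) y
    obtain ⟨j, c, hc⟩ := exists_dvd_rprod hp n hm
    refine ⟨(c • a) ≫ U.ι (n + j), ?_⟩
    rw [Preadditive.comp_zsmul, Category.comp_id, ← Preadditive.zsmul_comp, smul_smul, ← hc,
      Preadditive.zsmul_comp, ← Preadditive.comp_zsmul, smul_ι_loc]

/-- For `p`-local `C` the telescope does not change `C`. -/
theorem isIso_tel_zero (hp : p.Prime) (hH : PLoc p H) : IsIso (U.ι 0) := by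
  have hr : ∀ n k, IsIso (rprod p n k • 𝟙 H) := fun n k => hH _ (rprod_not_dvd hp n k)
  refine isIso_of_bijective_hom (fun k => (𝟙_ T)⟦k⟧)
    (fun k k' h => ⟨((shiftFunctorAdd' T k 1 k' h).app (𝟙_ T)).symm⟩)
    (fun X hX => StableCat.generator X hX) _ ?_ ?_
  · intro k x hx
    obtain ⟨m, hm, h1⟩ := exists_smul_eq_zero U hp x hx
    exact hH.inj hm h1
  · intro k y
    obtain ⟨n, a, rfl⟩ := U.exists_factor (Vale.Agent.P251.X.cpt_sphere k) y
    have h1 : rprod p 0 n • U.ι n = U.ι 0 := by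
      have h2 := smul_ι_loc U 0 n
      rwa [Nat.zero_add] at h2
    obtain ⟨b, hb⟩ := hH.surj (rprod_not_dvd hp 0 n) a
    refine ⟨b, ?_⟩
    rw [← h1, Preadditive.comp_zsmul, ← Preadditive.zsmul_comp, hb]

end tel

end stable

end Vale.Agent.P257.H762
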