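import Vale.Agent.P257.H762.MInd

/-!
# P257, monotonicity: the tower
-/

open CategoryTheory MonoidalCategory Limits Pretriangulated MonObj
open Vale.Agent.P251.T Vale.Agent.P251.S Vale.Agent.P251.H Vale.Agent.P251.M
  Vale.Agent.P251.I Vale.Agent.P257.H702

universe v u w

set_option linter.unusedSectionVars false

namespace Vale.Agent.P257.H762

variable {T : Type u} [Category.{v} T] [Preadditive T] [HasZeroObject T]
    [HasShift T ℤ] [∀ n : ℤ, (shiftFunctor T n).Additive] [Pretriangulated T] [IsTriangulated T]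
    [MonoidalCategory T] [SymmetricCategory T] [TensorTriangulated T] [MonoidalClosed T]
    [HasCoproducts.{0} T] [HasProducts.{0} T] [StableCat T] {p : ℕ}

/-- `Q` is closed under isomorphisms, shifts and cofibres. -/
structure Clos (Q : T → Prop) : Prop where
  iso : ∀ {X Y : T}, Q X → (X ≅ Y) → Q Y
  shift : ∀ {X : T} (n : ℤ), Q X → Q (X⟦n⟧)
  cone : ∀ {X Y Z : T} {f : X ⟶ Y} {g : Y ⟶ Z} {h : Z ⟶ X⟦(1 : ℤ)⟧}, Dist f g h → Q X → Q Y → Q Z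

/-- in degrees `< |v_k|` there are no multiples of `v_k` -/
theorem InI.low {K : T} [MonObj K] (hK : Conn (0 : ℤ) K) {S : ℕ → T}
    (sI : ∀ k, S k ≅ (𝟙_ T)⟦ww p k⟧) {v : ∀ n, S n ⟶ K} {k : ℕ} {A : T} {N : ℤ} (hA : DimLe A N)
    (hN : N < ww p k) {a : A ⟶ K} (ha : InI v (k + 1) a) : InI v k a := by
  obtain ⟨b, hb⟩ := (inI_succ v a).1 ha
  have hKS : Conn (ww p k) (K ⊗ S k) :=
    (hK.shift (ww p k) (ww p k) (by ring)).of_iso
      ((tensorSph (ww p k) K).symm ≪≫ (K ◁ᵢ (sI k).symm))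
  obtain ⟨j, hj, ⟨e⟩⟩ := hA
  have h1 : b = 0 := by
    have := hKS j (by omega) (e.inv ≫ b)
    rw [← cancel_epi e.inv, this, comp_zero]
  rwa [h1, zero_comp, sub_zero] at hb

theorem Ker.low {K : T} [MonObj K] (hK : Conn (0 : ℤ) K) {S : ℕ → T}
    (sI : ∀ k, S k ≅ (𝟙_ T)⟦ww p k⟧) {v : ∀ n, S n ⟶ K} {k : ℕ} {C : T} {x : 𝟙_ T ⟶ C} {M N : ℤ}
    (h : Ker v (k + 1) x M) (hMN : N ≤ M) (hN : N < ww p k) : Ker v k x N := fun _ hA a ha =>
  InI.low hK sI hA hN (h _ (hA.mono hMN) a ha)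

theorem Sur.mono {K : T} [MonObj K] {C : T} {x : 𝟙_ T ⟶ C} {M N : ℤ} (h : Sur K x M)
    (hMN : N ≤ M) : Sur K x N := fun _ hA y => h _ (hA.mono hMN) y

theorem KilV.mono {K : T} [MonObj K] {S : ℕ → T} {v : ∀ n, S n ⟶ K} {k l : ℕ} {C : T}
    {x : 𝟙_ T ⟶ C} (h : KilV v l x) (hkl : k ≤ l) : KilV v k x := fun i hi => h i (by omega)

section cofp

variable {M : T} {iM : 𝟙_ T ⟶ M} {δM : M ⟶ (𝟙_ T)⟦(1 : ℤ)⟧}

theorem smul_cof (DM : Dist ((p : ℤ) • 𝟙 (𝟙_ T)) iM δM) : ((p : ℤ) * p) • 𝟙 M = 0 := by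
  have h1 : iM ≫ ((p : ℤ) • 𝟙 M) = 0 := by
    have := DM.zero₁₂
    rw [Preadditive.zsmul_comp, Category.id_comp] at this
    rw [Preadditive.comp_zsmul, Category.comp_id, this]
  obtain ⟨b, hb⟩ := DM.desc₃ _ h1
  have h2 : δM ≫ ((p : ℤ) • b) = 0 := by
    have h3 := DM.zero₃₁
    rw [Functor.map_zsmul, CategoryTheory.Functor.map_id, Preadditive.comp_zsmul,
      Category.comp_id] at h3
    rw [Preadditive.comp_zsmul, ← Preadditive.zsmul_comp, h3, zero_comp]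
  rw [mul_smul, ← hb, ← Preadditive.comp_zsmul, h2]

theorem pLoc_cof (hp : p.Prime) (DM : Dist ((p : ℤ) • 𝟙 (𝟙_ T)) iM δM) : PLoc p M := by
  intro m hm
  have hcop : IsCoprime m ((p : ℤ) * p) := by
    have h1 : IsCoprime m (p : ℤ) :=
      ((Prime.coprime_iff_not_dvd (Nat.prime_iff_prime_int.mp hp)).2 hm).symm
    exact h1.mul_right h1
  obtain ⟨a, b, hab⟩ := hcop
  have h1 : (a * m) • 𝟙 M = 𝟙 M := by
    have h2 : (a * m + b * ((p : ℤ) * p)) • 𝟙 M = (1 : ℤ) • 𝟙 M := by rw [hab]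
    rwa [add_smul, mul_smul b, smul_cof DM, smul_zero, add_zero, one_smul] at h2
  refine ⟨⟨a • 𝟙 M, ?_, ?_⟩⟩
  · rw [Preadditive.comp_zsmul, Category.comp_id, ← mul_smul, h1]
  · rw [Preadditive.comp_zsmul, Category.comp_id, ← mul_smul, mul_comm, h1]

theorem conn_cof (h0 : Conn (0 : ℤ) (𝟙_ T)) (DM : Dist ((p : ℤ) • 𝟙 (𝟙_ T)) iM δM) : Conn 0 M :=
  Conn.ext₃ _ DM h0 (h0.mono (by norm_num))

end cofp

variable [LocallySmall.{0} T] {J : Type w} {K : J → T} [∀ i, MonObj (K i)]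
  [∀ i, IsCommMonObj (K i)] {S : ℕ → T} {v : ∀ i n, S n ⟶ K i}

/-- **The tower under `C`.** If the class `x ∈ π_0 C` behaves like the generator of
`K_* / (v_0, …, v_k)` in low degrees, then there is a Smith-Toda complex `V(k)` over `C`. -/
theorem exists_tower (hp : p.Prime) (hK : ∀ i, HK p (K i)) (h0 : Conn (0 : ℤ) (𝟙_ T))
    (hS : SphAct S) (sI : ∀ k, S k ≅ (𝟙_ T)⟦ww p k⟧) (ε : S 0 ≅ 𝟙_ T)
    (hv0 : ∀ i, v i 0 = (p : ℤ) • (ε.hom ≫ η[K i])) (hreg : ∀ i n, Reg (v i) n) (i₀ : J)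
    {Q : T → Prop} (hQ : Clos Q) {M : T} {iM : 𝟙_ T ⟶ M} {δM : M ⟶ (𝟙_ T)⟦(1 : ℤ)⟧}
    (DM : Dist ((p : ℤ) • 𝟙 (𝟙_ T)) iM δM) (hM : Q M) (hMc : ∀ i, CycK (v i) 1 iM) (k : ℕ) :
    ∀ (C : T) (x : 𝟙_ T ⟶ C), PLoc p C → Conn 0 C →
      (∀ i, KilV (v i) (k + 1) x ∧ Sur (K i) x (aa p (k + 1)) ∧
        Ker (v i) (k + 1) x (aa p (k + 1) - 1)) →
      ∃ (Y : T) (y : 𝟙_ T ⟶ Y) (f : Y ⟶ C), Q Y ∧ PLoc p Y ∧ Conn 0 Y ∧ y ≫ f = x ∧
        ∀ i, CycK (v i) (k + 1) y := by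
  induction k with
  | zero =>
    intro C x hC hC0 h
    have h1 : (p : ℤ) • x = 0 := by
      have h2 := (h i₀).1 0 Nat.one_pos
      rw [hv0, hcls_smul, hcls_comp] at h2
      have hD : DimLe (𝟙_ T) 0 := ⟨0, le_rfl, ⟨((shiftFunctorZero T ℤ).app _).symm⟩⟩
      refine hur_inj' (A := 𝟙_ T) hp (hK i₀) h0 hC hC0 hD _ ?_
      rw [← cancel_epi ε.hom, comp_zero, Preadditive.zsmul_comp, Preadditive.comp_zsmul]
      convert h2 using 3
      unfold hcls hur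
      rw [rightUnitor_inv_naturality_assoc, leftUnitor_inv_naturality_assoc, unitors_inv_equal]
      rw [whisker_exchange]
    obtain ⟨f, hf⟩ := DM.desc₂ x (by rw [Preadditive.zsmul_comp, Category.id_comp, h1])
    exact ⟨M, iM, f, hM, pLoc_cof hp DM, conn_cof h0 DM, hf, hMc⟩
  | succ k ih =>
    intro C x hC hC0 h
    have hp1 := hp.one_le
    have ha := aa_nonneg hp1 (k + 1)
    have hw := ww_nonneg hp1 (k + 1)
    have haw := aa_le_ww hp.two_le (k + 1)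
    have haa : aa p (k + 1 + 1) = aa p (k + 1) + ww p (k + 1) + 1 := rfl
    obtain ⟨Y, y, f, hYQ, hY, hY0, hyf, hYc⟩ := ih C x hC hC0 fun i =>
      ⟨(h i).1.mono (Nat.le_succ _), (h i).2.1.mono (by omega),
        Ker.low (hK i).conn sI (h i).2.2 (by omega) (by omega)⟩
    obtain ⟨C', x', d, g, D, hC', hC0', h'⟩ := exists_fibre_data hp hK h0 hS sI ε hv0 hreg i₀
      (Nat.succ_le_succ (Nat.zero_le k)) hyf hC hY hC0 hY0 (fun i => (h i).1)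
      (fun i => (h i).2.1) (fun i => (h i).2.2) hYc
    obtain ⟨Y', y', f', hYQ', hY', hY0', hyf', hYc'⟩ := ih C' x' hC' hC0' fun i =>
      ⟨(h' i).1, (h' i).2.1, (h' i).2.2.1⟩
    obtain ⟨V, j, δ, D'⟩ := exists_cone (S (k + 1) ◁ f' ≫ d)
    obtain ⟨f'', hf'', -⟩ := D'.map₃ D (S (k + 1) ◁ f') (𝟙 Y) (Category.comp_id _)
    rw [Category.id_comp] at hf''
    have e : Y'⟦ww p (k + 1)⟧ ≅ S (k + 1) ⊗ Y' :=
      (tensorSph _ _).symm ≪≫ (Y' ◁ᵢ (sI _).symm) ≪≫ β_ _ _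
    have hbot : bot (S (k + 1)) y' ≫ S (k + 1) ◁ f' ≫ d = bot (S (k + 1)) x' ≫ d := by
      rw [← hyf']
      simp [bot]
    refine ⟨V, y ≫ j, f'', hQ.cone D' (hQ.iso (hQ.shift _ hYQ') e) hYQ, ?_, ?_, ?_, fun i => ?_⟩
    · exact PLoc.cof D' ((hY'.shift _).of_iso e) hY
    · exact Conn.ext₃ _ D' hY0 (((hY0'.shift _ _ rfl).mono (by omega)).of_iso e)
    · rw [Category.assoc, hf'', hyf]
    · obtain ⟨-, -, -, m, hm, c, hc, hcI⟩ := h' i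
      refine cycK_step (hYc i) (hYc' i) hS (hreg i _) (m := m) ?_ (c := c) ?_ hcI D'
      · rw [hbot]; exact hm
      · rw [hbot]; exact hc

end Vale.Agent.P257.H762
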