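import Vale.Agent.P257.H762.MFib

/-!
# P257, monotonicity: the step
-/

open CategoryTheory MonoidalCategory Limits Pretriangulated MonObj
open Vale.Agent.P251.T Vale.Agent.P251.S Vale.Agent.P251.H Vale.Agent.P251.M
  Vale.Agent.P251.I Vale.Agent.P257.H702

universe v u

set_option linter.unusedSectionVars false

namespace Vale.Agent.P257.H762

section tt

variable {T : Type u} [Category.{v} T] [Preadditive T] [HasZeroObject T] [HasShift T ℤ]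
  [∀ n : ℤ, (shiftFunctor T n).Additive] [Pretriangulated T]
  [MonoidalCategory T] [SymmetricCategory T] [TensorTriangulated T]

variable {K : T} [MonObj K] {S : ℕ → T} {v : ∀ i, S i ⟶ K} {k : ℕ}

/-- the class `z` suspended by the sphere `S₀` -/
abbrev hat (K C S₀ : T) {A : T} (z : A ⟶ K ⊗ C) : A ⊗ S₀ ⟶ K ⊗ (S₀ ⊗ C) :=
  z ▷ S₀ ≫ (shuf K C S₀).hom

theorem hat_inj {C S₀ A : T} [IsInv S₀] {z : A ⟶ K ⊗ C} (h : hat K C S₀ z = 0) : z = 0 := by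
  have h1 : z ▷ S₀ = 0 := by
    rw [← cancel_mono (shuf K C S₀).hom]
    exact h.trans zero_comp.symm
  apply whiskerRight_inj S₀
  rw [h1, MonoidalPreadditive.zero_whiskerRight]

theorem hat_smul {C S₀ A : T} (m : ℤ) (z : A ⟶ K ⊗ C) :
    hat K C S₀ (m • z) = m • hat K C S₀ z := by
  have h1 : (m • z) ▷ S₀ = m • (z ▷ S₀) := (tensorRight S₀).map_zsmul ..
  rw [hat, h1, Preadditive.zsmul_comp]

theorem hat_sub {C S₀ A : T} (z z' : A ⟶ K ⊗ C) :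
    hat K C S₀ (z - z') = hat K C S₀ z - hat K C S₀ z' := by
  have h1 : (z - z') ▷ S₀ = z ▷ S₀ - z' ▷ S₀ := (tensorRight S₀).map_sub ..
  rw [hat, h1, Preadditive.sub_comp]

/-- the bottom cell of `S₀ ⊗ C` -/
abbrev bot (S₀ : T) {C : T} (x : 𝟙_ T ⟶ C) : S₀ ⟶ S₀ ⊗ C := (ρ_ S₀).inv ≫ S₀ ◁ x

theorem hat_hcls {C S₀ A : T} (x : 𝟙_ T ⟶ C) (a : A ⟶ K) {Y : T} (f : S₀ ⊗ C ⟶ Y) :
    hat K C S₀ (hcls x a) ≫ K ◁ f = a ▷ S₀ ≫ K ◁ (bot S₀ x ≫ f) := by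
  unfold hat
  rw [hcls_shuf, Category.assoc, ← MonoidalCategory.whiskerLeft_comp]

/-- multiplication by a map `t` whose Hurewicz image is `c · y` -/
theorem mul_t {S₀ A Y : T} (y : 𝟙_ T ⟶ Y) (t : S₀ ⟶ Y) (c : S₀ ⟶ K)
    (h : t ≫ hur K Y = hcls y c) (b : A ⟶ K ⊗ S₀) :
    b ≫ K ◁ t = hcls y (b ≫ K ◁ c ≫ μ[K]) := by
  rw [hcls_mul, ← h, lin_hur]

theorem mul_t_smul {S₀ A Y : T} (y : 𝟙_ T ⟶ Y) (t : S₀ ⟶ Y) (c : S₀ ⟶ K) (m : ℤ)
    (h : m • (t ≫ hur K Y) = hcls y c) (a : A ⟶ K) :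
    m • (a ▷ S₀ ≫ K ◁ t) = hcls y (pr a c) := by
  have h1 : (m • t) ≫ hur K Y = hcls y c := by rw [Preadditive.zsmul_comp, h]
  have h2 := mul_t y (m • t) c h1 (a ▷ S₀)
  rw [smul_whiskerLeft, Preadditive.comp_zsmul] at h2
  rw [h2]
  simp [pr, MonoidalCategory.tensorHom_def]

/-- **The step on homology**: the cofibre of `φ : S k ⊗ V' ⟶ V`. -/
theorem cycK_step {V V' : T} {y : 𝟙_ T ⟶ V} {y' : 𝟙_ T ⟶ V'} (H : CycK v k y) (H' : CycK v k y')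
    (hS : SphAct S) (hv : Reg v (k + 1)) {φ : S k ⊗ V' ⟶ V} {m : ℤ}
    (hm : m • ((bot (S k) y' ≫ φ) ≫ hur K V) = hcls y (v k)) {c : S k ⟶ K}
    (hc : (bot (S k) y' ≫ φ) ≫ hur K V = hcls y c) (hcI : InI v (k + 1) c) {V'' : T}
    {j : V ⟶ V''} {δ : V'' ⟶ (S k ⊗ V')⟦(1 : ℤ)⟧} (D : Dist φ j δ) :
    CycK v (k + 1) (y ≫ j) := by
  have := hS.inv k
  obtain ⟨h, D'⟩ : ∃ h, Dist (K ◁ φ) (K ◁ j) h := ⟨_, (tensorLeft K).map_distinguished _ D⟩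
  -- every class of the source
  have desus : ∀ A : T, IsSph A → ∀ z : A ⟶ K ⊗ (S k ⊗ V'), ∃ (A' : T) (_ : IsSph A')
      (θ : A ≅ A' ⊗ S k) (a : A' ⟶ K), z = θ.hom ≫ hat K V' (S k) (hcls y' a) := by
    intro A hA z
    obtain ⟨A', hA', ⟨θ⟩⟩ := hS.desus k A hA
    obtain ⟨z', hz'⟩ := exists_desus θ z
    obtain ⟨a, rfl⟩ := H'.1 A' hA' z'
    exact ⟨A', hA', θ, a, hz'⟩
  -- injectivity
  have injf : ∀ A : T, IsSph A → ∀ z : A ⟶ K ⊗ (S k ⊗ V'), z ≫ K ◁ φ = 0 → z = 0 := by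
    intro A hA z hz
    obtain ⟨A', hA', θ, a, rfl⟩ := desus A hA z
    rw [Category.assoc, hat_hcls] at hz
    have h1 : a ▷ S k ≫ K ◁ (bot (S k) y' ≫ φ) = 0 := by
      rw [← cancel_epi θ.hom, hz, comp_zero]
    have h2 := mul_t_smul y _ (v k) m hm a
    rw [h1, smul_zero] at h2
    have h3 : InI v k (pr a (v k)) := by
      have h5 : InI v k (θ.hom ≫ pr a (v k)) := by
        rw [← H.2 A hA, hcls_comp, ← h2, comp_zero]
      have := h5.comp v θ.inv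
      rwa [Iso.inv_hom_id_assoc] at this
    have h4 := hv k (Nat.lt_succ_self k) A' hA' a h3
    rw [← H'.2 A' hA'] at h4
    rw [h4]
    simp [hat]
  constructor
  · intro A hA y₁
    have h1 : y₁ ≫ h = 0 := bd_zero D' (fun z hz => injf _ (hA.shift (-1)) z hz) y₁
    obtain ⟨y₀, hy₀⟩ := D'.lift₃ y₁ h1
    obtain ⟨a, ha⟩ := H.1 A hA y₀
    exact ⟨a, by rw [← hy₀, ha, hcls_map]⟩
  · intro A hA a
    rw [← hcls_map]
    constructor
    · intro h1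
      obtain ⟨z, hz⟩ := D'.lift₂ _ h1
      obtain ⟨A', hA', θ, a', rfl⟩ := desus A hA z
      rw [Category.assoc, hat_hcls, mul_t y _ c hc, ← hcls_comp, ← sub_eq_zero, ← hcls_sub,
        H.2 A hA] at hz
      have h2 : InI v (k + 1) (θ.hom ≫ (a' ▷ S k ≫ K ◁ c ≫ μ[K])) :=
        (hcI.mul_left (a' ▷ S k)).comp v θ.hom
      obtain ⟨b, hb⟩ := (inI_succ v _).1 h2
      refine (inI_succ v a).2 ⟨b, ?_⟩
      have h3 : InI v k ((θ.hom ≫ (a' ▷ S k ≫ K ◁ c ≫ μ[K]) - b ≫ K ◁ v k ≫ μ[K]) +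
          (-(θ.hom ≫ (a' ▷ S k ≫ K ◁ c ≫ μ[K]) - a))) := by
        refine hb.add v ?_
        have := hz.comp v (-𝟙 A)
        rwa [Preadditive.neg_comp, Category.id_comp] at this
      convert h3 using 1
      abel
    · intro h1
      obtain ⟨b, hb⟩ := (inI_succ v a).1 h1
      rw [← H.2 A hA, hcls_sub, sub_eq_zero] at hb
      obtain ⟨A', hA', ⟨θ⟩⟩ := hS.desus k A hA
      obtain ⟨a', ha'⟩ := Vale.Agent.P251.M.whiskerRight_surj (S k) (θ.inv ≫ b)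
      have hb' : b = θ.hom ≫ a' ▷ S k := by rw [ha', Iso.hom_inv_id_assoc]
      have h2 : hcls y (b ≫ K ◁ v k ≫ μ[K]) = θ.hom ≫ hcls y (pr a' (v k)) := by
        rw [hb', ← hcls_comp]
        simp [pr, MonoidalCategory.tensorHom_def]
      rw [hb, h2, ← mul_t_smul y _ (v k) m hm a', ← hat_hcls, Category.assoc,
        Preadditive.zsmul_comp, Category.assoc, D'.zero₁₂, comp_zero, smul_zero, comp_zero]

end tt

end Vale.Agent.P257.H762
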