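import Vale.Agent.P257.H762.MFam
import Vale.Agent.P251.M.BGlueD

/-!
# P257, monotonicity: the theorem

`smithTodaExists_mono` : if `V(n+1)` exists at `p`, then `V(n)` exists at `p`.
-/

open CategoryTheory MonoidalCategory Limits Pretriangulated MonObj
open Vale.Agent.P251 Vale.Agent.P251.T Vale.Agent.P251.S Vale.Agent.P251.H Vale.Agent.P251.M
  Vale.Agent.P251.I Vale.Agent.P257.H702 Vale.Agent.P257.St
open Vale.Agent.P251.M.EvenSpheres

set_option linter.unusedSectionVars false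

noncomputable section

universe v u w

namespace Vale.Agent.P257.H762

variable {T : P251.St.SHCat} {S : P251.St.Susp T} {p n : ℕ}

/-- the polynomials of degree `0` are constant -/
theorem vPoly_zero (hp : 2 ≤ p) (x : VPoly p 0) :
    ∃ a : ℤ, (x : MvPolynomial ℕ ℤ) = MvPolynomial.C a := by
  refine ⟨MvPolynomial.coeff 0 (x : MvPolynomial ℕ ℤ), ?_⟩
  ext d
  rw [MvPolynomial.coeff_C]
  split_ifs with h
  · rw [h]
  · by_contra hne
    have h1 := (MvPolynomial.mem_weightedHomogeneousSubmodule ℤ _ _ _).1 x.2 hne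
    apply h
    symm
    ext i
    have h2 : ∀ i ∈ d.support, d i * (p ^ (i + 1) - 1) = 0 := by
      rw [Finsupp.weight_apply, Finsupp.sum, Finset.sum_eq_zero_iff] at h1
      intro i hi
      simpa using h1 i hi
    by_contra h3
    have h4 := h2 i (Finsupp.mem_support_iff.2 h3)
    have h5 : 2 ≤ p ^ (i + 1) := le_trans hp (Nat.le_self_pow (Nat.succ_ne_zero i) p)
    rcases Nat.mul_eq_zero.1 h4 with h6 | h6
    · exact h3 h6
    · omega

/-- the low homotopy of a Brown-Peterson spectrum of the statement layer -/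
theorem hk_of_isBP (hp : p.Prime) {R : P251.St.RingSp T} {o : P251.St.Oriented S R}
    {c : ∀ k : ℕ, P251.St.SHCat.Hom (S.obj (P251.St.Cn k)) R.obj} (hB : IsBP p o c) :
    HK p R.obj := by
  obtain ⟨e, h1, -, -, hinj⟩ := hB.poly
  have hmem : (1 : MvPolynomial ℕ ℤ) ∈
      MvPolynomial.weightedHomogeneousSubmodule ℤ (fun i : ℕ => p ^ (i + 1) - 1) 0 :=
    MvPolynomial.isWeightedHomogeneous_one ℤ _
  let one : VPoly p 0 := ⟨1, hmem⟩
  have hone : (isoE S 0).inv ≫ e 0 one = (stdEven T.C).zero.inv ≫ η[R.obj] := by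
    have h2 := cls_one (x := e 0 one) fun j hj => h1 one j rfl hj
    rw [cls_apply] at h2
    have h3 : HRing.of (stdEven T.C) R.obj ((0 : ℕ) : ℤ) ((isoE S 0).inv ≫ e 0 one) =
        HRing.of (stdEven T.C) R.obj ((0 : ℕ) : ℤ) ((stdEven T.C).zero.inv ≫ η[R.obj]) :=
      h2.trans of_one.symm
    exact DirectSum.of_injective (β := (stdEven T.C).Gr R.obj) _ h3
  let θ : 𝟙_ T.C ≅ S.obj (P251.St.Cn 0) := (stdEven T.C).zero ≪≫ (isoE S 0).symm
  have hone' : θ.hom ≫ e 0 one = η[R.obj] := by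
    simp only [θ, Iso.trans_hom, Iso.symm_hom, Category.assoc]
    rw [hone, Iso.hom_inv_id_assoc]
  have hx : ∀ x : VPoly p 0, ∃ a : ℤ, x = a • one := by
    intro x
    obtain ⟨a, ha⟩ := vPoly_zero hp.two_le x
    refine ⟨a, Subtype.ext ?_⟩
    rw [ha]
    change _ = a • (1 : MvPolynomial ℕ ℤ)
    rw [← map_one MvPolynomial.C, ← map_zsmul]
    simp
  refine HK.of_pi hp (unit_conn S.toSpaceFunctor) (exists_int_unit S.toSpaceFunctor) hB.isLocal
    (fun k hk f => hB.conc k f (Or.inl hk)) (fun f => hB.conc 1 f (Or.inr odd_one)) ?_ ?_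
  · intro f
    obtain ⟨m, x, hm, hmx⟩ := (hinj 0).2 (θ.inv ≫ f)
    obtain ⟨a, rfl⟩ := hx x
    refine ⟨m, hm, a, ?_⟩
    rw [map_zsmul] at hmx
    have h4 : m • (θ.inv ≫ f) = a • e 0 one := hmx
    rw [← cancel_epi θ.inv, Preadditive.comp_zsmul, h4, ← hone', Preadditive.comp_zsmul,
      Iso.inv_hom_id_assoc]
  · intro a ha
    have h4 : e 0 (a • one) = 0 := by
      rw [map_zsmul, ← cancel_epi θ.hom, Preadditive.comp_zsmul, hone', ha, comp_zero]
    have h5 := (hinj 0).1 (h4.trans (map_zero _).symm)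
    have h6 : a • (1 : MvPolynomial ℕ ℤ) = 0 := congrArg Subtype.val h5
    have h7 : MvPolynomial.C (σ := ℕ) a = (0 : MvPolynomial ℕ ℤ) := by
      rw [← h6, ← map_one MvPolynomial.C, ← map_zsmul]
      simp
    exact (MvPolynomial.C_eq_zero).1 h7

/-- **Monotonicity**: if `V(n+1)` exists at `p`, then `V(n)` exists at `p`. -/
theorem smithTodaExists_mono (hp : p.Prime) (h : SmithTodaExists S p (n + 1)) :
    SmithTodaExists S p n := by
  obtain ⟨X, hX, hB⟩ := h
  obtain ⟨D, hD⟩ := MU_univ T.C S.toSpaceFunctor (lineIso S.toSpaceFunctor)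
  let J := { x : Σ (B : P251.St.RingSp T) (_ : P251.St.Oriented S B),
    ∀ k : ℕ, P251.St.SHCat.Hom (S.obj (P251.St.Cn k)) B.obj // IsBP p x.2.1 x.2.2 }
  have hu : ∀ j : J, ∃ (u : D.R ⟶ j.1.1.obj) (_ : IsMonHom u),
      vK D p u = wv hp.one_le fun i => j.1.2.2 (p ^ i - 1) := fun j => by
    obtain ⟨u, hu, h1⟩ := exists_under hD hp.one_le j.2.series
    exact ⟨u, hu, funext h1⟩
  obtain ⟨Y, hY, h1⟩ := mono_family (S := S) (fun j : J => j.1.1)
    (fun j i => j.1.2.2 (p ^ i - 1)) hp (fun j => hk_of_isBP hp j.2)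
    (fun j => by
      obtain ⟨u, i1, h1⟩ := hu j
      rw [← h1]
      exact vK_zero u)
    (fun j k => by
      obtain ⟨u, i1, h1⟩ := hu j
      rw [← h1]
      exact reg_of_isBP hp j.2 u (fun i => congrFun h1 i) k) hX
    (fun j => hB j.1.1 j.1.2.1 j.1.2.2 j.2)
  exact ⟨Y, hY, fun B o c hc => h1 ⟨⟨B, o, c⟩, hc⟩⟩

end Vale.Agent.P257.H762
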