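import Vale.Agent.P257.H762.AI

/-!
# P257: divisibility by `n` of a map from its vanishing in `S/n`

Conversions of the Toda relation into the form used by `toda_beta`.
-/

open CategoryTheory MonoidalCategory Limits Pretriangulated MonObj

set_option linter.unusedSectionVars false

universe v u

namespace Vale.Agent.P257.H762

open Vale.Agent.P251.S Vale.Agent.P251.T

variable {T : Type u} [Category.{v} T] [Preadditive T] [HasZeroObject T] [HasShift T ℤ]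
  [∀ n : ℤ, (shiftFunctor T n).Additive] [Pretriangulated T] [MonoidalCategory T]
  [SymmetricCategory T] [TensorTriangulated T]

variable {C : T} {n : ℤ} {i : 𝟙_ T ⟶ C} {δ : C ⟶ (𝟙_ T)⟦(1 : ℤ)⟧}

/-- If `F ⊗ i = 0` for `i : S ⟶ S/n`, then `F` is divisible by `n`. -/
theorem exists_smul_of_tensor (hC : Triangle.mk (n • 𝟙 (𝟙_ T)) i δ ∈ distTriang T)
    {A B : T} (F : A ⟶ B) (h : F ⊗ₘ i = 0) : ∃ g : A ⟶ B, n • g = F := by
  have hT := dist_whiskerLeft B hC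
  obtain ⟨g, hg⟩ : ∃ g : A ⊗ 𝟙_ T ⟶ B ⊗ 𝟙_ T, F ▷ 𝟙_ T = g ≫ (B ◁ (n • 𝟙 (𝟙_ T))) :=
    Triangle.coyoneda_exact₂ _ hT (F ▷ 𝟙_ T) (by
      change (F ▷ 𝟙_ T) ≫ (B ◁ i) = 0
      rw [← tensorHom_def, h])
  rw [whiskerLeft_zsmul', MonoidalCategory.whiskerLeft_id, Preadditive.comp_zsmul,
    Category.comp_id] at hg
  refine ⟨(ρ_ A).inv ≫ g ≫ (ρ_ B).hom, ?_⟩
  rw [← Preadditive.comp_zsmul, ← Preadditive.zsmul_comp, ← hg, rightUnitor_naturality,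
    Iso.inv_hom_id_assoc]

/-- If `F ⊗ 𝟙_{S/n} = 0`, then `F` is divisible by `n`. -/
theorem exists_smul_of_whiskerRight (hC : Triangle.mk (n • 𝟙 (𝟙_ T)) i δ ∈ distTriang T)
    {A B : T} (F : A ⟶ B) (h : F ▷ C = 0) : ∃ g : A ⟶ B, n • g = F :=
  exists_smul_of_tensor hC F (by rw [tensorHom_def', h, comp_zero])

/-- If `𝟙_{S/n} ⊗ F = 0`, then `F` is divisible by `n`. -/
theorem exists_smul_of_whiskerLeft (hC : Triangle.mk (n • 𝟙 (𝟙_ T)) i δ ∈ distTriang T)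
    {A B : T} (F : A ⟶ B) (h : C ◁ F = 0) : ∃ g : A ⟶ B, n • g = F := by
  apply exists_smul_of_whiskerRight hC F
  have h1 := AI.braid (𝟙 C) F
  rw [id_tensorHom, tensorHom_id] at h1
  exact h1.eq_zero' h

/-- If `F ≫ i⟦j⟧ = 0`, then `F : A ⟶ 𝟙⟦j⟧` is divisible by `n`. -/
theorem exists_smul_of_comp_shift (hC : Triangle.mk (n • 𝟙 (𝟙_ T)) i δ ∈ distTriang T)
    {A : T} {j : ℤ} (F : A ⟶ (𝟙_ T)⟦j⟧) (h : F ≫ i⟦j⟧' = 0) :
    ∃ g : A ⟶ (𝟙_ T)⟦j⟧, n • g = F := by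
  have hT := Triangle.shift_distinguished _ hC j
  obtain ⟨g, hg⟩ : ∃ g : A ⟶ (𝟙_ T)⟦j⟧,
      F = g ≫ (j.negOnePow • (n • 𝟙 (𝟙_ T))⟦j⟧') :=
    Triangle.coyoneda_exact₂ _ hT F (by
      change F ≫ (j.negOnePow • i⟦j⟧') = 0
      rw [Linear.comp_units_smul, h, smul_zero])
  refine ⟨j.negOnePow • g, ?_⟩
  rw [hg, Functor.map_zsmul, CategoryTheory.Functor.map_id, Linear.comp_units_smul,
    Preadditive.comp_zsmul, Category.comp_id, smul_comm]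

/-- The same for a target isomorphic to `𝟙⟦j⟧`. -/
theorem exists_smul_of_comp_iso (hC : Triangle.mk (n • 𝟙 (𝟙_ T)) i δ ∈ distTriang T)
    {A B : T} {j : ℤ} (F : A ⟶ B) (s : B ≅ (𝟙_ T)⟦j⟧) (h : F ≫ s.hom ≫ i⟦j⟧' = 0) :
    ∃ g : A ⟶ B, n • g = F := by
  obtain ⟨g, hg⟩ := exists_smul_of_comp_shift hC (F ≫ s.hom) (by rw [Category.assoc, h])
  exact ⟨g ≫ s.inv, by rw [← Preadditive.zsmul_comp, hg, Category.assoc, Iso.hom_inv_id,
    Category.comp_id]⟩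

/-- Conversely: if `F` is divisible by `n` and `n` kills `M`, then `F ⊗ M = 0`. -/
theorem whiskerRight_eq_zero_of_exists {M : T} (hM : Kil n M) {A B : T} {F : A ⟶ B}
    (h : ∃ g : A ⟶ B, n • g = F) : F ▷ M = 0 := by
  obtain ⟨g, rfl⟩ := h
  rw [whiskerRight_zsmul', ← Category.comp_id (g ▷ M), ← Preadditive.comp_zsmul]
  have h1 : n • 𝟙 (B ⊗ M) = 0 := by
    rw [← MonoidalCategory.whiskerLeft_id, ← whiskerLeft_zsmul', hM, MonoidalPreadditive.whiskerLeft_zero]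
  rw [h1, comp_zero]

end Vale.Agent.P257.H762
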