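import Vale.Agent.P251.S.CobarR
import Vale.Agent.P251.S.Amitsur
import Vale.Agent.P251.S.TensorShift

/-!
# P257, Toda lemma: the class `G : S ⟶ A ⊗ K`

Let `𝟙 -e→ K -π→ S -α→ 𝟙⟦1⟧` be a distinguished triangle and `h : K ⟶ A` a map to a monoid with
`e ≫ h = η`.  Then `A ⊗ K` splits: there is `G : S ⟶ A ⊗ K` with `G ≫ (A ◁ π) = - unit` and
`G ≫ (A ◁ h) ≫ μ = 0`.  If `f₀ f₁ : A ⟶ X` are homomorphisms with `h ≫ f₁ - h ≫ f₀ = π ≫ τ`
then the images of `G` differ by `τ · e` (`G_diff`).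
-/

open CategoryTheory MonoidalCategory MonObj Limits Pretriangulated

universe v u

namespace Vale.Agent.P257.H762

open Vale.Agent.P251.S Vale.Agent.P251.T

variable {T : Type u} [Category.{v} T] [Preadditive T] [HasZeroObject T] [HasShift T ℤ]
  [∀ n : ℤ, (shiftFunctor T n).Additive] [Pretriangulated T] [MonoidalCategory T]
  [SymmetricCategory T] [TensorTriangulated T]

section

variable {K S A : T} [MonObj A] {e : 𝟙_ T ⟶ K} {π : K ⟶ S} {α : S ⟶ (𝟙_ T)⟦(1 : ℤ)⟧}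
  (hK : Triangle.mk e π α ∈ distTriang T)

include hK

omit [SymmetricCategory T] [TensorTriangulated T] in
lemma e_π : e ≫ π = 0 := comp_distTriang_mor_zero₁₂ _ hK

lemma exists_G {h : K ⟶ A} (he : e ≫ h = η[A]) :
    ∃ G : S ⟶ A ⊗ K, G ≫ (A ◁ π) = -unitMap A S ∧ G ≫ (A ◁ h) ≫ μ[A] = 0 := by
  have hd := dist_whiskerLeft A hK
  have hr : (A ◁ e) ≫ ((A ◁ h) ≫ μ[A] ≫ (ρ_ A).inv) = 𝟙 _ := by
    rw [← MonoidalCategory.whiskerLeft_comp_assoc, he, MonObj.mul_one_assoc, Iso.hom_inv_id]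
  obtain ⟨σ, h1, h2⟩ : ∃ σ : A ⊗ S ⟶ A ⊗ K, σ ≫ (A ◁ π) = 𝟙 (A ⊗ S) ∧
      (A ◁ π) ≫ σ = 𝟙 (A ⊗ K) - ((A ◁ h) ≫ μ[A] ≫ (ρ_ A).inv) ≫ (A ◁ e) :=
    exists_section_of_retraction _ hd ((A ◁ h) ≫ μ[A] ≫ (ρ_ A).inv) hr
  have h3 : σ ≫ (A ◁ h) ≫ μ[A] = 0 := by
    have h4 : σ ≫ (A ◁ h) ≫ μ[A] = σ ≫ ((A ◁ π) ≫ σ) ≫ (A ◁ h) ≫ μ[A] := by
      rw [Category.assoc, reassoc_of% h1]
    rw [h2] at h4
    have h5 : ((A ◁ h) ≫ μ[A] ≫ (ρ_ A).inv) ≫ (A ◁ e) ≫ (A ◁ h) ≫ μ[A] = (A ◁ h) ≫ μ[A] := by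
      rw [← MonoidalCategory.whiskerLeft_comp_assoc, he, MonObj.mul_one]
      simp
    rw [Preadditive.sub_comp, Category.assoc _ (A ◁ e), h5, Category.id_comp, sub_self,
      comp_zero] at h4
    exact h4
  refine ⟨-(unitMap A S ≫ σ), ?_, ?_⟩
  · rw [Preadditive.neg_comp, Category.assoc, h1]
    exact congrArg Neg.neg (Category.comp_id _)
  · rw [Preadditive.neg_comp, Category.assoc, h3, comp_zero, neg_zero]

lemma eq_zero_of_split {h : K ⟶ A} (he : e ≫ h = η[A]) {Z : T} (y : Z ⟶ A ⊗ K)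
    (h1 : y ≫ (A ◁ π) = 0) (h2 : y ≫ (A ◁ h) ≫ μ[A] = 0) : y = 0 := by
  obtain ⟨z, rfl⟩ : ∃ z : Z ⟶ A ⊗ 𝟙_ T, y = z ≫ (A ◁ e) :=
    Triangle.coyoneda_exact₂ _ (dist_whiskerLeft A hK) y h1
  rw [Category.assoc, ← MonoidalCategory.whiskerLeft_comp_assoc, he, MonObj.mul_one] at h2
  have : z = 0 := by
    rw [← cancel_mono (ρ_ A).hom, h2, zero_comp]
  rw [this, zero_comp]

/-- The two images of `G` differ by `τ · e`. -/
theorem G_diff {X : T} [MonObj X] {h : K ⟶ A} (he : e ≫ h = η[A]) {G : S ⟶ A ⊗ K}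
    (hG1 : G ≫ (A ◁ π) = -unitMap A S) (hG2 : G ≫ (A ◁ h) ≫ μ[A] = 0)
    (f₀ f₁ : A ⟶ X) [IsMonHom f₀] [IsMonHom f₁] {τ : S ⟶ X}
    (hτ : h ≫ f₁ - h ≫ f₀ = π ≫ τ) :
    G ≫ (f₁ ▷ K) = G ≫ (f₀ ▷ K) + τ ≫ (ρ_ X).inv ≫ (X ◁ e) := by
  have he0 : e ≫ (h ≫ f₀) = η[X] := by rw [reassoc_of% he, IsMonHom.one_hom]
  have hu : ∀ (f : A ⟶ X) [IsMonHom f], G ≫ (f ▷ K) ≫ (X ◁ π) = -unitMap X S := by
    intro f _
    rw [← whisker_exchange, reassoc_of% hG1, Preadditive.neg_comp]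
    congr 1
    rw [unitMap, unitMap, Category.assoc, ← comp_whiskerRight, IsMonHom.one_hom]
  have hr : ∀ (f : A ⟶ X) [IsMonHom f], G ≫ (f ▷ K) ≫ (X ◁ (h ≫ f)) ≫ μ[X] = 0 := by
    intro f _
    have : (f ▷ K) ≫ (X ◁ (h ≫ f)) ≫ μ[X] = (A ◁ h) ≫ μ[A] ≫ f := by
      rw [IsMonHom.mul_hom, tensorHom_def, MonoidalCategory.whiskerLeft_comp, Category.assoc,
        ← whisker_exchange_assoc, Category.assoc]
    rw [this, reassoc_of% hG2, zero_comp]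
  have heπ := e_π hK
  have key := eq_zero_of_split hK he0 (G ≫ (f₁ ▷ K) - G ≫ (f₀ ▷ K) - τ ≫ (ρ_ X).inv ≫ (X ◁ e))
    (by
      rw [Preadditive.sub_comp, Preadditive.sub_comp, Category.assoc, Category.assoc, hu, hu,
        sub_self, Category.assoc, Category.assoc, ← MonoidalCategory.whiskerLeft_comp, heπ,
        MonoidalPreadditive.whiskerLeft_zero, comp_zero, comp_zero, sub_zero])
    (by
      have h3 : h ≫ f₀ = h ≫ f₁ - π ≫ τ := by rw [← hτ]; abel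
      have h4 : (X ◁ (h ≫ f₀)) = (X ◁ (h ≫ f₁)) - (X ◁ (π ≫ τ)) := by
        rw [h3]
        exact (tensorLeft X).map_sub
      have h5 : G ≫ (f₁ ▷ K) ≫ (X ◁ (h ≫ f₀)) ≫ μ[X] = τ := by
        rw [h4, Preadditive.sub_comp, Preadditive.comp_sub, Preadditive.comp_sub, hr f₁,
          MonoidalCategory.whiskerLeft_comp, Category.assoc, reassoc_of% hu f₁,
          Preadditive.neg_comp, zero_sub, neg_neg, unitMap, Category.assoc,
          ← whisker_exchange_assoc, MonObj.one_mul]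
        simp
      rw [Preadditive.sub_comp, Preadditive.sub_comp, Category.assoc, Category.assoc, h5, hr f₀,
        Category.assoc, Category.assoc, ← MonoidalCategory.whiskerLeft_comp_assoc, he0,
        MonObj.mul_one, Iso.inv_hom_id, Category.comp_id]
      simp)
  rw [sub_sub, sub_eq_zero] at key
  exact key

end

end Vale.Agent.P257.H762
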